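import Vale.Agent.P267L.LT1

/-! P267, lifting part: equivalent bundles have the same curvature forms. -/

open scoped Manifold ContDiff Topology ENNReal
open Filter Metric Set MeasureTheory

noncomputable section

namespace Vale.Agent.P267

set_option linter.unusedSectionVars false

variable {M : Type} [TopologicalSpace M] [ChartedSpace C2 M] [T2Space M]

variable [IsManifold 𝓘(ℂ, C2) ω M]

/-- The logarithmic differential in the preferred charts. -/
def LT3_dl (f : M → ℂ) (x : M) : C2 →L[ℝ] ℂ := (f x)⁻¹ • dAt f x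

theorem LT3_sm {f : M → ℂ} {p : M} (h : SmAt f p) : ∀ᶠ x in 𝓝 p, SmAt f x := by
  filter_upwards [((chartAt C2 p).continuousAt (mem_chart_source C2 p)).tendsto.eventually
    (Eventually.eventually_nhds h), (chartAt C2 p).open_source.mem_nhds (mem_chart_source C2 p)]
    with x h1 h2
  exact ((isCh_chartAt p).sm x h2 f).2 h1

theorem LT3_df {f : M → ℂ} {p : M} (h : SmAt f p) :
    DifferentiableAt ℝ (f ∘ (chartAt C2 p).symm) (chartAt C2 p p) :=
  (Eventually.self_of_nhds h).differentiableAt (by simp)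

theorem LT3_chain {E : Type} [NormedAddCommGroup E] [NormedSpace ℝ E] {f : M → E} {T : C2 → M}
    {z : C2} {Q : OpenPartialHomeomorph M C2} (hq : T z ∈ Q.source)
    (hf : DifferentiableAt ℝ (f ∘ Q.symm) (Q (T z))) (hc : ContinuousAt T z)
    (hd : DifferentiableAt ℝ (Q ∘ T) z) :
    (fderiv ℝ (f ∘ Q.symm) (Q (T z))).comp (fderiv ℝ (Q ∘ T) z) = fderiv ℝ (f ∘ T) z := by
  have e : f ∘ T =ᶠ[𝓝 z] (f ∘ Q.symm) ∘ Q ∘ T := by
    filter_upwards [hc.preimage_mem_nhds (Q.open_source.mem_nhds hq)] with y hy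
    exact congrArg f (Q.left_inv hy).symm
  rw [e.fderiv_eq]
  exact (fderiv_comp z hf hd).symm

theorem LT3_tr {P Q : OpenPartialHomeomorph M C2} (hP : IsCh P) (hQ : IsCh Q) {z : C2}
    (hz : z ∈ P.target) (hq : P.symm z ∈ Q.source) : AnalyticAt ℂ (Q ∘ P.symm) z := by
  have h := hP.tr hQ (P.map_target hz) hq
  rwa [P.right_inv hz] at h

theorem LT3_rd {T : C2 → C2} {z : C2} (h : AnalyticAt ℂ T z) : DifferentiableAt ℝ T z :=
  h.differentiableAt.restrictScalars ℝ

theorem LT3_in {P : OpenPartialHomeomorph M C2} (hP : IsCh P) {f : M → ℂ} {z : C2}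
    (hz : z ∈ P.target) (hf : SmAt f (P.symm z)) : inChart P (LT3_dl f) =ᶠ[𝓝 z]
      fun y => ((f ∘ P.symm) y)⁻¹ • fderiv ℝ (f ∘ P.symm) y := by
  filter_upwards [(P.continuousAt_symm hz).tendsto.eventually (LT3_sm hf),
    P.open_target.mem_nhds hz] with y h1 h2
  rw [inChart, LT3_dl, ContinuousLinearMap.smul_comp, dAt,
    LT3_chain (mem_chart_source C2 _) (LT3_df h1) (P.continuousAt_symm h2)
      (LT3_rd (LT3_tr hP (isCh_chartAt _) h2 (mem_chart_source C2 _)))]
  rfl

theorem LT3_cd {F : C2 → ℂ} {z : C2} (hF : ContDiffAt ℝ ∞ F z) (h0 : F z ≠ 0) (w : C2) :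
    ContDiffAt ℝ ∞ (fun y => ((F y)⁻¹ • fderiv ℝ F y) w) z :=
  (hF.inv h0).mul ((hF.fderiv_right (m := ∞) le_rfl).clm_apply contDiffAt_const)

theorem LT3_mul {f g : M → ℂ} {x : M} (hf : SmAt f x) (hg : SmAt g x) (f0 : f x ≠ 0)
    (g0 : g x ≠ 0) : LT3_dl (f * g) x = LT3_dl f x + LT3_dl g x := by
  have e : dAt (f * g) x = _ := fderiv_mul (LT3_df hf) (LT3_df hg)
  simp only [Function.comp_apply, (chartAt C2 x).left_inv (mem_chart_source C2 x)] at e
  rw [LT3_dl, LT3_dl, LT3_dl, e, smul_add, smul_smul, smul_smul, Pi.mul_apply, add_comm]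
  congr 2 <;> field_simp

theorem LT3_congr {f g : M → ℂ} {x : M} (e : f =ᶠ[𝓝 x] g) : LT3_dl f x = LT3_dl g x := by
  have e' : f ∘ (chartAt C2 x).symm =ᶠ[𝓝 (chartAt C2 x x)] g ∘ (chartAt C2 x).symm :=
    e.comp_tendsto ((chartAt C2 x).tendsto_symm (mem_chart_source C2 x))
  rw [LT3_dl, LT3_dl, dAt, dAt, e'.fderiv_eq, e.self_of_nhds]

theorem LT3_diff {P : OpenPartialHomeomorph M C2} (hP : IsCh P) {α : M → C2 →L[ℝ] ℂ} {z : C2}
    (hz : z ∈ P.target) (h : ∀ w, DifferentiableAt ℝ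
      (fun y => inChart (chartAt C2 (P.symm z)) α y w) (chartAt C2 (P.symm z) (P.symm z)))
    (w : C2) : DifferentiableAt ℝ (fun y => inChart P α y w) z := by
  have hT := LT3_tr hP (isCh_chartAt _) hz (mem_chart_source C2 (P.symm z))
  have hD : DifferentiableAt ℝ (fun y => fderiv ℝ (chartAt C2 (P.symm z) ∘ P.symm) y w) z :=
    ((((hT.contDiffAt (n := ∞)).restrict_scalars ℝ).fderiv_right (m := ∞) le_rfl).clm_apply
      contDiffAt_const).differentiableAt (by simp)
  have hQ := isCh_chartAt (P.symm z)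
  have hq := mem_chart_source C2 (P.symm z)
  generalize chartAt C2 (P.symm z) = Q at h hT hD hQ hq
  let b := Module.finBasis ℝ C2
  have h1 : DifferentiableAt ℝ (fun y => ∑ i, b.coord i (fderiv ℝ (Q ∘ P.symm) y w) •
      inChart Q α ((Q ∘ P.symm) y) (b i)) z :=
    DifferentiableAt.fun_sum fun i _ =>
      ((LinearMap.toContinuousLinearMap (b.coord i)).differentiableAt.comp z hD).smul
        (DifferentiableAt.comp (g := fun y => inChart Q α y (b i)) z (h (b i)) (LT3_rd hT))
  refine h1.congr_of_eventuallyEq ?_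
  filter_upwards [(P.continuousAt_symm hz).preimage_mem_nhds (Q.open_source.mem_nhds hq),
    P.open_target.mem_nhds hz] with y h2 h3
  have h4 := LT3_chain (f := chartAt C2 (P.symm y)) h2
    (LT3_rd (hQ.tr (isCh_chartAt _) h2 (mem_chart_source C2 _))) (P.continuousAt_symm h3)
    (LT3_rd (LT3_tr hP hQ h3 h2))
  simp only [← map_smul, ← map_sum, Module.Basis.coord_apply, b.sum_repr]
  rw [inChart, inChart, Function.comp_apply, Q.left_inv h2, ← h4]
  rfl

theorem IsConnection.equiv {G : M ≃ₜ M} (hG : ContMDiff 𝓘(ℂ, C2) 𝓘(ℂ, C2) ω G)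
    {u v : M → M → ℂ} {θ : M → M → C2 →L[ℝ] ℂ} (hu : IsBundle SmAt u) (hv : IsBundle SmAt v)
    (hu' : pull G u = u) (hv' : pull G v = v) (h : IsConnection G u θ) {l : M → ℂ}
    (h0 : ∀ p, l p ≠ 0) (hl : ∀ p, l (G p) = l p) (hs : ∀ p, SmAt (v p * l / u p) p) :
    ∃ θ', IsConnection G v θ' ∧ ∀ P : OpenPartialHomeomorph M C2, IsCh P → ∀ z ∈ P.target,
      curv P θ' z = curv P θ z := by
  have s0 : ∀ p, ∀ᶠ x in 𝓝 p, (v p * l / u p) x ≠ 0 := fun p => by
    filter_upwards [hu.ne p, hv.ne p] with x h1 h2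
    exact div_ne_zero (mul_ne_zero h2 (h0 x)) h1
  have hadd : ∀ (P : OpenPartialHomeomorph M C2) (p : M),
      inChart P (fun x => θ p x + LT3_dl (v p * l / u p) x) =
        inChart P (θ p) + inChart P (LT3_dl (v p * l / u p)) := fun P p =>
    funext fun _ => ContinuousLinearMap.add_comp _ _ _
  refine ⟨fun p x => θ p x + LT3_dl (v p * l / u p) x, ⟨fun p w => ?_, fun p => ?_, fun p => ?_⟩,
    fun P hP z hz => ?_⟩
  · have hp := mem_chart_source C2 p
    have h1 := LT3_in (isCh_chartAt p) (f := v p * l / u p) ((chartAt C2 p).map_source hp)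
      (by rw [(chartAt C2 p).left_inv hp]; exact hs p)
    filter_upwards [h.smooth p w, h1.eventuallyEq_nhds, hs p,
      ((chartAt C2 p).tendsto_symm hp).eventually (s0 p)] with z k1 k2 k3 k4
    rw [hadd]
    refine k1.add ((LT3_cd k3 k4 w).congr_of_eventuallyEq ?_)
    filter_upwards [k2] with y hy
    exact congrArg (fun L : C2 →L[ℝ] ℂ => L w) hy
  · filter_upwards [h.compat p, hu p, hv p, (hu.ne p).eventually_nhds.eventually_nhds,
      (hv.ne p).eventually_nhds, (LT3_sm (hs p)).eventually_nhds, (s0 p).eventually_nhds]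
      with q k1 k2 k3 k4 k5 k6 k7
    filter_upwards [k1, LT3_sm k2.2, LT3_sm k3.2, k4, k5, k6, k7, hu.ne q,
      (hv.ne q).eventually_nhds, LT3_sm (hs q), s0 q] with x m1 m2 m3 m4 m5 m6 m7 m8 m9 m10 m11
    have e1 := LT3_mul m2 m6 (div_ne_zero m4.self_of_nhds m8) m7
    have e2 := LT3_mul m3 m10 (div_ne_zero m5 m9.self_of_nhds) m11
    have e3 : u p / u q * (v p * l / u p) =ᶠ[𝓝 x] v p / v q * (v q * l / u q) := by
      filter_upwards [m4, m9] with y n1 n2
      simp only [Pi.mul_apply, Pi.div_apply]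
      field_simp
    rw [LT3_congr e3, e2] at e1
    change _ = LT3_dl (u p / u q) x at m1
    change _ = LT3_dl (v p / v q) x
    rw [add_sub_add_comm, m1, ← add_sub_assoc, ← e1, add_sub_cancel_right]
  · filter_upwards [h.per p, (G.continuous.tendsto p).eventually (LT3_sm (hs (G p)))] with x k1 k2
    have e : v p * l / u p = (v (G p) * l / u (G p)) ∘ G := by
      funext y
      simp only [Pi.mul_apply, Pi.div_apply, Function.comp_apply, hl]
      rw [← congrFun (congrFun hu' p) y, ← congrFun (congrFun hv' p) y]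
      rfl
    have hx := mem_chart_source C2 x
    have e1 : (G ∘ (chartAt C2 x).symm) (chartAt C2 x x) = G x :=
      congrArg G ((chartAt C2 x).left_inv hx)
    have k3 : ContMDiffAt 𝓘(ℂ, C2) 𝓘(ℂ, C2) ω (G ∘ (chartAt C2 x).symm) (chartAt C2 x x) :=
      (hG _).comp _ (ah_cs hx)
    have k4 := LT3_chain (f := v (G p) * l / u (G p)) (T := G ∘ (chartAt C2 x).symm)
      (z := chartAt C2 x x) (Q := chartAt C2 (G x)) (by rw [e1]; exact mem_chart_source C2 _)
      (by rw [e1]; exact LT3_df k2) k3.continuousAt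
      (LT3_rd (contMDiffAt_iff_contDiffAt.1
        ((ah_c (mem_chart_source C2 (G x))).comp_of_eq k3 e1)).analyticAt)
    rw [e1] at k4
    rw [ContinuousLinearMap.add_comp, ← k1, LT3_dl, LT3_dl, ContinuousLinearMap.smul_comp, dAt, dAt,
      k4, e]
    rfl
  · funext a b
    have h1 := LT3_in hP hz (hs (P.symm z))
    have h2 := ((hP.sm _ (P.map_target hz) _).1 (hs (P.symm z))).self_of_nhds
    rw [P.right_inv hz] at h2
    have h3 := (s0 (P.symm z)).self_of_nhds
    simp only [curv]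
    rw [hadd, extD_add (LT3_diff hP hz fun w =>
      (h.smooth _ w).self_of_nhds.differentiableAt (by simp)) fun w => ?_, extD_congr h1,
      extD_dlog h2 h3, add_zero]
    refine ((LT3_cd h2 h3 w).differentiableAt (by simp)).congr_of_eventuallyEq ?_
    filter_upwards [h1] with y hy
    rw [hy]

end Vale.Agent.P267
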