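import Vale.Agent.P267L.LB

/-! P267, lifting part: frames and connections. -/

open scoped Manifold ContDiff Topology ENNReal
open Filter Metric Set MeasureTheory

noncomputable section

namespace Vale.Agent.P267

set_option linter.unusedSectionVars false

variable {M : Type} [TopologicalSpace M] [ChartedSpace C2 M] [T2Space M]

namespace Cov
variable {C : Cov M} {θ θ' : C.I → M → C2 →L[ℝ] ℂ} {F F' : C.I → M → ℂ} {N : ℕ}

theorem LC_rho {l : C.I} {p : M} {α : M → C2 →L[ℝ] ℂ} (h : p ∈ C.U l (3 / 2) → C.SmO α p) :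
    C.SmO (fun q => (C.rho l q : ℂ) • α q) p := by
  by_cases hp : p ∈ C.U l (3 / 2)
  · exact (h hp).smul (C.rho_sm l p)
  · refine smO_zero.congr ((C.rho_ev (by norm_num) hp).mono fun q hq => ?_)
    simp only [hq, Complex.ofReal_zero, Pi.zero_apply]
    exact (zero_smul ℂ (α q)).symm

theorem LC_ne (h : C.SFr F) {i j : C.I} {p : M} (hp : p ∈ C.U i (3 / 2) ∩ C.U j (3 / 2)) :
    (F i / F j) p ≠ 0 := div_ne_zero (h.ne i p hp.1) (h.ne j p hp.2)

theorem LC_drho (C : Cov M) : ∃ D : ℝ, 0 ≤ D ∧ ∀ l p, ‖C.d (fun q => (C.rho l q : ℂ)) p‖ ≤ D := by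
  obtain ⟨L, L0, hL⟩ := C.cmp_norm
  choose B hB using fun a : C.ι => (isCompact_closedBall (0 : C2) 1).exists_bound_of_continuousOn
    (f := fderiv ℝ ((fun q => (C.rho (a, 0) q : ℂ)) ∘ (C.ch (a, 0)).symm)) fun z hz =>
      ((C.sm_ball le_rfl (fun p _ => C.rho_sm (a, 0) p) z
        (closedBall_subset_ball (by norm_num) hz)).continuousAt_fderiv (by simp)).continuousWithinAt
  refine ⟨L * ∑ a, |B a|, by positivity, fun l p => ?_⟩
  have e : (fun q => (C.rho l q : ℂ)) =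
      (fun q => (C.rho (l.1, 0) q : ℂ)) ∘ (C.g ^ l.2 : M ≃ₜ M) := rfl
  rw [e, C.d_gz]
  by_cases h : (C.g ^ l.2) p ∈ (C.ch (l.1, 0)).source ∧ ‖C.ch (l.1, 0) ((C.g ^ l.2) p)‖ ≤ 1
  · refine (hL (l.1, 0) _ _ ⟨h.1, h.2.trans_lt (by norm_num)⟩).2.trans
      (mul_le_mul_of_nonneg_left ?_ L0.le)
    rw [C.cmp_d (C.isCh _) h.1 (C.rho_sm _ _)]
    exact ((hB _ _ (mem_closedBall_zero_iff.2 h.2)).trans (le_abs_self _)).trans
      (Finset.single_le_sum (f := fun a => |B a|) (fun _ _ => abs_nonneg _) (Finset.mem_univ l.1))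
  · rw [C.d_congr (h := fun _ => 0) ((C.SM1_ev h).mono fun q hq => by simp [hq]), C.d_const,
      norm_zero]
    positivity

theorem LC_sum {ι : Type} (W : Finset ι) {A : ι → C2 → C2 →L[ℝ] ℂ} {z : C2}
    (h : ∀ j ∈ W, ∀ v, DifferentiableAt ℝ (fun y => A j y v) z) (v w : C2) :
    extD (fun y => ∑ j ∈ W, A j y) z v w = ∑ j ∈ W, extD (A j) z v w := by
  simp only [extD, sum_apply, Finset.sum_sub_distrib]
  rw [fderiv_fun_sum fun j hj => h j hj w, fderiv_fun_sum fun j hj => h j hj v, sum_apply,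
    sum_apply]

theorem LC_bs (A : C2 →L[ℝ] ℂ) (a : Fin 4) : ‖A (bs a)‖ ≤ ‖A‖ := by
  refine (A.le_opNorm _).trans (mul_le_of_le_one_right (norm_nonneg _) ?_)
  fin_cases a <;> simp [bs, Pi.norm_single]

theorem shf_add {V : Type} (k m : ℤ) (F : C.I → M → V) :
    C.shf k (C.shf m F) = C.shf (k + m) F := by
  funext i p
  show F (i.1, i.2 - k - m) ((C.g ^ m) ((C.g ^ k) p)) = F (i.1, i.2 - (k + m)) ((C.g ^ (k + m)) p)
  rw [sub_sub, ← C.gz_add, add_comm m k]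
theorem shf_zero {V : Type} (F : C.I → M → V) : C.shf 0 F = F := by
  funext i p
  show F (i.1, i.2 - 0) ((C.g ^ (0 : ℤ)) p) = F i p
  rw [sub_zero, zpow_zero]
  rfl
theorem Pd.mul_int {V : Type} {F : C.I → M → V} (h : C.Pd N F) (l : ℤ) :
    C.shf (l * N) F = F := by
  have h0 : C.shf N F = F := h
  have h1 : C.shf (-N) F = F :=
    (congrArg (C.shf (-N)) h0).symm.trans (by rw [shf_add, neg_add_cancel, shf_zero])
  induction l using Int.induction_on with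
  | zero => rw [zero_mul, shf_zero]
  | succ l ih => rw [add_mul, one_mul, ← shf_add, h0, ih]
  | pred l ih => rw [sub_mul, one_mul, sub_eq_add_neg, ← shf_add, h1, ih]
theorem Pd.dvd {V : Type} {F : C.I → M → V} {P : ℕ} (h : C.Pd P F) (hd : P ∣ N) :
    C.Pd N F := by
  obtain ⟨c, rfl⟩ := hd
  rw [Pd, Nat.cast_mul, mul_comm]
  exact h.mul_int c
theorem Pd.shf {V : Type} {F : C.I → M → V} (h : C.Pd N F) (k : ℤ) :
    C.Pd N (C.shf k F) := by
  have h0 : C.shf N F = F := h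
  rw [Pd, shf_add, add_comm, ← shf_add, h0]
theorem CS.shf {V : Type} {c : V} {F : C.I → M → V} {a b : ℝ} (h : C.CS c F a b) (k : ℤ) :
    C.CS c (C.shf k F) (a - k) (b - k) := fun i p hp =>
  h _ _ fun e => hp (by rw [C.t_gz] at e; constructor <;> linarith [e.1, e.2])
theorem CS.mono {V : Type} {c : V} {F : C.I → M → V} {a b a' b' : ℝ} (h : C.CS c F a b)
    (ha : a' ≤ a) (hb : b ≤ b') : C.CS c F a' b' :=
  fun i p hp => h i p fun e => hp (Icc_subset_Icc ha hb e)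
theorem HFr.mono {r r' : ℝ} (h : C.HFr F r) (hr : r' ≤ r) : C.HFr F r' :=
  ⟨fun i p hp => h.ne i p (C.U_mono i hr hp),
    fun i j p hp => h.hol i j p ⟨C.U_mono i hr hp.1, C.U_mono j hr hp.2⟩,
    fun i p hp => h.met i p (C.U_mono i hr hp)⟩
theorem HFr.sFr {r : ℝ} (h : C.HFr F r) (hr : 3 / 2 ≤ r) : C.SFr F :=
  ⟨(h.mono hr).ne, fun i j p hp => ((h.mono hr).hol i j p hp).smAt⟩
theorem sFr_one : C.SFr 1 :=
  ⟨fun _ _ _ => one_ne_zero, fun _ _ _ _ => smAt_one.congr (.of_forall fun _ => (div_one _).symm)⟩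
theorem SFr.mul (h : C.SFr F) (h' : C.SFr F') : C.SFr (F * F') :=
  ⟨fun i p hp => mul_ne_zero (h.ne i p hp) (h'.ne i p hp), fun i j p hp =>
    ((h.sm i j p hp).mul (h'.sm i j p hp)).congr
      (.of_forall fun _ => (mul_div_mul_comm _ _ _ _).symm)⟩
theorem SFr.zpow (h : C.SFr F) (m : ℤ) : C.SFr (F ^ m) :=
  ⟨fun i p hp => zpow_ne_zero m (h.ne i p hp), fun i j p hp =>
    ((h.sm i j p hp).zpow (LC_ne h hp) m).congr (.of_forall fun _ => div_zpow _ _ _)⟩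
theorem SFr.div (h : C.SFr F) (h' : C.SFr F') : C.SFr (F / F') :=
  ⟨fun i p hp => div_ne_zero (h.ne i p hp) (h'.ne i p hp), fun i j p hp =>
    ((h.sm i j p hp).div (h'.sm i j p hp) (LC_ne h' hp)).congr
      (.of_forall fun _ => div_div_div_comm _ _ _ _)⟩
theorem SFr.shf (h : C.SFr F) (k : ℤ) : C.SFr (C.shf k F) :=
  ⟨fun i p hp => h.ne _ _ ((C.U_shift i k _ p).2 hp), fun i j p hp =>
    (C.sm_gz k).2 (h.sm _ _ _ ⟨(C.U_shift i k _ p).2 hp.1, (C.U_shift j k _ p).2 hp.2⟩)⟩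
theorem con_one : C.Con 1 0 :=
  ⟨fun _ _ _ => smO_zero, fun _ _ _ _ => (sub_self _).trans
    ((C.dl_congr (.of_forall fun _ => div_one _)).trans (C.dl_const 1)).symm⟩
theorem Con.mul (hF : C.SFr F) (hF' : C.SFr F') (h : C.Con F θ) (h' : C.Con F' θ') :
    C.Con (F * F') (θ + θ') := by
  refine ⟨h.sm.add h'.sm, fun i j p hp => ?_⟩
  rw [show (F * F') i / (F * F') j = F i / F j * (F' i / F' j) from
    funext fun _ => mul_div_mul_comm _ _ _ _, C.dl_mul (hF.sm i j p hp) (hF'.sm i j p hp)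
    (LC_ne hF hp) (LC_ne hF' hp), ← h.tr i j p hp, ← h'.tr i j p hp]
  exact add_sub_add_comm _ _ _ _
theorem Con.zpow (hF : C.SFr F) (h : C.Con F θ) (m : ℤ) :
    C.Con (F ^ m) ((m : ℂ) • θ) := by
  refine ⟨h.sm.smul m, fun i j p hp => ?_⟩
  rw [show (F ^ m) i / (F ^ m) j = (F i / F j) ^ m from funext fun _ => (div_zpow _ _ _).symm,
    C.dl_zpow (hF.sm i j p hp) (LC_ne hF hp), ← h.tr i j p hp, smul_sub]
  rfl
theorem Con.shf (h : C.Con F θ) (k : ℤ) : C.Con (C.shf k F) (C.shf k θ) :=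
  ⟨h.sm.shf k, fun i j p hp => (h.tr _ _ _
    ⟨(C.U_shift i k _ p).2 hp.1, (C.U_shift j k _ p).2 hp.2⟩).trans (C.dl_gz k).symm⟩
theorem hFr_kf : C.HFr C.kf 4 :=
  ⟨fun _ _ hp => C.kf_ne hp.1, fun _ _ _ hp => C.kf_hol hp.1.1 hp.2.1, fun i p hp =>
    (C.sm_gz i.2).2 (C.kc_sm i.1 _ ((C.ch_source i p).1 hp.1))⟩
theorem pd_kf (N : ℕ) : C.Pd N C.kf := by
  funext i p
  show C.kc i.1 ((C.g ^ (i.2 - N)) ((C.g ^ (N : ℤ)) p)) = C.kc i.1 ((C.g ^ i.2) p)
  rw [← C.gz_add, sub_add_cancel]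
theorem SFr.can (h : C.SFr F) : C.Con F (C.can F) := by
  refine ⟨fun i p hp => smO_sum _ fun j _ =>
    LC_rho fun hj => smO_dl (h.sm i j p ⟨hp, hj⟩) (LC_ne h ⟨hp, hj⟩), fun i j p hp => ?_⟩
  have m : ∀ l, p ∈ (C.ch l).source → l ∈ C.nb i := fun l => C.mem_nb hp.1.1
  rw [Cov.can, Cov.can, C.sum_nb (fun l => C.dl (F j / F l) p) (fun l => C.mem_nb hp.2.1) m,
    ← Finset.sum_sub_distrib, ← one_smul ℂ (C.dl (F i / F j) p), ← C.sum_rho m]
  refine Eq.trans (Finset.sum_congr rfl fun l _ => ?_) (Finset.sum_smul (R := ℂ)).symm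
  by_cases h0 : C.rho l p = 0
  · ext v
    simp [h0]
  · have hl := C.rho_U (by norm_num : (1 : ℝ) < 3 / 2) h0
    refine (smul_sub (C.rho l p : ℂ) _ _).symm.trans ?_
    rw [← C.dl_div (h.sm i l p ⟨hp.1, hl⟩) (h.sm j l p ⟨hp.2, hl⟩) (LC_ne h ⟨hp.1, hl⟩)
      (LC_ne h ⟨hp.2, hl⟩), C.dl_congr (f := F i / F l / (F j / F l)) (h := F i / F j)
      (mem_of_superset ((C.isOpen_U l _).mem_nhds hl) fun q hq =>
        div_div_div_cancel_right₀ (h.ne l q hq) _ _)]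
theorem can_shf (F : C.I → M → ℂ) (k : ℤ) : C.can (C.shf k F) = C.shf k (C.can F) := by
  funext i p
  refine Finset.sum_nbij' (fun j => (j.1, j.2 - k)) (fun j => (j.1, j.2 + k)) (fun j hj => ?_)
    (fun j hj => ?_) (fun j _ => by simp) (fun j _ => by simp) fun j _ => ?_
  · simp only [nb, Finset.mem_product, Finset.mem_univ, Finset.mem_Icc, true_and] at hj ⊢
    omega
  · simp only [nb, Finset.mem_product, Finset.mem_univ, Finset.mem_Icc, true_and] at hj ⊢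
    omega
  · rw [← C.dl_gz k, rho, rho, ← C.gz_add, sub_add_cancel]
    rfl
theorem Pd.can (h : C.Pd N F) : C.Pd N (C.can F) := by
  have h0 : C.shf N F = F := h
  rw [Pd, ← can_shf, h0]
theorem CS.can {a b : ℝ} (h : C.CS 1 F a b) : C.CS 0 (C.can F) a b := fun i p hp =>
  Finset.sum_eq_zero fun j _ => by
    rw [C.dl_congr (f := F i / F j) (h := fun _ => 1) (mem_of_superset
      ((isClosed_Icc.preimage C.continuous_t).isOpen_compl.mem_nhds hp) fun q hq => by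
        simp [h _ q hq]), C.dl_const]
    ext v
    simp
/-- A change of the frames. -/
theorem Con.gauge (hF : C.SFr F) (h : C.Con F θ) {s : C.I → M → ℂ}
    (hs : ∀ i, ∀ p ∈ C.U i (3 / 2), SmAt (s i) p ∧ s i p ≠ 0)
    (he : ∀ i j, ∀ p ∈ C.U i (3 / 2) ∩ C.U j (3 / 2),
      F' i p / F' j p = F i p * s i p / (F j p * s j p)) :
    C.Con F' fun i => θ i + C.dl (s i) := by
  refine ⟨(h.sm.cv_dl hs).1, fun i j p hp => ?_⟩
  obtain ⟨a1, a2⟩ := hs i p hp.1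
  obtain ⟨b1, b2⟩ := hs j p hp.2
  rw [C.dl_congr (f := F' i / F' j) (h := F i / F j * (s i / s j)) (mem_of_superset
    (((C.isOpen_U i _).inter (C.isOpen_U j _)).mem_nhds hp) fun q hq =>
      (he i j q hq).trans (mul_div_mul_comm _ _ _ _)), C.dl_mul (hF.sm i j p hp) (a1.div b1 b2)
    (LC_ne hF hp) (div_ne_zero a2 b2), C.dl_div a1 b1 a2 b2, ← h.tr i j p hp]
  exact add_sub_add_comm _ _ _ _

/-- The curvature of the canonical connection is small if the cocycle is almost constant. -/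
theorem can_bd (C : Cov M) : ∃ K : ℝ, 0 ≤ K ∧ ∀ (F : C.I → M → ℂ) (k : ℤ) (κ : ℝ), C.SFr F →
    0 ≤ κ → (∀ a j, ∀ p ∈ C.U (a, k) (3 / 2) ∩ C.U j (3 / 2), ‖C.dl (F (a, k) / F j) p‖ ≤ κ) →
    ‖C.cv (C.can F) k‖ ≤ K * κ := by
  obtain ⟨L, L0, hL⟩ := C.cmp_norm
  obtain ⟨m, hm⟩ := C.card_nb
  obtain ⟨D, D0, hD⟩ := LC_drho C
  refine ⟨m * (2 * (L * D * L)), by positivity, fun F k κ hF κ0 h => ?_⟩
  have K0 : 0 ≤ m * (2 * (L * D * L)) * κ := by positivity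
  refine (pi_norm_le_iff_of_nonneg K0).2 fun a => (ContinuousMap.norm_le _ K0).2 fun z => ?_
  rw [hF.can.sm.cv_apply]
  refine (pi_norm_le_iff_of_nonneg K0).2 fun b => (pi_norm_le_iff_of_nonneg K0).2 fun c => ?_
  obtain ⟨hp, e⟩ := C.symm_mem_U (a, k) (r := 3 / 2) (by norm_num)
    ((mem_closedBall_zero_iff.1 z.2).trans_lt (by norm_num))
  generalize (C.ch (a, k)).symm z = p at hp e
  have h3 := C.U_mono _ (by norm_num : (3 / 2 : ℝ) ≤ 3) hp
  have s : ∀ {α}, C.SmO α p → ∀ v,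
      DifferentiableAt ℝ (fun y => C.cmp (C.ch (a, k)) α y v) (C.ch (a, k) p) := fun h v =>
    (h.cmp_sm (C.isCh _) hp.1 v).self_of_nhds.differentiableAt (by simp)
  have e1 : C.cmp (C.ch (a, k)) (C.can F (a, k)) = fun y => ∑ j ∈ C.nb (a, k),
      C.cmp (C.ch (a, k)) (fun q => (C.rho j q : ℂ) • C.dl (F (a, k) / F j) q) y := by
    funext y
    ext v
    simp only [cmp, can, ContinuousLinearMap.comp_apply, sum_apply]
  rw [Om, ← e, e1, LC_sum _ fun j _ => s (LC_rho fun hj =>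
    smO_dl (hF.sm _ j p ⟨hp, hj⟩) (LC_ne hF ⟨hp, hj⟩)), mul_assoc, ← hm (a, k), ← nsmul_eq_mul]
  refine (norm_sum_le _ _).trans (Finset.sum_le_card_nsmul _ _ _ fun j _ => ?_)
  by_cases hj : p ∈ C.U j (3 / 2)
  · have a1 := hF.sm _ j p ⟨hp, hj⟩
    have a2 := LC_ne hF ⟨hp, hj⟩
    have a3 := ((hL (a, k) _ p h3).1.trans (mul_le_mul_of_nonneg_left (hD j p) L0.le))
    have a4 := ((hL (a, k) _ p h3).1.trans (mul_le_mul_of_nonneg_left (h a j p ⟨hp, hj⟩) L0.le))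
    rw [C.cmp_d (C.isCh _) hp.1 (C.rho_sm j p)] at a3
    have a5 := extD_smul (f := (fun q => (C.rho j q : ℂ)) ∘ (C.ch (a, k)).symm)
      ((((C.isCh (a, k)).sm p hp.1 _).1 (C.rho_sm j p)).self_of_nhds.differentiableAt (by simp))
      (s (smO_dl a1 a2)) (bs b) (bs c)
    rw [extD_dl a1 a2 (C.isCh _) hp.1, mul_zero, zero_add] at a5
    refine (congrArg _ a5).trans_le ((norm_sub_le _ _).trans ?_)
    rw [norm_mul, norm_mul]
    have a6 := fun b c => mul_le_mul ((LC_bs _ b).trans a3) ((LC_bs _ c).trans a4) (norm_nonneg _)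
      (by positivity)
    linarith [a6 b c, a6 c b]
  · rw [extD_congr (C.AD_cmp hp.1 (β := 0) ((C.rho_ev (by norm_num) hj).mono fun q hq => by
      simp only [hq, Complex.ofReal_zero, Pi.zero_apply]
      exact zero_smul ℂ (C.dl (F (a, k) / F j) q)))]
    simp only [extD, cmp, Pi.zero_apply, ContinuousLinearMap.zero_comp, zero_apply, fderiv_fun_const,
      sub_self, norm_zero]
    positivity

end Cov

end Vale.Agent.P267
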