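import Vale.Agent.P267L.Main
import Vale.Agent.P267D.Main
import Vale.Agent.P267D.Nef
import Vale.Agent.P267.Stmt4
import Vale.Agent.P267X.Main

/-! P267: the assembly for surfaces with first Betti number one. -/

open scoped Manifold ContDiff Topology ENNReal
open Filter Metric Set MeasureTheory

noncomputable section

namespace Vale.Agent.P267

theorem Nef.inv {M : Type} [TopologicalSpace M] [ChartedSpace C2 M] {G : M ≃ₜ M} {k : M → M → ℂ}
    {m : ℕ} {c : (M → M → ℂ) → Fin m → ℤ} (h : Nef G k c) : Nef (G⁻¹ : M ≃ₜ M) k c := by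
  intro u hu hp h0
  have a1 : ∀ x, (G⁻¹ : M ≃ₜ M) (G x) = x := G.symm_apply_apply
  have a2 : ∀ x, G ((G⁻¹ : M ≃ₜ M) x) = x := G.apply_symm_apply
  refine h u hu (DK_pull a1 hp) ?_
  have e : H0 (G⁻¹ : M ≃ₜ M) u = H0 G u := by
    unfold H0
    congr 1
    ext s
    exact and_congr_left fun _ => ⟨DK_comp a1, DK_comp a2⟩
  rwa [e] at h0

variable {X M : Type} [TopologicalSpace X] [ChartedSpace C2 X] [IsManifold 𝓘(ℂ, C2) ω X]
  [TopologicalSpace M] [ChartedSpace C2 M] [IsManifold 𝓘(ℂ, C2) ω M]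
  [CompactSpace X] [T2Space X] [T2Space M] [ConnectedSpace M]
  {π : M → X} {g : M ≃ₜ M}

omit [CompactSpace X] [T2Space X] [ConnectedSpace M] in
theorem IsCyclic.lat_inv (h : IsCyclic π g) {N m : ℕ} {k : M → M → ℂ} {L : Fin m → M → M → ℂ}
    {c : (M → M → ℂ) → Fin m → ℤ} (hL : IsLattice (g ^ N) k L c) : IsLattice (g⁻¹ ^ N) k L c := by
  have a1 := contMDiff_zpow g h.hol h.hol_inv N
  have a2 := contMDiff_zpow g h.hol h.hol_inv (-N)
  rw [zpow_natCast] at a1
  rw [zpow_neg, zpow_natCast] at a2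
  rw [inv_pow]
  exact hL.inv a1 a2

theorem curves3_of (herg : ∀ C : Cov M, C.Erg) (h : IsCyclic π g) (hb : firstBetti X = 1)
    {n : ℕ} (hL : ∀ N : ℕ, 0 < N → ∃ (L : Fin (n * N) → M → M → ℂ)
      (c : (M → M → ℂ) → Fin (n * N) → ℤ), IsLattice (g ^ N) (pull π (canon X)) L c ∧
        Nef (g ^ N : M ≃ₜ M) (pull π (canon X)) c) :
    ∃ C : Fin n → Set X, Function.Injective C ∧ ∀ i, IsRationalCurve (C i) := by
  rcases Nat.eq_zero_or_pos n with rfl | hn
  · exact ⟨Fin.elim0, fun i => i.elim0, fun i => i.elim0⟩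
  obtain ⟨L, c, h1, h2⟩ := hL 1 one_pos
  have h3 : IsLattice g (pull π (canon X)) L c := by simpa only [pow_one] using h1
  rcases h.drift hb h3 with ⟨t, ht⟩ | ⟨t, ht⟩
  · refine curves2_of herg ht (noTwisted_of_nef ht one_pos (by omega) h1 h2) fun N hN => ?_
    obtain ⟨L, c, h1, -⟩ := hL N hN
    exact ⟨L, c, h1⟩
  · refine curves2_of herg ht (noTwisted_of_nef ht one_pos (by omega) (h.lat_inv h1) ?_)
      fun N hN => ?_
    · rw [inv_pow]
      exact h2.inv
    · obtain ⟨L, c, h1, -⟩ := hL N hN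
      exact ⟨L, c, h.lat_inv h1⟩

theorem gss_of (herg : ∀ (M : Type) [TopologicalSpace M] [ChartedSpace C2 M] [T2Space M]
    [ConnectedSpace M] (C : Cov M), C.Erg) (hD : DOT) (hL : Lattices) (X : Type)
    [TopologicalSpace X] [ChartedSpace C2 X] (hX : IsSurface X) (h7 : IsClassVII X)
    (hm : IsMinimal X) (hb : 0 < secondBetti X) : HasGSS X := by
  obtain ⟨a1, a2, a3, a4⟩ := id hX
  obtain ⟨M, _, _, _, _, _, π, g, h4⟩ := P267X.exists_cyclic X h7.1
  refine hD X hX h7 hm hb (curves3_of (herg M) h4 h7.1 fun N hN => ?_)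
  obtain ⟨L, c, b1, b2⟩ := hL X hX h7 M π g h4 N hN
  exact ⟨L, c, b1, b2 hm⟩

end Vale.Agent.P267
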