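import Vale.Agent.P267L.LT2
import Vale.Agent.P267L.LT3
import Vale.Agent.P267.GC

/-! P267, lifting part: periodic frames. -/

open scoped Manifold ContDiff Topology ENNReal
open Filter Metric Set MeasureTheory

noncomputable section

namespace Vale.Agent.P267

set_option linter.unusedSectionVars false

variable {M : Type} [TopologicalSpace M] [ChartedSpace C2 M] [T2Space M]

namespace Cov
variable {C : Cov M}

theorem LT4_per {N : ℕ} {u : M → M → ℂ} (hp : pull (C.g ^ N : M ≃ₜ M) u = u) (j : ℤ) (p q : M) :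
    u ((C.g ^ ((N : ℤ) * j)) p) ((C.g ^ ((N : ℤ) * j)) q) = u p q := by
  have h1 : ∀ p q, u ((C.g ^ (N : ℤ)) p) ((C.g ^ (N : ℤ)) q) = u p q := fun p q => by
    rw [zpow_natCast]
    exact congrFun (congrFun hp p) q
  induction j using Int.induction_on generalizing p q with
  | zero => simp
  | succ k ih => rw [mul_add, mul_one, C.gz_add, C.gz_add, ih, h1]
  | pred k ih =>
    rw [← h1, ← C.gz_add, ← C.gz_add, show (N : ℤ) + N * (-(k : ℤ) - 1) = N * -(k : ℤ) by ring, ih]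

theorem LT4_sec {N : ℕ} {u : M → M → ℂ} (hp : pull (C.g ^ N : M ≃ₜ M) u = u)
    (hf : ∀ i : C.I, ∃ s : M → ℂ, ∀ p ∈ (C.ch i).source, s p ≠ 0 ∧ HolAt (u p * s) p) :
    ∃ σ : C.I → M → ℂ, (∀ i, ∀ p ∈ (C.ch i).source, σ i p ≠ 0 ∧ HolAt (u p * σ i) p) ∧
      ∀ (i : C.I) p, σ (i.1, i.2 - N) ((C.g ^ (N : ℤ)) p) = σ i p := by
  choose s hs using hf
  refine ⟨fun i p => s (i.1, i.2 % N) ((C.g ^ (i.2 - i.2 % N)) p), fun i p hi => ?_,
    fun i p => ?_⟩
  · have e : i.2 - i.2 % N = (N : ℤ) * (i.2 / N) := by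
      have := Int.emod_add_mul_ediv i.2 N
      linarith
    have h1 : (C.g ^ (i.2 - i.2 % N)) p ∈ (C.ch (i.1, i.2 % N)).source := by
      rw [C.ch_source, ← C.gz_add, add_sub_cancel]
      exact (C.ch_source i p).1 hi
    refine ⟨(hs _ _ h1).1, ((C.hol_gz _).2 (hs _ _ h1).2).congr (Eventually.of_forall fun q => ?_)⟩
    simp only [Function.comp_apply, Pi.mul_apply]
    rw [e, LT4_per hp]
  · simp only [Int.sub_emod_right]
    rw [← C.gz_add, show i.2 - N - i.2 % N + N = i.2 - i.2 % N by ring]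

theorem LT4_ratio {u : M → M → ℂ} (hu : IsBundle HolAt u) {s s' : M → ℂ} {p : M} (h0 : s p ≠ 0)
    (h : HolAt (u p * s) p) (h' : HolAt (u p * s') p) : HolAt (s' / s) p := by
  refine (h'.div h (mul_ne_zero (hu.ne p).self_of_nhds h0)).congr ?_
  filter_upwards [hu.ne p] with q hq
  simp only [Pi.div_apply, Pi.mul_apply]
  rw [mul_div_mul_left _ _ hq]

/-- Periodic Hermitian frames on the charts. -/
theorem frames_of {N : ℕ} (hN : 0 < N) {u : M → M → ℂ} (hu : IsBundle HolAt u)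
    (hp : pull (C.g ^ N : M ≃ₜ M) u = u)
    (hf : ∀ i : C.I, ∃ s : M → ℂ, ∀ p ∈ (C.ch i).source, s p ≠ 0 ∧ HolAt (u p * s) p) :
    ∃ (Φ : C.I → M → ℂ) (l : M → ℂ), C.HFr Φ 4 ∧ C.Pd N Φ ∧ (∀ p, l p ≠ 0) ∧
      (∀ p, l ((C.g ^ N) p) = l p) ∧ ∀ p, SmAt (u p * l / C.bun Φ p) p := by
  obtain ⟨σ, h1, h2⟩ := LT4_sec hp hf
  let Λ : M → ℝ := fun p => ∑ᶠ j : C.I, C.rho j p * ‖σ j p‖⁻¹
  have hΛ : ∀ i, ∀ p ∈ (C.ch i).source, Λ p = ∑ j ∈ C.nb i, C.rho j p * ‖σ j p‖⁻¹ :=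
    fun i p hi => finsum_eq_sum_of_support_subset _ fun j hj =>
      C.mem_nb hi (C.rho_supp (left_ne_zero_of_mul hj)).1
  have hpos : ∀ p, 0 < Λ p := fun p => by
    have hi := (C.mem_U_idx p).1
    rw [hΛ _ p hi]
    obtain ⟨j, hj, e⟩ := Finset.exists_ne_zero_of_sum_ne_zero
      ((C.rho_sum fun l hl => C.mem_nb hi hl).trans_ne one_ne_zero)
    refine Finset.sum_pos' (fun l _ => mul_nonneg (C.rho_nonneg _ _) (by positivity)) ⟨j, hj, ?_⟩
    exact mul_pos ((C.rho_nonneg _ _).lt_of_ne' e)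
      (inv_pos.2 (norm_pos_iff.2 (h1 j p (C.rho_supp e).1).1))
  have hne : ∀ p, (Λ p : ℂ) ≠ 0 := fun p => Complex.ofReal_ne_zero.2 (hpos p).ne'
  have hper : ∀ p, Λ ((C.g ^ (N : ℤ)) p) = Λ p := fun p => by
    simp only [Λ]
    rw [← finsum_comp_equiv ((Equiv.refl C.ι).prodCongr (Equiv.subRight (N : ℤ)))]
    refine finsum_congr fun j => ?_
    have e : ((Equiv.refl C.ι).prodCongr (Equiv.subRight (N : ℤ))) j = (j.1, j.2 - N) := rfl
    rw [e, h2]
    simp only [rho, ← C.gz_add, sub_add_cancel]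
  refine ⟨fun i p => (σ i p * Λ p)⁻¹, fun p => (Λ p : ℂ)⁻¹, ⟨fun i p hi => ?_,
    fun i j p hij => ?_, fun i p hi => ?_⟩, ?_, fun p => inv_ne_zero (hne p), fun p => ?_,
    fun p => ?_⟩
  · exact inv_ne_zero (mul_ne_zero (h1 i p hi.1).1 (hne p))
  · refine (LT4_ratio hu (h1 i p hij.1.1).1 (h1 i p hij.1.1).2 (h1 j p hij.2.1).2).congr
      (Eventually.of_forall fun q => ?_)
    simp only [Pi.div_apply]
    rw [inv_div_inv, mul_div_mul_right _ _ (hne q)]
  · have s1 : SmAt (∑ j ∈ C.nb i, fun q => (C.rho j q : ℂ) * (‖(σ i / σ j) q‖ : ℂ)) p :=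
      SmAt.sum fun j _ => C.rho_mul_sm (r := 4) (by norm_num) fun hj =>
        (LT4_ratio hu (h1 j p hj.1).1 (h1 j p hj.1).2 (h1 i p hi.1).2).smAt.norm
          (div_ne_zero (h1 i p hi.1).1 (h1 j p hj.1).1)
    have e : ∀ q ∈ (C.ch i).source,
        (∑ j ∈ C.nb i, fun q => (C.rho j q : ℂ) * (‖(σ i / σ j) q‖ : ℂ)) q =
          (‖σ i q‖ : ℂ) * Λ q := fun q hq => by
      rw [hΛ i q hq, Finset.sum_apply]
      push_cast
      rw [Finset.mul_sum]
      refine Finset.sum_congr rfl fun j _ => ?_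
      rw [Pi.div_apply, norm_div]
      push_cast
      ring
    refine (s1.inv ?_).congr ?_
    · rw [e p hi.1]
      exact mul_ne_zero (Complex.ofReal_ne_zero.2 (norm_ne_zero_iff.2 (h1 i p hi.1).1)) (hne p)
    · filter_upwards [(C.ch i).open_source.mem_nhds hi.1] with q hq
      rw [Pi.inv_apply, e q hq, norm_inv, norm_mul, Complex.norm_real,
        Real.norm_of_nonneg (hpos q).le]
      push_cast
      rfl
  · funext i p
    simp only [shf]
    rw [h2, hper]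
  · simp only [← zpow_natCast, hper]
  · refine (h1 _ p (C.mem_U_idx p).1).2.smAt.congr (Eventually.of_forall fun q => ?_)
    simp only [Pi.div_apply, Pi.mul_apply, bun]
    rw [div_inv_eq_mul, mul_comm (σ _ q), ← mul_assoc, mul_assoc (u p q), inv_mul_cancel₀ (hne q),
      mul_one]

variable {X : Type} [TopologicalSpace X] [ChartedSpace C2 X] [T2Space X] [IsManifold 𝓘(ℂ, C2) ω X]
  [IsManifold 𝓘(ℂ, C2) ω M] {π : M → X}

/-- The canonical bundle of the statement and the canonical frames of the model. -/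
theorem canon_kf (h : IsCover π C.g C.t) : IsBundle HolAt (pull π (canon X)) ∧
    (∀ N : ℕ, pull (C.g ^ N : M ≃ₜ M) (pull π (canon X)) = pull π (canon X)) ∧
    ∃ l : M → ℂ, (∀ p, l p ≠ 0) ∧ (∀ (N : ℕ) p, l ((C.g ^ N) p) = l p) ∧
      ∀ p, SmAt (pull π (canon X) p * l / C.bun C.kf p) p := by
  have hpre : Pre C.g C.t C.e C.idx C.R := ⟨fun a => ⟨C.hol a, C.sm a⟩, C.tgt, C.idx_mem, C.idx_g,
    fun k _ _ => C.hol_gz k, fun k _ _ => C.sm_gz k, C.continuous_t, C.t_gz, C.t_bd⟩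
  obtain ⟨k₀, h1, h2, h3⟩ := h.frames hpre
  have ev : ∀ (i : C.I) p, p ∈ (C.ch i).source →
      ∀ᶠ q in 𝓝 p, (C.g ^ i.2) q ∈ (C.e i.1).source := fun i p hp => by
    filter_upwards [(C.ch i).open_source.mem_nhds hp] with q hq
    exact (C.ch_source i q).1 hq
  have tr : ∀ (i j : C.I) p, (C.g ^ i.2) p ∈ (C.e i.1).source →
      (C.g ^ j.2) p ∈ (C.e j.1).source → C.kf i p / k₀ i.1 ((C.g ^ i.2) p) =
        C.kf j p / k₀ j.1 ((C.g ^ j.2) p) := fun i j p hi hj => by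
    have e : (C.g ^ (j.2 - i.2)) ((C.g ^ i.2) p) = (C.g ^ j.2) p := by
      rw [← C.gz_add, sub_add_cancel]
    have a1 := h2 i.1 j.1 (j.2 - i.2) _ hi (by rw [e]; exact hj)
    have a2 := C.kc_tr i.1 j.1 (j.2 - i.2) _ hi (by rw [e]; exact hj)
    rw [e] at a1 a2
    have hD := left_ne_zero_of_mul (a1 ▸ h1 _ _ hi)
    simp only [kf]
    rw [a2, a1, mul_div_mul_left _ _ hD]
  refine ⟨fun p => ?_, fun N => ?_,
    fun p => C.kf (C.idx p) p / k₀ (C.idx p).1 ((C.g ^ (C.idx p).2) p), fun p => ?_,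
    fun N p => ?_, fun p => ?_⟩
  · obtain ⟨J, j1, j2, j3⟩ := h3 _ _ p (C.idx_mem p).1
    filter_upwards [ev _ p (C.mem_U_idx p).1, j3.eventually_nhds, C.hol_ev j1,
      j1.continuousAt.eventually_ne j2] with q q1 q2 q3 q4
    refine ⟨right_ne_zero_of_mul (q2.self_of_nhds ▸ h1 _ _ q1), ?_⟩
    obtain ⟨J', i1, i2, i3⟩ := h3 _ _ q q1
    refine (i1.div q3 q4).congr ?_
    filter_upwards [ev _ q ((C.ch_source _ q).2 q1), q2, i3, q3.continuousAt.eventually_ne q4]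
      with y y1 y2 y3 y4
    have n1 := right_ne_zero_of_mul (y3 ▸ h1 _ _ y1)
    simp only [Pi.div_apply]
    rw [div_eq_div_iff y4 n1, ← y3, y2, mul_comm]
  · funext p q
    simp only [pull, ← zpow_natCast, h.pi_gz]
  · exact div_ne_zero (C.kf_ne (C.mem_U_idx p).1) (h1 _ _ (C.idx_mem p).1)
  · simp only [← zpow_natCast, kf, C.idx_gz, ← C.gz_add, sub_add_cancel]
  · obtain ⟨J, j1, j2, j3⟩ := h3 _ _ p (C.idx_mem p).1
    refine (j1.inv j2).smAt.congr ?_
    filter_upwards [ev _ p (C.mem_U_idx p).1, j3] with q q1 q2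
    have n0 := h1 _ _ q1
    have n1 := C.kf_ne ((C.ch_source _ q).2 q1)
    rw [q2] at n0
    have n2 := left_ne_zero_of_mul n0
    have n3 := right_ne_zero_of_mul n0
    simp only [Pi.div_apply, Pi.mul_apply, Pi.inv_apply, bun]
    rw [tr _ _ q (C.idx_mem q).1 q1, q2]
    field_simp

end Cov

end Vale.Agent.P267
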