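import Vale.Agent.P267L.LC

/-! P267, lifting part: the class map. -/

open scoped Manifold ContDiff Topology ENNReal
open Filter Metric Set MeasureTheory

noncomputable section

namespace Vale.Agent.P267

set_option linter.unusedSectionVars false

variable {M : Type} [TopologicalSpace M] [ChartedSpace C2 M] [T2Space M]

namespace Cov
variable {C : Cov M} {θ θ' : C.I → M → C2 →L[ℝ] ℂ} {F F' : C.I → M → ℂ} {N m : ℕ}
  {k : M → M → ℂ} {Φ : Fin m → C.I → M → ℂ} {c : (C.I → M → ℂ) → Fin m → ℤ}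

theorem LD_add (N : ℕ) (x y z : ℤ → V0 C.ι) : C.pr N (x + y) z = C.pr N x z + C.pr N y z := by
  simp only [pr, Pi.add_apply, C.bb_add, Finset.sum_add_distrib]

theorem LD_smul (N : ℕ) (l : ℤ) (x z : ℤ → V0 C.ι) : C.pr N (l • x) z = l * C.pr N x z := by
  rw [pr, pr, Finset.mul_sum]
  refine Finset.sum_congr rfl fun y _ => ?_
  rw [C.bb_comm, C.bb_comm (x y), Pi.smul_apply, ← C.bH_apply, map_zsmul, zsmul_eq_mul, C.bH_apply]

theorem LD_cv {P : ℕ} (h : C.Pd P θ) (l : ℤ) (x : ℤ) : C.cv θ (x - l * P) = C.cv θ x :=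
  congrFun ((cv_shf θ (l * P)).symm.trans (congrArg C.cv (h.mul_int l))) x

theorem LD_per {P : ℕ} (h : C.Pd P θ) (q : ℕ) :
    C.pr (P * q) (C.cv θ) (C.cv θ) = q * C.pr P (C.cv θ) (C.cv θ) := by
  induction q with
  | zero => simp [pr]
  | succ q ih =>
    rw [Nat.mul_succ, pr, Finset.sum_range_add, ← pr, ih, Nat.cast_succ, add_mul, one_mul]
    congr 1
    refine Finset.sum_congr rfl fun x _ => ?_
    rw [← LD_cv h q, show ((P * q + x : ℕ) : ℤ) - q * P = x by push_cast; ring]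

/-- The coordinates are the pairings with the basis. -/
theorem Lat.coord (h : C.Lat k N Φ c) (hF : C.SFr F) (hP : C.Pd N F) (hθ : C.Con F θ)
    (hQ : C.Pd N θ) (j : Fin m) :
    C.pr N (C.cv θ) (C.cv (C.can (Φ j))) = -((c F j : ℤ) : ℂ) := by
  have h1 := (h.hol j).sFr (by norm_num)
  rw [h.pair F (Φ j) θ _ hF hP h1 (h.per j) hθ hQ h1.can (h.per j).can, h.basis]
  simp [Pi.single_apply]

theorem Lat.deg (h : C.Lat k N Φ c) (hF : C.SFr F) (hP : C.Pd N F) (hθ : C.Con F θ)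
    (hQ : C.Pd N θ) :
    pp C.bH N (C.cv θ) (fun _ => C.cv (C.can C.kf) 0) = -((∑ j, c F j : ℤ) : ℂ) := by
  have h1 := (hFr_kf (C := C)).sFr (by norm_num)
  have h2 := h.pair F C.kf θ _ hF hP h1 (pd_kf N) hθ hQ h1.can (pd_kf N).can
  have h3 : C.cv (C.can C.kf) = fun _ => C.cv (C.can C.kf) 0 := funext fun x => by
    rw [← LD_cv (pd_kf (C := C) 1).can x x]
    simp
  rw [h.canonical, h3] at h2
  simpa [pr_eq] using h2

theorem Lat.gauge (h : C.Lat k N Φ c) (hF : C.SFr F) (hP : C.Pd N F) (hF' : C.SFr F')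
    (hP' : C.Pd N F') {s : C.I → M → ℂ} (hs : ∀ i, ∀ p ∈ C.U i (3 / 2), SmAt (s i) p ∧ s i p ≠ 0)
    (hp : C.Pd N s) (he : ∀ i j, ∀ p ∈ C.U i (3 / 2) ∩ C.U j (3 / 2),
      F' i p / F' j p = F i p * s i p / (F j p * s j p)) : c F' = c F := funext fun j => by
  have h1 := h.coord hF' hP' (hF.can.gauge hF hs he) (funext fun i => funext fun p => by
    have e1 := congrFun (congrFun hP.can i) p
    have e2 : s (i.1, i.2 - N) ∘ (C.g ^ (N : ℤ) : M ≃ₜ M) = s i := congrFun hp i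
    simp only [shf, Pi.add_apply] at e1 ⊢
    rw [e1, ← C.dl_gz, e2]) j
  rw [(hF.can.sm.cv_dl hs).2, h.coord hF hP hF.can hP.can] at h1
  exact_mod_cast (neg_injective h1).symm

theorem LD_pd {V : Type} {f : V → V → V} {X Y : C.I → M → V} (h : C.Pd N X) (h' : C.Pd N Y) :
    C.Pd N fun i p => f (X i p) (Y i p) := funext fun i => funext fun p => by
  have e1 := congrFun (congrFun h i) p
  have e2 := congrFun (congrFun h' i) p
  simp only [shf] at e1 e2 ⊢
  rw [e1, e2]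

/-- Smoothly equivalent frames have the same class. -/
theorem Lat.equiv (h : C.Lat k N Φ c) (hF : C.SFr F) (hP : C.Pd N F) (hF' : C.SFr F')
    (hP' : C.Pd N F') (hs : ∀ i, ∀ p ∈ C.U i (3 / 2), SmAt (F' i / F i) p) : c F' = c F :=
  h.gauge hF hP hF' hP' (s := F' / F)
    (fun i p hp => ⟨hs i p hp, div_ne_zero (hF'.ne i p hp) (hF.ne i p hp)⟩)
    (LD_pd (f := fun a b => a / b) hP' hP) fun i j p hp => by
      simp only [Pi.div_apply, mul_div_cancel₀ _ (hF.ne i p hp.1), mul_div_cancel₀ _ (hF.ne j p hp.2)]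

theorem Lat.mul (h : C.Lat k N Φ c) (hF : C.SFr F) (hP : C.Pd N F) (hF' : C.SFr F')
    (hP' : C.Pd N F') : c (F * F') = c F + c F' := funext fun j => by
  have h1 := h.coord (hF.mul hF') (LD_pd (f := fun a b => a * b) hP hP')
    (Con.mul hF hF' hF.can hF'.can) (LD_pd (f := fun a b => a + b) hP.can hP'.can) j
  rw [hF.can.sm.cv_add hF'.can.sm, LD_add, h.coord hF hP hF.can hP.can,
    h.coord hF' hP' hF'.can hP'.can, ← neg_add, neg_inj] at h1
  exact_mod_cast h1.symm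

theorem Lat.zpow (h : C.Lat k N Φ c) (hF : C.SFr F) (hP : C.Pd N F) (l : ℤ) :
    c (F ^ l) = l • c F := funext fun j => by
  have h1 := h.coord (hF.zpow l) (LD_pd (f := fun a _ => a ^ l) hP hP)
    (Con.zpow hF hF.can l) (LD_pd (f := fun a _ => (l : ℂ) • a) hP.can hP.can) j
  rw [hF.can.sm.cv_smul, LD_smul, h.coord hF hP hF.can hP.can, mul_neg, neg_inj] at h1
  rw [Pi.smul_apply, smul_eq_mul]
  exact_mod_cast h1.symm

theorem Lat.div (h : C.Lat k N Φ c) (hF : C.SFr F) (hP : C.Pd N F) (hF' : C.SFr F')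
    (hP' : C.Pd N F') : c (F / F') = c F - c F' := by
  have e : F / F' = F * F' ^ (-1 : ℤ) := by rw [zpow_neg_one, div_eq_mul_inv]
  rw [e, h.mul hF hP (hF'.zpow _) (LD_pd (f := fun a _ => a ^ (-1 : ℤ)) hP' hP'), h.zpow hF' hP',
    neg_one_zsmul, sub_eq_add_neg]

/-- A class of small square on a smaller cover vanishes. -/
theorem Lat.small (h : C.Lat k N Φ c) {P m' : ℕ} {Φ' : Fin m' → C.I → M → ℂ}
    {c' : (C.I → M → ℂ) → Fin m' → ℤ} (h' : C.Lat k P Φ' c') (hd : P ∣ N) (hF : C.SFr F)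
    (hP : C.Pd P F) (hs : ‖C.pr P (C.cv (C.can F)) (C.cv (C.can F))‖ < 1) : c F = 0 := by
  have h1 := h'.pair F F _ _ hF hP hF hP hF.can hP.can hF.can hP.can
  have h2 := h.pair F F _ _ hF (hP.dvd hd) hF (hP.dvd hd) hF.can (hP.can.dvd hd) hF.can
    (hP.can.dvd hd)
  rw [h1, norm_neg, Complex.norm_intCast] at hs
  have h3 : ∑ j, c' F j * c' F j = 0 := Int.abs_lt_one_iff.1 (by exact_mod_cast hs)
  obtain ⟨q, rfl⟩ := hd
  rw [LD_per hP.can, h1, h3, Int.cast_zero, neg_zero, mul_zero, eq_comm, neg_eq_zero,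
    Int.cast_eq_zero, Finset.sum_eq_zero_iff_of_nonneg fun j _ => mul_self_nonneg _] at h2
  exact funext fun j => mul_self_eq_zero.1 (h2 j (Finset.mem_univ j))

end Cov

end Vale.Agent.P267
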