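import Vale.Agent.P267L.Defs

/-! P267, lifting part: folding finitely supported sequences. -/

open scoped Manifold ContDiff Topology ENNReal
open Filter Metric Set MeasureTheory

noncomputable section

namespace Vale.Agent.P267

set_option linter.unusedSectionVars false

variable {M : Type} [TopologicalSpace M] [ChartedSpace C2 M] [T2Space M]

variable {V : Type} [AddCommGroup V] {B : V →+ V →+ ℂ} {x y : ℤ → V} {N : ℕ}

theorem LO1_jp {S : Finset ℤ} (h : ∀ k, x k ≠ 0 → k ∈ S) (y : ℤ → V) :
    jp B x y = ∑ k ∈ S, B (x k) (y k) :=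
  finsum_eq_sum_of_support_subset _ fun k hk => h k fun e => hk (by simp [e])

theorem LO1_bd (hx : (Function.support x).Finite) : ∃ A : ℤ, ∀ k, A < |k| → x k = 0 := by
  obtain ⟨A, hA⟩ := (hx.image fun k => |k|).bddAbove
  refine ⟨A, fun k hk => ?_⟩
  by_contra h
  exact hk.not_ge (hA ⟨k, h, rfl⟩)

theorem LO1_inj (hN : 0 < N) (k : ℤ) : Function.Injective fun l : ℤ => k - l * N :=
  fun _ _ h => mul_right_cancel₀ (Int.natCast_ne_zero.2 hN.ne') (sub_right_injective h)

theorem LO1_fin (hN : 0 < N) (hx : (Function.support x).Finite) (k : ℤ) :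
    (Function.support fun l : ℤ => x (k - l * N)).Finite :=
  hx.preimage (f := fun l : ℤ => k - l * N) (LO1_inj hN k).injOn

theorem LO1_fold (hN : 0 < N) (hx : (Function.support x).Finite) :
    ∑ k ∈ Finset.range N, ∑ᶠ l : ℤ, x (k - l * N) = ∑ᶠ m, x m := by
  have h0 : (0 : ℤ) < N := Int.natCast_pos.2 hN
  rw [finsum_eq_sum_of_support_subset x (s := hx.toFinset) (by simp),
    ← Finset.sum_fiberwise_of_maps_to (t := Finset.range N) (g := fun m : ℤ => (m % N).toNat)
      fun m _ => Finset.mem_range.2 (by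
        have := Int.emod_lt_of_pos m h0
        omega)]
  refine Finset.sum_congr rfl fun k hk => ?_
  have hk' := Finset.mem_range.1 hk
  rw [← finsum_mem_range (f := x) (LO1_inj hN k)]
  refine finsum_mem_eq_sum_of_inter_support_eq x (Set.ext fun m => and_congr_left fun hm => ?_)
  rw [Finset.mem_coe, Finset.mem_filter, hx.mem_toFinset, and_iff_right hm]
  constructor
  · rintro ⟨l, rfl⟩
    rw [Int.sub_mul_emod_self_right, Int.emod_eq_of_lt (by omega) (by omega), Int.toNat_natCast]
  · intro h
    have h1 := Int.emod_nonneg m h0.ne'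
    have h2 : (k : ℤ) = m % N := by omega
    refine ⟨-(m / N), ?_⟩
    dsimp only
    rw [h2, neg_mul, sub_neg_eq_add, Int.emod_add_ediv_mul]

theorem shS_fin (hx : (Function.support x).Finite) (k : ℤ) :
    (Function.support (shS k x)).Finite :=
  hx.preimage (f := fun l => l - k) sub_left_injective.injOn

theorem shS_shS (k l : ℤ) (x : ℤ → V) : shS k (shS l x) = shS (k + l) x :=
  funext fun _ => congrArg x (sub_sub _ _ _)

theorem jp_shS (k : ℤ) (x y : ℤ → V) : jp B (shS k x) (shS k y) = jp B x y :=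
  finsum_comp_equiv (Equiv.subRight k) (f := fun l => B (x l) (y l))

theorem jp_comm (hB : ∀ u v, B u v = B v u) (x y : ℤ → V) : jp B x y = jp B y x :=
  finsum_congr fun _ => hB _ _

theorem jp_far (hx : (Function.support x).Finite) (hy : (Function.support y).Finite) :
    ∃ T : ℤ, ∀ k, T ≤ |k| → jp B x (shS k y) = 0 := by
  obtain ⟨A, hA⟩ := LO1_bd hx
  obtain ⟨A', hA'⟩ := LO1_bd hy
  refine ⟨A + A' + 1, fun k hk => finsum_eq_zero_of_forall_eq_zero fun l => ?_⟩
  rcases lt_or_ge A |l| with h | h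
  · simp [hA l h]
  · have h1 : |k| ≤ |l| + |l - k| := by simpa using abs_sub l (l - k)
    simp [shS, hA' (l - k) (by omega)]

theorem jp_add (hx : (Function.support x).Finite) {x' : ℤ → V}
    (hx' : (Function.support x').Finite) (y : ℤ → V) :
    jp B (x + x') y = jp B x y + jp B x' y := by
  have h1 : ∀ {z : ℤ → V}, (Function.support z).Finite →
      (Function.support fun k => B (z k) (y k)).Finite := fun {z} hz =>
    hz.subset fun k hk e => hk (by simp [e])
  unfold jp
  rw [← finsum_add_distrib (h1 hx) (h1 hx')]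
  exact finsum_congr fun k => by simp

theorem jp_sum {ι : Type} (W : Finset ι) {X : ι → ℤ → V} (a : ι → ℤ)
    (hX : ∀ i ∈ W, (Function.support (X i)).Finite) (y : ℤ → V) :
    jp B (∑ i ∈ W, a i • X i) y = ∑ i ∈ W, (a i : ℂ) * jp B (X i) y := by
  have hS := W.finite_toSet.biUnion hX
  have h1 : ∀ i ∈ W, ∀ k, X i k ≠ 0 → k ∈ hS.toFinset := fun i hi k hk =>
    hS.mem_toFinset.2 (mem_biUnion hi hk)
  have h0 : ∑ i ∈ W, (a i : ℂ) * jp B (X i) y =
      ∑ i ∈ W, ∑ k ∈ hS.toFinset, (a i : ℂ) * B (X i k) (y k) :=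
    Finset.sum_congr rfl fun i hi => by rw [LO1_jp (h1 i hi), Finset.mul_sum]
  rw [h0, Finset.sum_comm, LO1_jp (S := hS.toFinset) fun k hk => ?_]
  · refine Finset.sum_congr rfl fun k _ => ?_
    simp only [Finset.sum_apply, Pi.smul_apply, map_sum, map_zsmul, AddMonoidHom.finsetSum_apply,
      AddMonoidHom.smul_apply, zsmul_eq_mul]
  · rw [Finset.sum_apply] at hk
    obtain ⟨i, hi, h2⟩ := Finset.exists_ne_zero_of_sum_ne_zero hk
    exact h1 i hi k fun e => h2 (by simp [e])

theorem perS_per (x : ℤ → V) (k : ℤ) : perS N x (k - N) = perS N x k :=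
  (finsum_congr fun l => congrArg x (by simp only [Equiv.coe_addRight]; ring)).trans
    (finsum_comp_equiv (Equiv.addRight (1 : ℤ)) (f := fun l : ℤ => x (k - l * N)))

theorem perS_shS (x : ℤ → V) (k l : ℤ) : perS N (shS (k + l * N) x) = perS N (shS k x) :=
  funext fun m => (finsum_congr fun j => congrArg x (by simp only [Equiv.coe_addRight]; ring)).trans
    (finsum_comp_equiv (Equiv.addRight l) (f := fun j : ℤ => x (m - j * N - k)))

/-- Folding against a periodic sequence. -/
theorem pp_fold (hN : 0 < N) (hx : (Function.support x).Finite) (hy : ∀ k, y (k - N) = y k) :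
    pp B N (perS N x) y = jp B x y := by
  have hp : Function.Periodic y (N : ℤ) := fun k => by rw [← hy (k + N), add_sub_cancel_right]
  have h1 : (Function.support fun k => B (x k) (y k)).Finite :=
    hx.subset fun k hk e => hk (by simp [e])
  rw [jp, ← LO1_fold hN h1]
  refine Finset.sum_congr rfl fun k _ => ((B.flip (y k)).map_finsum (LO1_fin hN hx k)).trans
    (finsum_congr fun l => ?_)
  exact congrArg (B (x (k - l * N))) (hp.sub_int_mul_eq l).symm

theorem pp_per (hN : 0 < N) (hx : (Function.support x).Finite)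
    (hy : (Function.support y).Finite) :
    pp B N (perS N x) (perS N y) = ∑ᶠ l : ℤ, jp B x (shS (l * N) y) := by
  have h1 : ∀ k, x k ≠ 0 → k ∈ hx.toFinset := fun k hk => hx.mem_toFinset.2 hk
  rw [pp_fold hN hx (perS_per y), LO1_jp h1, finsum_congr fun l : ℤ => LO1_jp h1 (shS (l * N) y),
    finsum_sum_comm _ _ fun k _ => (LO1_fin hN hy k).subset fun l hl e => hl ?_]
  · exact Finset.sum_congr rfl fun k _ => (B (x k)).map_finsum (LO1_fin hN hy k)
  · exact (congrArg (B (x k)) e).trans (map_zero _)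

theorem pp_large (hx : (Function.support x).Finite) (hy : (Function.support y).Finite) :
    ∀ᶠ N : ℕ in atTop, pp B N (perS N x) (perS N y) = jp B x y := by
  obtain ⟨T, hT⟩ := jp_far (B := B) hx hy
  filter_upwards [eventually_gt_atTop 0, eventually_ge_atTop T.toNat] with N hN hN'
  rw [pp_per hN hx hy, finsum_eq_single _ 0 fun l hl => hT _ ?_]
  · exact congrArg (jp B x) (funext fun k => congrArg y (by simp))
  · have h1 : 1 ≤ |l| := Int.one_le_abs hl
    rw [abs_mul, Nat.abs_cast]
    nlinarith [Int.self_le_toNat T, Int.ofNat_le.2 hN', Int.natCast_nonneg N]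

theorem pp_shS (hN : 0 < N) (hx : (Function.support x).Finite)
    (hy : (Function.support y).Finite) (k : ℤ) :
    pp B N (perS N (shS k x)) (perS N (shS k y)) = pp B N (perS N x) (perS N y) := by
  rw [pp_per hN (shS_fin hx k) (shS_fin hy k), pp_per hN hx hy]
  exact finsum_congr fun l => by rw [shS_shS, add_comm, ← shS_shS, jp_shS]

/-- A vector of norm one and degree one is a basis vector. -/
theorem unit_vec {m : ℕ} {γ : Fin m → ℤ} (h1 : ∑ j, γ j * γ j = 1) (h2 : ∑ j, γ j = 1) :
    ∃ j, γ = Pi.single j 1 := by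
  obtain ⟨j, -, hj⟩ := Finset.exists_ne_zero_of_sum_ne_zero (h2.trans_ne one_ne_zero)
  have h3 : ∀ i, i ≠ j → γ i = 0 := fun i hi => by
    rw [← Finset.add_sum_erase _ _ (Finset.mem_univ j)] at h1
    have h4 := Finset.single_le_sum (f := fun j => γ j * γ j) (fun i _ => mul_self_nonneg (γ i))
      (Finset.mem_erase.2 ⟨hi, Finset.mem_univ i⟩)
    have h5 := mul_self_pos.2 hj
    exact mul_self_eq_zero.1 (le_antisymm (by linarith) (mul_self_nonneg _))
  rw [Finset.sum_eq_single j (fun i _ hi => h3 i hi) (by simp)] at h2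
  refine ⟨j, funext fun i => ?_⟩
  by_cases hi : i = j
  · rw [hi, h2, Pi.single_eq_same]
  · rw [h3 i hi, Pi.single_eq_of_ne hi]

end Vale.Agent.P267
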