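import Vale.Agent.P267L.LN
import Vale.Agent.P267L.LO1

/-! P267, lifting part: a connection that is flat on a compact set. -/

open scoped Manifold ContDiff Topology ENNReal
open Filter Metric Set MeasureTheory

noncomputable section

namespace Vale.Agent.P267

set_option linter.unusedSectionVars false

variable {M : Type} [TopologicalSpace M] [ChartedSpace C2 M] [T2Space M]

namespace Cov
variable {C : Cov M}

theorem LP_zs (α : C2 →L[ℝ] ℂ) : (0 : ℂ) • α = 0 :=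
  ContinuousLinearMap.ext fun _ => zero_mul _

open Classical in
theorem LP_loc (C : Cov M) {U : Set M} (hU : IsOpen U) {x : M} (hx : x ∈ U) :
    ∃ t ∈ 𝓝 x, ∃ (χ : M → ℂ) (K' : Set M), IsCompact K' ∧ K' ⊆ U ∧ (∀ p, SmAt χ p) ∧
      (∀ p ∈ t, χ =ᶠ[𝓝 p] 1) ∧ ∀ p ∉ K', χ =ᶠ[𝓝 p] 0 := by
  have hP := C.isCh (C.idx x)
  have hs := C.ac_src x
  generalize C.ch (C.idx x) = P at hP hs
  obtain ⟨r, hr, hb⟩ := Metric.isOpen_iff.1 (P.isOpen_inter_preimage_symm hU) (P x)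
    ⟨P.map_source hs, by rwa [mem_preimage, P.left_inv hs]⟩
  obtain ⟨θ, h1, h2, h3, h4, -⟩ := exists_cut (P x) (half_pos hr) (half_lt_self hr)
  have hT : tsupport θ ⊆ P.target := fun z hz => (hb (h3 hz)).1
  have hK : IsCompact (P.symm '' tsupport θ) :=
    IsCompact.image_of_continuousOn h2 (P.continuousOn_symm.mono hT)
  have ho := P.isOpen_inter_preimage (isOpen_ball (x := P x) (ε := r / 2))
  have h0 : ∀ p ∉ P.symm '' tsupport θ,
      (fun q => if q ∈ P.source then θ (P q) else 0) =ᶠ[𝓝 p] 0 := fun p hp => by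
    filter_upwards [hK.isClosed.isOpen_compl.mem_nhds hp] with q hq
    split_ifs with h
    · exact image_eq_zero_of_notMem_tsupport fun h' => hq ⟨_, h', P.left_inv h⟩
    · rfl
  refine ⟨_, ho.mem_nhds ⟨hs, mem_ball_self (half_pos hr)⟩, _, _, hK, ?_, fun p => ?_,
    fun p hp => ?_, h0⟩
  · rintro _ ⟨z, hz, rfl⟩
    exact (hb (h3 hz)).2
  · by_cases h : p ∈ P.source
    · refine (hP.sm_fun h (Eventually.of_forall fun z => h1.contDiffAt)).congr ?_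
      filter_upwards [P.open_source.mem_nhds h] with q hq using (if_pos hq).symm
    · refine smAt_zero.congr (h0 p ?_).symm
      rintro ⟨z, hz, rfl⟩
      exact h (P.map_target (hT hz))
  · filter_upwards [ho.mem_nhds hp] with q hq
    exact (if_pos hq.1).trans (h4 _ (ball_subset_closedBall hq.2))

theorem LP_key {E : C.I → M → ℂ} {θ : C.I → M → C2 →L[ℝ] ℂ} (hE : C.SFr E) (hθ : C.Con E θ)
    {σ : M → ℂ} {i : C.I} {q : M} (hq : q ∈ C.U i (3 / 2)) (h0 : σ q ≠ 0)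
    (hσ : SmAt (E (C.idx q) * σ) q) : SmAt (E i * σ) q ∧ (E i * σ) q ≠ 0 ∧
      θ (C.idx q) q - C.dl (E (C.idx q) * σ) q = θ i q - C.dl (E i * σ) q := by
  have hj := C.U_mono _ (by norm_num : (1 : ℝ) ≤ 3 / 2) (C.mem_U_idx q)
  have e : E i / E (C.idx q) * (E (C.idx q) * σ) =ᶠ[𝓝 q] E i * σ := by
    filter_upwards [(C.isOpen_U _ _).mem_nhds hj] with y hy
    simp only [Pi.mul_apply, Pi.div_apply]
    rw [← mul_assoc, div_mul_cancel₀ _ (hE.ne _ y hy)]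
  have h1 := hE.sm i _ q ⟨hq, hj⟩
  refine ⟨(h1.mul hσ).congr e, mul_ne_zero (hE.ne i q hq) h0, ?_⟩
  rw [← C.dl_congr e, C.dl_mul h1 hσ (div_ne_zero (hE.ne i q hq) (hE.ne _ q hj))
    (mul_ne_zero (hE.ne _ q hj) h0), ← hθ.tr i _ q ⟨hq, hj⟩]
  abel

theorem cutoff (C : Cov M) {K U : Set M} (hK : IsCompact K) (hU : IsOpen U) (h : K ⊆ U) :
    ∃ (χ : M → ℂ) (K' : Set M), IsCompact K' ∧ K' ⊆ U ∧ (∀ p, SmAt χ p) ∧
      (∀ p ∈ K, χ =ᶠ[𝓝 p] 1) ∧ ∀ p ∉ K', χ =ᶠ[𝓝 p] 0 := by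
  refine hK.induction_on (p := fun K => ∃ (χ : M → ℂ) (K' : Set M), IsCompact K' ∧ K' ⊆ U ∧
    (∀ p, SmAt χ p) ∧ (∀ p ∈ K, χ =ᶠ[𝓝 p] 1) ∧ ∀ p ∉ K', χ =ᶠ[𝓝 p] 0)
    ⟨0, ∅, isCompact_empty, empty_subset _, fun _ => smAt_zero, fun _ hp => hp.elim,
      fun _ _ => EventuallyEq.rfl⟩ ?_ ?_ fun x hx => ?_
  · rintro s t hst ⟨χ, K', h1, h2, h3, h4, h5⟩
    exact ⟨χ, K', h1, h2, h3, fun p hp => h4 p (hst hp), h5⟩
  · rintro s t ⟨χ, K₁, h1, h2, h3, h4, h5⟩ ⟨ψ, K₂, k1, k2, k3, k4, k5⟩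
    refine ⟨χ + ψ - χ * ψ, K₁ ∪ K₂, h1.union k1, union_subset h2 k2,
      fun p => ((h3 p).add (k3 p)).sub ((h3 p).mul (k3 p)), ?_, fun p hp => ?_⟩
    · rintro p (hp | hp)
      · filter_upwards [h4 p hp] with q hq
        simp [hq]
      · filter_upwards [k4 p hp] with q hq
        simp [hq]
    · filter_upwards [h5 p fun h => hp (Or.inl h), k5 p fun h => hp (Or.inr h)] with q hq hq'
      simp [hq, hq']
  · obtain ⟨t, ht, h'⟩ := C.LP_loc hU (h hx)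
    exact ⟨t, mem_nhdsWithin_of_mem_nhds ht, h'⟩

theorem flat {E : C.I → M → ℂ} {θ : C.I → M → C2 →L[ℝ] ℂ} {a b : ℝ} (hE : C.SFr E)
    (hθ : C.Con E θ) (hs : C.CS 0 θ a b) {K U : Set M} (hK : IsCompact K) (hU : IsOpen U)
    (h : K ⊆ U) {σ : M → ℂ} (hσ : ∀ p ∈ U, σ p ≠ 0 ∧ SmAt (E (C.idx p) * σ) p) :
    ∃ (θ' : C.I → M → C2 →L[ℝ] ℂ) (a' b' : ℝ), a' ≤ a ∧ b ≤ b' ∧ C.Con E θ' ∧ C.CS 0 θ' a' b' ∧
      ∀ (i : C.I) (z : K1), (C.ch i).symm z ∈ K → C.Om θ' i z = 0 := by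
  obtain ⟨χ, K', h1, h2, h3, h4, h5⟩ := C.cutoff hK hU h
  obtain ⟨T, hT⟩ := (h1.image C.continuous_t).isBounded.exists_norm_le
  have key : ∀ i, ∀ p ∈ C.U i (3 / 2), p ∈ U → ∀ᶠ q in 𝓝 p,
      θ (C.idx q) q - C.dl (E (C.idx q) * σ) q = θ i q - C.dl (E i * σ) q := fun i p hp hp' => by
    filter_upwards [(C.isOpen_U _ _).mem_nhds hp, hU.mem_nhds hp'] with q hq hq'
    exact (LP_key hE hθ hq (hσ q hq').1 (hσ q hq').2).2.2
  refine ⟨fun i p => θ i p - χ p • (θ (C.idx p) p - C.dl (E (C.idx p) * σ) p), min a (-T),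
    max b T, min_le_left _ _, le_max_left _ _, ⟨fun i p hp => ?_, fun i j p hp => ?_⟩,
    fun i p hp => ?_, fun i z hz => ?_⟩
  · by_cases hp' : p ∈ U
    · obtain ⟨k1, k2, -⟩ := LP_key hE hθ hp (hσ p hp').1 (hσ p hp').2
      refine ((hθ.sm i p hp).sub (((hθ.sm i p hp).sub (smO_dl k1 k2)).smul (h3 p))).congr ?_
      filter_upwards [key i p hp hp'] with q hq
      rw [hq]
      rfl
    · refine (hθ.sm i p hp).congr ?_
      filter_upwards [h5 p fun h => hp' (h2 h)] with q hq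
      rw [hq, Pi.zero_apply, LP_zs, sub_zero]
  · rw [sub_sub_sub_cancel_right, hθ.tr i j p hp]
  · have k1 : p ∉ K' := fun hp' => by
      have := abs_le.1 (hT _ ⟨p, hp', rfl⟩)
      exact hp ⟨(min_le_right _ _).trans this.1, this.2.trans (le_max_right _ _)⟩
    have k2 := hs i p fun h => hp (Icc_subset_Icc (min_le_left _ _) (le_max_left _ _) h)
    simp only [k2, (h5 p k1).self_of_nhds, Pi.zero_apply, LP_zs, sub_zero]
  · have hz1 : ‖(z : C2)‖ ≤ 1 := mem_closedBall_zero_iff.1 z.2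
    obtain ⟨k1, k2⟩ := C.symm_mem_U i (r := 3 / 2) (by norm_num) (z := z) (by linarith)
    obtain ⟨k3, k4, -⟩ := LP_key hE hθ k1 (hσ _ (h hz)).1 (hσ _ (h hz)).2
    rw [Om_congr (θ' := fun _ => C.dl (E i * σ)) (by linarith) ?_]
    · funext u v
      exact k2 ▸ extD_dl k3 k4 (C.isCh i) k1.1 _ _
    · filter_upwards [key i _ k1 (h hz), h4 _ hz] with q hq hq'
      rw [hq, hq', Pi.one_apply, one_smul, sub_sub_cancel]

end Cov

end Vale.Agent.P267
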