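import Vale.Agent.P267L.LD
import Vale.Agent.P267L.LP

/-! P267, lifting part: pairings of compactly supported bundles. -/

open scoped Manifold ContDiff Topology ENNReal
open Filter Metric Set MeasureTheory

noncomputable section

namespace Vale.Agent.P267

set_option linter.unusedSectionVars false

variable {M : Type} [TopologicalSpace M] [ChartedSpace C2 M] [T2Space M]

namespace Cov
variable {C : Cov M} {k : M → M → ℂ} {E E' : C.I → M → ℂ} {θ θ' θ'' : C.I → M → C2 →L[ℝ] ℂ}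
  {a b a' b' : ℝ}

/-- All covers have a lattice. -/
def AllLat (C : Cov M) (k : M → M → ℂ) (n : ℕ) : Prop :=
  ∀ N : ℕ, 0 < N → ∃ (Φ : Fin (n * N) → C.I → M → ℂ) (c : (C.I → M → ℂ) → Fin (n * N) → ℤ),
    C.Lat k N Φ c

theorem Lat.pair_cs {N m : ℕ} {Φ : Fin m → C.I → M → ℂ} {c : (C.I → M → ℂ) → Fin m → ℤ}
    (h : C.Lat k N Φ c) (hN : 0 < N) (hE : C.SFr E) (hc : C.CS 1 E a b) (hθ : C.Con E θ)
    (hs : C.CS 0 θ a b) (hE' : C.SFr E') (hc' : C.CS 1 E' a' b') (hθ' : C.Con E' θ')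
    (hs' : C.CS 0 θ' a' b') : pp C.bH N (perS N (C.cv θ)) (perS N (C.cv θ')) =
      -((∑ j, c (C.perF N E) j * c (C.perF N E') j : ℤ) : ℂ) := by
  rw [← cv_perO hN hθ.sm hs, ← cv_perO hN hθ'.sm hs', ← pr_eq]
  exact h.pair _ _ _ _ (hE.perF hN hc) (pd_perF _ _) (hE'.perF hN hc') (pd_perF _ _)
    (Con.per hN hE hc hθ hs) (pd_perO _ _) (Con.per hN hE' hc' hθ' hs') (pd_perO _ _)

theorem Lat.deg_cs {N m : ℕ} {Φ : Fin m → C.I → M → ℂ} {c : (C.I → M → ℂ) → Fin m → ℤ}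
    (h : C.Lat k N Φ c) (hN : 0 < N) (hE : C.SFr E) (hc : C.CS 1 E a b) (hθ : C.Con E θ)
    (hs : C.CS 0 θ a b) : pp C.bH N (perS N (C.cv θ)) (fun _ => C.cv (C.can C.kf) 0) =
      -((∑ j, c (C.perF N E) j : ℤ) : ℂ) := by
  rw [← cv_perO hN hθ.sm hs]
  exact h.deg (hE.perF hN hc) (pd_perF _ _) (Con.per hN hE hc hθ hs) (pd_perO _ _)

/-- The total pairing does not depend on the connection. -/
theorem AllLat.jp_eq {n : ℕ} (h : C.AllLat k n) (hE : C.SFr E) (hc : C.CS 1 E a b)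
    (hθ : C.Con E θ) (hs : C.CS 0 θ a b) (hθ'' : C.Con E θ'') (hs'' : C.CS 0 θ'' a b)
    (hE' : C.SFr E') (hc' : C.CS 1 E' a' b') (hθ' : C.Con E' θ') (hs' : C.CS 0 θ' a' b') :
    jp C.bH (C.cv θ) (C.cv θ') = jp C.bH (C.cv θ'') (C.cv θ') := by
  obtain ⟨N, h1, h2, hN⟩ := ((pp_large (B := C.bH) hs.cv hs'.cv).and
    ((pp_large (B := C.bH) hs''.cv hs'.cv).and (eventually_gt_atTop 0))).exists
  obtain ⟨Φ, c, hL⟩ := h N hN
  rw [← h1, ← h2, hL.pair_cs hN hE hc hθ hs hE' hc' hθ' hs',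
    hL.pair_cs hN hE hc hθ'' hs'' hE' hc' hθ' hs']

/-- The square of a cut class. -/
theorem Cut.sq {N m : ℕ} {Φ : Fin m → C.I → M → ℂ} {c : (C.I → M → ℂ) → Fin m → ℤ}
    (h : C.Lat k N Φ c) (hN : 0 < N) {j : Fin m} (hE : C.Cut N c j E a b) :
    jp C.bH (C.cv (C.can E)) (C.cv (C.can E)) = -1 := by
  have h1 := h.pair_cs hN hE.fr hE.cs hE.fr.can hE.cs.can hE.fr hE.cs hE.fr.can hE.cs.can
  have h2 : shS (0 * N : ℤ) (C.cv (C.can E)) = C.cv (C.can E) := funext fun l => by simp [shS]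
  rw [pp_per hN hE.cs.can.cv hE.cs.can.cv, finsum_eq_single _ 0, h2, hE.cls] at h1
  · rw [h1, Finset.sum_eq_single j (fun i _ hi => by simp [hi]) (by simp)]
    simp
  · intro l hl
    rw [← cv_shf]
    refine hE.cs.can.jp_zero (hE.cs.can.shf _) hE.fr.can.sm (hE.fr.can.sm.shf _) ?_
    refine Set.disjoint_left.2 fun x h3 h4 => ?_
    have h5 := hE.wid
    have h6 : (0 : ℝ) ≤ N := Nat.cast_nonneg N
    simp only [mem_Icc, Int.cast_mul, Int.cast_natCast] at h3 h4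
    rcases lt_or_gt_of_ne hl with h7 | h7
    · have h8 : (l : ℝ) ≤ -1 := by exact_mod_cast Int.le_sub_one_of_lt h7
      nlinarith [h3.2, h4.1]
    · have h8 : (1 : ℝ) ≤ l := by exact_mod_cast h7
      nlinarith [h3.1, h4.2]

/-- The class of a valid bundle on a large cover is a basis vector. -/
theorem unit_cs (hE : C.SFr E) (hc : C.CS 1 E a b)
    (h1 : jp C.bH (C.cv (C.can E)) (C.cv (C.can E)) = -1)
    (h2 : jp C.bH (C.cv (C.can E)) (fun _ => C.cv (C.can C.kf) 0) = -1) :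
    ∀ᶠ N : ℕ in atTop, ∀ (m : ℕ) (Φ : Fin m → C.I → M → ℂ) (c : (C.I → M → ℂ) → Fin m → ℤ),
      C.Lat k N Φ c → ∃ j, c (C.perF N E) = Pi.single j 1 := by
  filter_upwards [pp_large (B := C.bH) hc.can.cv hc.can.cv, eventually_gt_atTop 0] with N h3 hN
  intro m Φ c h
  have h4 := h.pair_cs hN hE hc hE.can hc.can hE hc hE.can hc.can
  have h5 := h.deg_cs hN hE hc hE.can hc.can
  rw [h3, h1, neg_inj, eq_comm] at h4
  rw [pp_fold hN hc.can.cv fun _ => rfl, h2, neg_inj, eq_comm] at h5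
  exact unit_vec (by exact_mod_cast h4) (by exact_mod_cast h5)

end Cov

end Vale.Agent.P267
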