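import Vale.Agent.P267L.LT4
import Vale.Agent.P267L.LQ1

/-! P267, lifting part: the lattice in the working model. -/

open scoped Manifold ContDiff Topology ENNReal
open Filter Metric Set MeasureTheory

noncomputable section

namespace Vale.Agent.P267

set_option linter.unusedSectionVars false

variable {M : Type} [TopologicalSpace M] [ChartedSpace C2 M] [T2Space M]

variable {X : Type} [TopologicalSpace X] [ChartedSpace C2 X] [T2Space X] [IsManifold 𝓘(ℂ, C2) ω X]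
  [IsManifold 𝓘(ℂ, C2) ω M] {π : M → X}

theorem LT5_sm {u : M → M → ℂ} (h : IsBundle HolAt u) : IsBundle SmAt u :=
  fun p => (h p).mono fun _ hq => ⟨hq.1, hq.2.smAt⟩

/-- Smoothly isomorphic bundles have the same class. -/
theorem LT5_key {G : M ≃ₜ M} (hG : ContMDiff 𝓘(ℂ, C2) 𝓘(ℂ, C2) ω G) {k : M → M → ℂ} {m n : ℕ}
    {L : Fin m → M → M → ℂ} {c : (M → M → ℂ) → Fin m → ℤ} (hL : IsLattice G k L c)
    {P : Fin n → OpenPartialHomeomorph M C2} {ψ : Fin n → M → ℝ} (hP : IsPartition G P ψ)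
    (hCh : ∀ a, IsCh (P a)) (hϑ : ∀ j, ∃ ϑ, IsConnection G (L j) ϑ) {u v : M → M → ℂ}
    {θ : M → M → C2 →L[ℝ] ℂ} (hu : IsBundle SmAt u) (hv : IsBundle SmAt v) (hu' : pull G u = u)
    (hv' : pull G v = v) (h : IsConnection G u θ) {l : M → ℂ} (h0 : ∀ p, l p ≠ 0)
    (hl : ∀ p, l (G p) = l p) (hs : ∀ p, SmAt (v p * l / u p) p) : c u = c v := by
  obtain ⟨θ', h', e⟩ := h.equiv hG hu hv hu' hv' h0 hl hs
  funext j
  obtain ⟨ϑ, hϑ⟩ := hϑ j
  have a := hL.pair u _ θ ϑ hu hu' (LT5_sm (hL.hol j).1) (hL.hol j).2 h hϑ n P ψ hP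
  have b := hL.pair v _ θ' ϑ hv hv' (LT5_sm (hL.hol j).1) (hL.hol j).2 h' hϑ n P ψ hP
  have d : pairing P ψ θ' ϑ = pairing P ψ θ ϑ := by
    unfold pairing
    congr 1
    refine Finset.sum_congr rfl fun i _ => setIntegral_congr_fun
      (P i).open_target.measurableSet fun z hz => ?_
    simp only [e (P i) (hCh i) z hz]
  rw [d, a, neg_inj, Int.cast_inj, hL.basis] at b
  simpa [Pi.single_apply] using b

theorem Cov.lat_of {C : Cov M} (h : IsCover π C.g C.t) {N m : ℕ} (hN : 0 < N)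
    {L : Fin m → M → M → ℂ} {c : (M → M → ℂ) → Fin m → ℤ}
    (hL : IsLattice (C.g ^ N) (pull π (canon X)) L c) :
    ∃ Φ : Fin m → C.I → M → ℂ, C.Lat (pull π (canon X)) N Φ fun F => c (C.bun F) := by
  have hG : ContMDiff 𝓘(ℂ, C2) 𝓘(ℂ, C2) ω (C.g ^ N : M ≃ₜ M) := by
    have := contMDiff_zpow C.g h.hol h.hol_inv N
    rwa [zpow_natCast] at this
  obtain ⟨n, P, ψ, hP, hCh, hpr⟩ := C.partition hN
  choose Φ l hΦ hΦp hl0 hlp hls using fun j => Cov.frames_of hN (hL.hol j).1 (hL.hol j).2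
    fun i => hL.frame j (C.ch i) 4 (C.isCh i).hol (C.ch_target i)
  have hS : ∀ j, C.SFr (Φ j) := fun j => (hΦ j).sFr (by norm_num)
  have hϑ : ∀ j, ∃ ϑ, IsConnection (C.g ^ N : M ≃ₜ M) (L j) ϑ := fun j => by
    obtain ⟨ϑ, hϑ, -⟩ := ((hS j).can.toS (hS j) (hΦp j).can).equiv hG (hS j).bundle
      (LT5_sm (hL.hol j).1) (hΦp j).bundle (hL.hol j).2 (hl0 j) (hlp j) (hls j)
    exact ⟨ϑ, hϑ⟩
  have key : ∀ {F : C.I → M → ℂ} {v : M → M → ℂ} {l : M → ℂ}, C.SFr F → C.Pd N F →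
      IsBundle HolAt v → pull (C.g ^ N : M ≃ₜ M) v = v → (∀ p, l p ≠ 0) →
      (∀ p, l ((C.g ^ N) p) = l p) → (∀ p, SmAt (v p * l / C.bun F p) p) → c (C.bun F) = c v :=
    fun hF hFp hv hv' h0 h1 h2 => LT5_key hG hL hP hCh hϑ hF.bundle (LT5_sm hv) hFp.bundle hv'
      (hF.can.toS hF hFp.can) h0 h1 h2
  obtain ⟨k1, k2, l', k3, k4, k5⟩ := Cov.canon_kf h
  refine ⟨Φ, hΦ, hΦp, fun j => ?_, ?_, ?_, ?_⟩
  · exact (key (hS j) (hΦp j) (hL.hol j).1 (hL.hol j).2 (hl0 j) (hlp j) (hls j)).trans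
      (hL.basis j)
  · exact (key (Cov.hFr_kf.sFr (by norm_num)) (Cov.pd_kf N) k1 (k2 N) k3 (k4 N) k5).trans
      hL.canonical
  · intro F F' θ θ' hF hFp hF' hFp' hθ hθp hθ' hθp'
    rw [← hpr F F' θ θ' hF hF' hθ hθ']
    exact hL.pair _ _ _ _ hF.bundle hFp.bundle hF'.bundle hFp'.bundle (hθ.toS hF hθp)
      (hθ'.toS hF' hθp') n P ψ hP
  · intro u F hu hup hF hFp hs
    have e := key (l := 1) hF hFp hu hup (fun _ => one_ne_zero) (fun _ => rfl) fun p => by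
      rw [mul_one]
      exact hs p
    have := hL.rr u hu hup
    simp only [hL.canonical, Pi.one_apply, mul_one] at this
    simp only [e]
    exact this

end Vale.Agent.P267
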