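import Vale.Agent.P267.Stmt2
import Vale.Agent.P267S.Defs
import Vale.Agent.P267S.SM1
import Vale.Agent.P272.Defs

/-! P267, lifting part: frames, connections and curvature in the working model. -/

open scoped Manifold ContDiff Topology ENNReal
open Filter Metric Set MeasureTheory

noncomputable section

namespace Vale.Agent.P267

/-- The square of the Frobenius norm. -/
def fro (A : Matrix (Fin 2) (Fin 2) ℂ) : ℝ := ∑ j, ∑ k, ‖A j k‖ ^ 2

/-- The closed unit polydisc. -/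
abbrev K1 : Type := closedBall (0 : C2) 1

/-- Coefficients of two-forms on the closed unit polydiscs of one level. -/
abbrev V0 (ι : Type) : Type := ι → C(K1, Fin 4 → Fin 4 → ℂ)

/-- The translate of a sequence. -/
def shS {V : Type} (k : ℤ) (x : ℤ → V) : ℤ → V := fun l => x (l - k)

/-- The total pairing of two sequences. -/
def jp {V : Type} [AddCommGroup V] (B : V →+ V →+ ℂ) (x y : ℤ → V) : ℂ := ∑ᶠ k, B (x k) (y k)

/-- The pairing over one period. -/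
def pp {V : Type} [AddCommGroup V] (B : V →+ V →+ ℂ) (N : ℕ) (x y : ℤ → V) : ℂ :=
  ∑ k ∈ Finset.range N, B (x k) (y k)

/-- The cut-off function used for gluing. -/
def chi (s : ℝ) : ℂ := (Real.smoothTransition (2 - 3 * s) : ℝ)

/-- The sum of the translates. -/
def perS {V : Type} [AddCommMonoid V] (N : ℕ) (x : ℤ → V) (k : ℤ) : V := ∑ᶠ l : ℤ, x (k - l * N)

variable {M : Type} [TopologicalSpace M] [ChartedSpace C2 M]

namespace Cov
variable (C : Cov M)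

/-- The differential, in the coordinates of the chart `idx p` at `p`. -/
def d (f : M → ℂ) (p : M) : C2 →L[ℝ] ℂ :=
  fderiv ℝ (f ∘ (C.ch (C.idx p)).symm) (C.ch (C.idx p) p)

/-- The logarithmic differential. -/
def dl (f : M → ℂ) (p : M) : C2 →L[ℝ] ℂ := (f p)⁻¹ • C.d f p

/-- A one-form that is smooth near `p`. -/
def SmO (θ : M → C2 →L[ℝ] ℂ) (p : M) : Prop :=
  ∃ l : List ((M → ℂ) × (M → ℂ)), (∀ x ∈ l, SmAt x.1 p ∧ SmAt x.2 p) ∧
    ∀ᶠ q in 𝓝 p, θ q = (l.map fun x => x.1 q • C.d x.2 q).sum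

/-- Smooth frames. -/
structure SFr (F : C.I → M → ℂ) : Prop where
  ne : ∀ i, ∀ p ∈ C.U i (3 / 2), F i p ≠ 0
  sm : ∀ i j, ∀ p ∈ C.U i (3 / 2) ∩ C.U j (3 / 2), SmAt (F i / F j) p

/-- Holomorphic frames of a Hermitian bundle on the polydiscs of radius `r`. -/
structure HFr (F : C.I → M → ℂ) (r : ℝ) : Prop where
  ne : ∀ i, ∀ p ∈ C.U i r, F i p ≠ 0
  hol : ∀ i j, ∀ p ∈ C.U i r ∩ C.U j r, HolAt (F i / F j) p
  met : ∀ i, ∀ p ∈ C.U i r, SmAt (fun q => (‖F i q‖ : ℂ)) p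

/-- The translate of a family. -/
def shf {V : Type} (k : ℤ) (F : C.I → M → V) : C.I → M → V :=
  fun i p => F (i.1, i.2 - k) ((C.g ^ k) p)

/-- Periodic families. -/
def Pd {V : Type} (N : ℕ) (F : C.I → M → V) : Prop := C.shf N F = F

/-- Families of smooth forms. -/
def Cn (θ : C.I → M → C2 →L[ℝ] ℂ) : Prop := ∀ i, ∀ p ∈ C.U i (3 / 2), C.SmO (θ i) p

/-- A connection in the frames `F`. -/
structure Con (F : C.I → M → ℂ) (θ : C.I → M → C2 →L[ℝ] ℂ) : Prop where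
  sm : C.Cn θ
  tr : ∀ i j, ∀ p ∈ C.U i (3 / 2) ∩ C.U j (3 / 2), θ i p - θ j p = C.dl (F i / F j) p

/-- The curvature in the chart `i`. -/
def Om (θ : C.I → M → C2 →L[ℝ] ℂ) (i : C.I) (z : C2) (a b : Fin 4) : ℂ :=
  extD (C.cmp (C.ch i) (θ i)) z (bs a) (bs b)

/-- The curvature on the level `k`. -/
def cv (θ : C.I → M → C2 →L[ℝ] ℂ) (k : ℤ) : V0 C.ι :=
  fun a => ContinuousMap.mkD (fun z : K1 => C.Om θ (a, k) z) 0

/-- The pairing on one level. -/
def bb (x y : V0 C.ι) : ℂ :=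
  -(4 * Real.pi ^ 2 : ℂ)⁻¹ * ∑ a, ∫ z : K1,
    (C.ρ a ((C.e a).symm z) : ℂ) * wedge (x a z) (y a z) ∂(volume.comap Subtype.val)

/-- The pairing on the cover of degree `N`. -/
def pr (N : ℕ) (x y : ℤ → V0 C.ι) : ℂ := ∑ k ∈ Finset.range N, C.bb (x k) (y k)

/-- The connection given by the partition of unity. -/
def can (F : C.I → M → ℂ) (i : C.I) (p : M) : C2 →L[ℝ] ℂ :=
  ∑ j ∈ C.nb i, (C.rho j p : ℂ) • C.dl (F i / F j) p

/-- The weight of the frame `i` in its chart. -/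
def wg (F : C.I → M → ℂ) (i : C.I) : C2 → ℝ := fun z => Real.log (‖F i ((C.ch i).symm z)‖ ^ 2)

/-- The energy on the level `k`. -/
def en (F : C.I → M → ℂ) (k : ℤ) : ℝ :=
  ∑ a, ∫ z : K1, C.ρ a ((C.e a).symm z) * fro (P272.LM (C.wg F (a, k)) z)
    ∂(volume.comap Subtype.val)

/-- A family that is trivial (equal to `c`) where `t` is not in `[a, b]`. -/
def CS {V : Type} (c : V) (F : C.I → M → V) (a b : ℝ) : Prop :=
  ∀ i p, C.t p ∉ Icc a b → F i p = c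

/-- The product of the translates. -/
def perF (N : ℕ) (F : C.I → M → ℂ) : C.I → M → ℂ := fun i p => ∏ᶠ l : ℤ, C.shf (l * N) F i p

/-- The sum of the translates. -/
def perO (N : ℕ) (θ : C.I → M → C2 →L[ℝ] ℂ) : C.I → M → C2 →L[ℝ] ℂ :=
  fun i p => ∑ᶠ l : ℤ, C.shf (l * N) θ i p

/-- The Chern connection. -/
def chern (F : C.I → M → ℂ) (i : C.I) (p : M) : C2 →L[ℝ] ℂ :=
  C.d (fun q => (Real.log (‖F i q‖ ^ 2) : ℂ)) p - C.db (fun q => (Real.log (‖F i q‖ ^ 2) : ℂ)) p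

/-- The logarithm of the quotient of a cocycle by its translate. -/
def lg (F : C.I → M → ℂ) (P : ℕ) (i j : C.I) (y : M) : ℂ :=
  Complex.log ((F i y / F j y) / (C.shf P F i y / C.shf P F j y))

/-- The number of periods. -/
def mm (k : ℤ) (P : ℕ) (x : M) : ℤ := ⌊(C.t x + k) / P⌋

/-- The frames obtained by closing up the piece `-k ≤ t < -k + P`. -/
def glu (F : C.I → M → ℂ) (k : ℤ) (P : ℕ) : C.I → M → ℂ := fun i x =>
  C.shf (-(P * C.mm k P x))
    (fun i y => F i y * Complex.exp (-(chi (C.t y + k) * C.lg F P i (C.idx y) y))) i x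

/-- The cocycle of `F` is holomorphic and almost unitary on the levels from `a` to `b`. -/
def Uni (F : C.I → M → ℂ) (r : ℝ) (a b : ℤ) (ε : ℝ) : Prop :=
  ∀ i j : C.I, i.2 ∈ Icc a b → j.2 ∈ Icc a b → ∀ p ∈ C.U i r ∩ C.U j r,
    F i p ≠ 0 ∧ HolAt (F i / F j) p ∧ |Real.log ‖F i p / F j p‖| ≤ ε

/-- The cocycle of `F` near the level `k` is close to its translate. -/
def Cl (F : C.I → M → ℂ) (k : ℤ) (P w : ℕ) (η : ℝ) : Prop :=
  ∀ i j : C.I, |i.2 - k| ≤ w → |j.2 - k| ≤ w → ∀ p ∈ C.U i 2 ∩ C.U j 2,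
    ‖F i p / F j p - C.shf P F i p / C.shf P F j p‖ ≤ η

/-- The lattice of the cover of degree `N` in the working model. -/
structure Lat (k : M → M → ℂ) (N : ℕ) {m : ℕ} (Φ : Fin m → C.I → M → ℂ)
    (c : (C.I → M → ℂ) → Fin m → ℤ) : Prop where
  hol : ∀ j, C.HFr (Φ j) 4
  per : ∀ j, C.Pd N (Φ j)
  basis : ∀ j, c (Φ j) = Pi.single j 1
  canonical : c C.kf = 1
  pair : ∀ F F' θ θ', C.SFr F → C.Pd N F → C.SFr F' → C.Pd N F' → C.Con F θ → C.Pd N θ →
    C.Con F' θ' → C.Pd N θ' → C.pr N (C.cv θ) (C.cv θ') = -((∑ j, c F j * c F' j : ℤ) : ℂ)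
  rr : ∀ (u : M → M → ℂ) (F : C.I → M → ℂ), IsBundle HolAt u →
    pull (C.g ^ N : M ≃ₜ M) u = u → C.SFr F → C.Pd N F →
    (∀ p, SmAt (u p / F (C.idx p)) p) → Euler (C.g ^ N : M ≃ₜ M) u k
      ((-(∑ j, c F j * c F j) + ∑ j, c F j) / 2)

/-- Nearly anti-self-dual metrics exist after a flat twist. -/
def Erg : Prop := ∃ (c : ℝ) (N₀ : ℕ), 0 < c ∧ ∀ N : ℕ, N₀ ≤ N → 0 < N → ∀ F, C.HFr F 4 → C.Pd N F →
  ∃ F', C.HFr F' 4 ∧ C.Pd N F' ∧ (∀ i, ∀ p ∈ C.U i 4, SmAt (F' i / F i) p) ∧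
    ∀ i, ∀ z ∈ closedBall (0 : C2) 1,
      fro (P272.LM (C.wg F' i) z) ≤ c * (1 / N - (P272.LM (C.wg F' i) z).det.re)

/-- Compactly supported frames whose periodisation is the class `j` of the lattice. -/
structure Cut (N : ℕ) {m : ℕ} (c : (C.I → M → ℂ) → Fin m → ℤ) (j : Fin m) (E : C.I → M → ℂ)
    (a b : ℝ) : Prop where
  fr : C.SFr E
  met : ∀ i, ∀ p ∈ C.U i (3 / 2), SmAt (fun q => (‖E i q‖ : ℂ)) p
  cs : C.CS 1 E a b
  cls : c (C.perF N E) = Pi.single j 1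
  wid : b - a < N

end Cov

end Vale.Agent.P267
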