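import Vale.Agent.P267L.Defs
import Vale.Agent.P267S.Frm
import Vale.Agent.P267S.Geo

/-! P267, lifting part: one-forms. -/

open scoped Manifold ContDiff Topology ENNReal
open Filter Metric Set MeasureTheory

noncomputable section

namespace Vale.Agent.P267

set_option linter.unusedSectionVars false

variable {M : Type} [TopologicalSpace M] [ChartedSpace C2 M] [T2Space M]

theorem extD_congr {A B : C2 → C2 →L[ℝ] ℂ} {z : C2} (h : A =ᶠ[𝓝 z] B) (v w : C2) :
    extD A z v w = extD B z v w := by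
  have e : ∀ u, (fun y => A y u) =ᶠ[𝓝 z] fun y => B y u := fun u =>
    h.mono fun y hy => by simp only [hy]
  rw [extD, extD, (e v).fderiv_eq, (e w).fderiv_eq]

theorem extD_add {A B : C2 → C2 →L[ℝ] ℂ} {z : C2}
    (hA : ∀ v, DifferentiableAt ℝ (fun y => A y v) z)
    (hB : ∀ v, DifferentiableAt ℝ (fun y => B y v) z) (v w : C2) :
    extD (A + B) z v w = extD A z v w + extD B z v w := by
  have e : ∀ u, (fun y => (A + B) y u) = fun y => A y u + B y u := fun _ => rfl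
  simp only [extD, e, fderiv_fun_add (hA _) (hB _), _root_.add_apply]
  ring

theorem extD_smul {f : C2 → ℂ} {A : C2 → C2 →L[ℝ] ℂ} {z : C2} (hf : DifferentiableAt ℝ f z)
    (hA : ∀ v, DifferentiableAt ℝ (fun y => A y v) z) (v w : C2) :
    extD (fun y => f y • A y) z v w =
      f z * extD A z v w + (fderiv ℝ f z v * A z w - fderiv ℝ f z w * A z v) := by
  simp only [extD, fderiv_fun_mul hf (hA _), _root_.add_apply, _root_.smul_apply, smul_eq_mul]
  ring

theorem extD_dlog {f : C2 → ℂ} {z : C2} (hf : ContDiffAt ℝ ∞ f z) (h0 : f z ≠ 0) (v w : C2) :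
    extD (fun y => (f y)⁻¹ • fderiv ℝ f y) z v w = 0 := by
  have h1 := (hf.fderiv_right (m := ∞) le_rfl).differentiableAt (by simp)
  have h2 := hf.differentiableAt (by simp)
  have h3 : ∀ u u', fderiv ℝ (fun y => fderiv ℝ f y u) z u' = fderiv ℝ (fderiv ℝ f) z u' u :=
    fun u u' => by
      rw [fderiv_clm_apply h1 (differentiableAt_const u)]
      simp
  have h4 := (hasDerivAt_inv h0).comp_hasFDerivAt z h2.hasFDerivAt
  have h5 : fderiv ℝ (fun y => (f y)⁻¹) z = _ := h4.fderiv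
  rw [extD_smul (f := fun y => (f y)⁻¹) h4.differentiableAt
    (fun u => h1.clm_apply (differentiableAt_const u)), extD, h3, h3, h5,
    (hf.isSymmSndFDerivAt (by
      rw [minSmoothness_of_isRCLikeNormedField]
      exact WithTop.coe_le_coe.2 le_top)).eq v w]
  simp only [_root_.smul_apply, smul_eq_mul]
  ring

namespace Cov
variable (C : Cov M) {f h : M → ℂ} {p : M} {α β : M → C2 →L[ℝ] ℂ}

theorem cmp_d {P : OpenPartialHomeomorph M C2} (hP : IsCh P) (hp : p ∈ P.source)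
    (hf : SmAt f p) : C.cmp P (C.d f) (P p) = fderiv ℝ (f ∘ P.symm) (P p) := by
  have e : f ∘ P.symm =ᶠ[𝓝 (P p)] (f ∘ (C.ch (C.idx p)).symm) ∘ (C.ch (C.idx p) ∘ P.symm) := by
    filter_upwards [(P.tendsto_symm hp).eventually
      ((C.ch (C.idx p)).open_source.mem_nhds (C.ac_src p))] with z hz
    exact congrArg f ((C.ch _).left_inv hz).symm
  have e1 : (C.ch (C.idx p) ∘ P.symm) (P p) = C.ch (C.idx p) p := congrArg _ (P.left_inv hp)
  have h1 := (hP.tr (C.isCh _) hp (C.ac_src p)).differentiableAt.hasFDerivAt.restrictScalars ℝ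
  have h2 := (C.ac_d hf).hasFDerivAt
  rw [← e1] at h2
  rw [C.ac_cmp hp, e.fderiv_eq, (h2.comp _ h1).fderiv, e1]
  rfl
theorem cmp_add (P : OpenPartialHomeomorph M C2) (z : C2) :
    C.cmp P (α + β) z = C.cmp P α z + C.cmp P β z := rfl
theorem d_congr (e : f =ᶠ[𝓝 p] h) : C.d f p = C.d h p := 
  (e.comp_tendsto ((C.ch _).tendsto_symm (C.ac_src p))).fderiv_eq
theorem d_const (c : ℂ) : C.d (fun _ => c) p = 0 := 
  fderiv_const_apply c
theorem d_add (hf : SmAt f p) (hh : SmAt h p) : C.d (f + h) p = C.d f p + C.d h p := 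
  fderiv_add (C.ac_d hf) (C.ac_d hh)
theorem d_neg : C.d (-f) p = -C.d f p := 
  fderiv_neg
theorem d_mul (hf : SmAt f p) (hh : SmAt h p) :
    C.d (f * h) p = f p • C.d h p + h p • C.d f p := by
  have e := fderiv_mul (C.ac_d hf) (C.ac_d hh)
  rw [C.ac_val, C.ac_val] at e
  exact e
theorem d_comp (hf : SmAt f p) {φ : ℂ → ℂ} {c : ℂ} (hφ : HasDerivAt φ c (f p)) :
    C.d (fun q => φ (f q)) p = c • C.d f p := by
  rw [← C.ac_val f p] at hφ
  exact (hφ.comp_hasFDerivAt _ (C.ac_d hf).hasFDerivAt).fderiv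
theorem d_gz (k : ℤ) : C.d (f ∘ (C.g ^ k : M ≃ₜ M)) p = C.d f ((C.g ^ k) p) := by
  have e : f ∘ (C.ch ((C.idx p).1, (C.idx p).2 - k)).symm =
      (f ∘ (C.g ^ k : M ≃ₜ M)) ∘ (C.ch (C.idx p)).symm :=
    funext fun z => congrArg f (C.ch_symm_shift _ k z)
  rw [d, d, C.idx_gz, C.ch_shift, e]
theorem dl_gz (k : ℤ) : C.dl (f ∘ (C.g ^ k : M ≃ₜ M)) p = C.dl f ((C.g ^ k) p) := by
  rw [dl, dl, C.d_gz]
  rfl
theorem dl_congr (e : f =ᶠ[𝓝 p] h) : C.dl f p = C.dl h p := by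
  rw [dl, dl, C.d_congr e, e.eq_of_nhds]
theorem dl_const (c : ℂ) : C.dl (fun _ => c) p = 0 := by
  rw [dl, C.d_const]
  exact ContinuousLinearMap.ext fun _ => mul_zero _
theorem dl_mul (hf : SmAt f p) (hh : SmAt h p) (h1 : f p ≠ 0) (h2 : h p ≠ 0) :
    C.dl (f * h) p = C.dl f p + C.dl h p := by
  refine ContinuousLinearMap.ext fun v => ?_
  rw [dl, C.d_mul hf hh]
  change (f p * h p)⁻¹ * (f p * C.d h p v + h p * C.d f p v) =
    (f p)⁻¹ * C.d f p v + (h p)⁻¹ * C.d h p v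
  field_simp
  ring
theorem dl_inv (hf : SmAt f p) (h1 : f p ≠ 0) : C.dl f⁻¹ p = -C.dl f p := by
  refine ContinuousLinearMap.ext fun v => ?_
  have e : C.d f⁻¹ p = _ := C.d_comp hf (hasDerivAt_inv h1)
  rw [dl, e]
  change (f p)⁻¹⁻¹ * (-(f p ^ 2)⁻¹ * C.d f p v) = -((f p)⁻¹ * C.d f p v)
  field_simp
theorem dl_div (hf : SmAt f p) (hh : SmAt h p) (h1 : f p ≠ 0) (h2 : h p ≠ 0) :
    C.dl (f / h) p = C.dl f p - C.dl h p := by
  rw [div_eq_mul_inv, C.dl_mul hf (hh.inv h2) h1 (inv_ne_zero h2), C.dl_inv hh h2,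
    sub_eq_add_neg]
theorem dl_zpow (hf : SmAt f p) (h1 : f p ≠ 0) (m : ℤ) :
    C.dl (f ^ m) p = (m : ℂ) • C.dl f p := by
  refine ContinuousLinearMap.ext fun v => ?_
  have e : C.d (f ^ m) p = _ := C.d_comp hf (hasDerivAt_zpow m (f p) (Or.inl h1))
  rw [dl, e]
  change (f p ^ m)⁻¹ * (m * f p ^ (m - 1) * C.d f p v) = m * ((f p)⁻¹ * C.d f p v)
  have := zpow_ne_zero m h1
  rw [zpow_sub_one₀ h1]
  field_simp
theorem dl_exp (hf : SmAt f p) : C.dl (fun q => Complex.exp (f q)) p = C.d f p := by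
  refine ContinuousLinearMap.ext fun v => ?_
  rw [dl, C.d_comp hf (Complex.hasDerivAt_exp (f p))]
  change (Complex.exp (f p))⁻¹ * (Complex.exp (f p) * C.d f p v) = _
  rw [inv_mul_cancel_left₀ (Complex.exp_ne_zero _)]

variable {C}

theorem LA_ind {Q : (M → C2 →L[ℝ] ℂ) → Prop} (h : C.SmO α p)
    (h1 : ∀ α β, β =ᶠ[𝓝 p] α → Q α → Q β) (h2 : Q 0)
    (h3 : ∀ f h α, SmAt f p → SmAt h p → Q α → Q fun q => f q • C.d h q + α q) : Q α := by
  obtain ⟨l, k1, k2⟩ := h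
  refine h1 _ _ k2 ?_
  clear k2
  induction l with
  | nil => exact h2
  | cons x l ih =>
    exact h3 _ _ _ (k1 x List.mem_cons_self).1 (k1 x List.mem_cons_self).2
      (ih fun y hy => k1 y (List.mem_cons_of_mem _ hy))

theorem LA_d {P : OpenPartialHomeomorph M C2} (hP : IsCh P) (hp : p ∈ P.source) (hf : SmAt f p) :
    ∀ᶠ w in 𝓝 (P p), C.cmp P (C.d f) w = fderiv ℝ (f ∘ P.symm) w := by
  filter_upwards [P.open_target.mem_nhds (P.map_source hp), P.tendsto_symm hp (C.sm_ev hf)]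
    with w h1 h2
  have := C.cmp_d hP (P.map_target h1) h2
  rwa [P.right_inv h1] at this

theorem SmO.congr (h : C.SmO α p) (e : α =ᶠ[𝓝 p] β) : C.SmO β p := by
  obtain ⟨l, h1, h2⟩ := h
  exact ⟨l, h1, (h2.and e).mono fun q hq => hq.2.symm.trans hq.1⟩
theorem smO_zero : C.SmO 0 p := ⟨[], by simp, .of_forall fun _ => rfl⟩
theorem smO_d (hf : SmAt f p) : C.SmO (C.d f) p := 
  ⟨[(1, f)], by simpa using ⟨smAt_one, hf⟩, .of_forall fun _ => by simp⟩
theorem SmO.add (h : C.SmO α p) (h' : C.SmO β p) : C.SmO (α + β) p := by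
  obtain ⟨l, h1, h2⟩ := h
  obtain ⟨l', h3, h4⟩ := h'
  exact ⟨l ++ l', fun x hx => (List.mem_append.1 hx).elim (h1 x) (h3 x),
    (h2.and h4).mono fun q hq => by simp [hq.1, hq.2]⟩
theorem SmO.smul (hf : SmAt f p) (h : C.SmO α p) : C.SmO (fun q => f q • α q) p := by
  obtain ⟨l, h1, h2⟩ := h
  refine ⟨l.map fun x => (f * x.1, x.2), fun x hx => ?_, h2.mono fun q hq => ?_⟩
  · obtain ⟨y, hy, rfl⟩ := List.mem_map.1 hx
    exact ⟨hf.mul (h1 y hy).1, (h1 y hy).2⟩
  · simp only [hq, List.smul_sum, List.map_map, Function.comp_def, Pi.mul_apply, mul_smul]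
theorem SmO.neg (h : C.SmO α p) : C.SmO (-α) p := 
  (h.smul (smAt_const (-1))).congr (.of_forall fun q => neg_one_smul ℂ (α q))
theorem SmO.sub (h : C.SmO α p) (h' : C.SmO β p) : C.SmO (α - β) p := by
  rw [sub_eq_add_neg]
  exact h.add h'.neg
theorem smO_sum {ι : Type} (W : Finset ι) {γ : ι → M → C2 →L[ℝ] ℂ}
    (h : ∀ a ∈ W, C.SmO (γ a) p) : C.SmO (fun q => ∑ a ∈ W, γ a q) p := by
  classical
  induction W using Finset.induction_on with
  | empty => exact smO_zero.congr (.of_forall fun _ => rfl)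
  | insert a W ha ih =>
    exact ((h a (Finset.mem_insert_self a W)).add
      (ih fun b hb => h b (Finset.mem_insert_of_mem hb))).congr
      (.of_forall fun q => (Finset.sum_insert (f := fun a => γ a q) ha).symm)
theorem smO_dl (hf : SmAt f p) (h1 : f p ≠ 0) : C.SmO (C.dl f) p := 
  (smO_d hf).smul (hf.inv h1)
theorem SmO.ev (h : C.SmO α p) : ∀ᶠ q in 𝓝 p, C.SmO α q := by
  obtain ⟨l, h1, h2⟩ := h
  filter_upwards [h2.eventually_nhds, (eventually_all_finite l.finite_toSet).2 fun x hx =>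
    (C.sm_ev (h1 x hx).1).and (C.sm_ev (h1 x hx).2)] with q k1 k2
  exact ⟨l, k2, k1⟩
theorem SmO.gz (k : ℤ) (h : C.SmO α ((C.g ^ k) p)) :
    C.SmO (α ∘ (C.g ^ k : M ≃ₜ M)) p := by
  obtain ⟨l, h1, h2⟩ := h
  refine ⟨l.map fun x => (x.1 ∘ (C.g ^ k : M ≃ₜ M), x.2 ∘ (C.g ^ k : M ≃ₜ M)), fun x hx => ?_,
    ((C.g ^ k).continuous.continuousAt.eventually h2).mono fun q hq => ?_⟩
  · obtain ⟨y, hy, rfl⟩ := List.mem_map.1 hx
    exact ⟨(C.sm_gz k).2 (h1 y hy).1, (C.sm_gz k).2 (h1 y hy).2⟩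
  · rw [Function.comp_apply, hq, List.map_map]
    refine congrArg List.sum (List.map_congr_left fun x _ => ?_)
    simp only [Function.comp_apply, C.d_gz]
theorem SmO.cmp_sm (h : C.SmO α p) {P : OpenPartialHomeomorph M C2} (hP : IsCh P)
    (hp : p ∈ P.source) (v : C2) :
    ∀ᶠ z in 𝓝 (P p), ContDiffAt ℝ ∞ (fun w => C.cmp P α w v) z := by
  refine LA_ind (Q := fun α => ∀ᶠ z in 𝓝 (P p), ContDiffAt ℝ ∞ (fun w => C.cmp P α w v) z) h
    (fun _ _ e k => ?_) (.of_forall fun _ => contDiffAt_const (c := 0)) fun f h α hf hh k => ?_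
  · filter_upwards [k, (AD_cmp (C := C) hp e).eventually_nhds] with z k1 k2
    exact k1.congr_of_eventuallyEq (k2.mono fun w hw => by simp only [hw])
  · filter_upwards [k, (LA_d (C := C) hP hp hh).eventually_nhds, (hP.sm p hp f).1 hf,
      (hP.sm p hp h).1 hh] with z k1 k2 k3 k4
    exact ((k3.mul ((k4.fderiv_right (m := ∞) le_rfl).clm_apply
      (contDiffAt_const (c := v)))).add k1).congr_of_eventuallyEq
      (k2.mono fun w hw => by simp only [← hw]; rfl)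
/-- The logarithmic differential is closed. -/
theorem extD_dl (hf : SmAt f p) (h1 : f p ≠ 0) {P : OpenPartialHomeomorph M C2} (hP : IsCh P)
    (hp : p ∈ P.source) (v w : C2) : extD (C.cmp P (C.dl f)) (P p) v w = 0 := by
  rw [extD_congr (B := fun y => ((f ∘ P.symm) y)⁻¹ • fderiv ℝ (f ∘ P.symm) y)
    ((LA_d (C := C) hP hp hf).mono fun y hy => by simp only [← hy]; rfl)]
  exact extD_dlog ((hP.sm p hp f).1 hf).self_of_nhds
    (by rwa [Function.comp_apply, P.left_inv hp]) v w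

end Cov

end Vale.Agent.P267
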