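import Vale.Agent.P267L.LA

/-! P267, lifting part: curvature sequences and their pairing. -/

open scoped Manifold ContDiff Topology ENNReal
open Filter Metric Set MeasureTheory

noncomputable section

namespace Vale.Agent.P267

set_option linter.unusedSectionVars false

variable {M : Type} [TopologicalSpace M] [ChartedSpace C2 M] [T2Space M]

namespace Cov
variable (C : Cov M) {θ θ' : C.I → M → C2 →L[ℝ] ℂ} {F F' : C.I → M → ℂ}

theorem LB_fin : IsFiniteMeasure (volume.comap Subtype.val : Measure K1) := by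
  refine ⟨?_⟩
  rw [comap_subtype_coe_apply measurableSet_closedBall, Subtype.coe_image_univ]
  exact (isCompact_closedBall _ _).measure_lt_top

theorem LB_K1 (z : K1) : ‖(z : C2)‖ ≤ 1 := mem_closedBall_zero_iff.1 z.2

theorem LB_rho (a : C.ι) : Continuous fun z : K1 => (C.ρ a ((C.e a).symm z) : ℂ) := by
  refine continuous_iff_continuousAt.2 fun z => ?_
  have hz : (z : C2) ∈ (C.e a).target := by
    rw [C.tgt a, mem_ball_zero_iff]
    linarith [LB_K1 z]
  have h1 : ContinuousAt (fun z : K1 => (C.e a).symm z) z :=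
    ContinuousAt.comp (f := Subtype.val) ((C.e a).continuousAt_symm hz)
      continuous_subtype_val.continuousAt
  exact ContinuousAt.comp (f := fun z : K1 => (C.e a).symm z) (C.ρ_sm a _).continuousAt h1

theorem LB_int0 {E : Type} [NormedAddCommGroup E] {f : K1 → E} (hf : Continuous f) :
    Integrable f (volume.comap Subtype.val : Measure K1) := by
  have := LB_fin
  exact hf.integrable_of_hasCompactSupport (HasCompactSupport.of_compactSpace _)

theorem LB_int (x y : V0 C.ι) (a : C.ι) : Integrable (fun z : K1 =>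
    (C.ρ a ((C.e a).symm z) : ℂ) * wedge (x a z) (y a z))
      (volume.comap Subtype.val : Measure K1) := by
  have hx : ∀ (x : V0 C.ι) i j, Continuous fun z => x a z i j := fun x i j =>
    (continuous_apply j).comp ((continuous_apply i).comp (x a).continuous)
  refine LB_int0 ((C.LB_rho a).mul ?_)
  unfold wedge
  exact ((((((hx x _ _).mul (hx y _ _)).sub ((hx x _ _).mul (hx y _ _))).add
    ((hx x _ _).mul (hx y _ _))).add ((hx x _ _).mul (hx y _ _))).sub
      ((hx x _ _).mul (hx y _ _))).add ((hx x _ _).mul (hx y _ _))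

theorem LB_wedge (A B : Fin 4 → Fin 4 → ℂ) : ‖wedge A B‖ ≤ 6 * (‖A‖ * ‖B‖) := by
  have h : ∀ i j k l, ‖A i j * B k l‖ ≤ ‖A‖ * ‖B‖ := fun i j k l => by
    rw [norm_mul]
    exact mul_le_mul ((norm_le_pi_norm (A i) j).trans (norm_le_pi_norm A i))
      ((norm_le_pi_norm (B k) l).trans (norm_le_pi_norm B k)) (norm_nonneg _) (norm_nonneg _)
  unfold wedge
  have h1 := norm_sub_le (A 0 1 * B 2 3) (A 0 2 * B 1 3)
  have h2 := norm_add_le (A 0 1 * B 2 3 - A 0 2 * B 1 3) (A 0 3 * B 1 2)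
  have h3 := norm_add_le (A 0 1 * B 2 3 - A 0 2 * B 1 3 + A 0 3 * B 1 2) (A 1 2 * B 0 3)
  have h4 := norm_sub_le (A 0 1 * B 2 3 - A 0 2 * B 1 3 + A 0 3 * B 1 2 + A 1 2 * B 0 3)
    (A 1 3 * B 0 2)
  have h5 := norm_add_le
    (A 0 1 * B 2 3 - A 0 2 * B 1 3 + A 0 3 * B 1 2 + A 1 2 * B 0 3 - A 1 3 * B 0 2)
    (A 2 3 * B 0 1)
  linarith [h 0 1 2 3, h 0 2 1 3, h 0 3 1 2, h 1 2 0 3, h 1 3 0 2, h 2 3 0 1]

theorem bb_add (x x' y : V0 C.ι) : C.bb (x + x') y = C.bb x y + C.bb x' y := by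
  unfold bb
  rw [← mul_add, ← Finset.sum_add_distrib]
  congr 1
  refine Finset.sum_congr rfl fun a _ => ?_
  rw [← integral_add (C.LB_int x y a) (C.LB_int x' y a)]
  refine integral_congr_ae (Eventually.of_forall fun z => ?_)
  simp only [wedge, Pi.add_apply, ContinuousMap.add_apply]
  ring

theorem bb_comm (x y : V0 C.ι) : C.bb x y = C.bb y x := by
  unfold bb
  congr 1
  refine Finset.sum_congr rfl fun a _ => ?_
  refine integral_congr_ae (Eventually.of_forall fun z => ?_)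
  simp only [wedge]
  ring

theorem bb_zero (y : V0 C.ι) : C.bb 0 y = 0 := by
  simp only [bb, wedge, Pi.zero_apply, ContinuousMap.zero_apply, zero_mul, sub_zero, add_zero,
    mul_zero, integral_zero, Finset.sum_const_zero]

/-- The pairing as an additive map. -/
def bH : V0 C.ι →+ V0 C.ι →+ ℂ where
  toFun x :=
    { toFun := fun y => C.bb x y
      map_zero' := by rw [C.bb_comm, C.bb_zero]
      map_add' := fun y y' => by rw [C.bb_comm, C.bb_add, C.bb_comm y, C.bb_comm y'] }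
  map_zero' := AddMonoidHom.ext fun y => C.bb_zero y
  map_add' x x' := AddMonoidHom.ext fun y => C.bb_add x x' y

theorem bH_apply (x y : V0 C.ι) : C.bH x y = C.bb x y := rfl

theorem pr_eq (N : ℕ) (x y : ℤ → V0 C.ι) : C.pr N x y = pp C.bH N x y := rfl

theorem bb_norm : ∃ K : ℝ, 0 ≤ K ∧ ∀ x y : V0 C.ι, ‖C.bb x y‖ ≤ K * ‖x‖ * ‖y‖ := by
  refine ⟨‖-(4 * Real.pi ^ 2 : ℂ)⁻¹‖ * ∑ a, (∫ z : K1, ‖(C.ρ a ((C.e a).symm z) : ℂ)‖
    ∂(volume.comap Subtype.val)) * 6, mul_nonneg (norm_nonneg _) (Finset.sum_nonneg fun a _ =>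
      mul_nonneg (integral_nonneg fun z => norm_nonneg _) (by norm_num)), fun x y => ?_⟩
  unfold bb
  rw [norm_mul, mul_assoc, mul_assoc]
  refine mul_le_mul_of_nonneg_left ((norm_sum_le _ _).trans ?_) (norm_nonneg _)
  rw [Finset.sum_mul]
  refine Finset.sum_le_sum fun a _ => ?_
  rw [mul_assoc, ← integral_mul_const]
  refine norm_integral_le_of_norm_le (LB_int0 ((C.LB_rho a).norm.mul continuous_const))
    (Eventually.of_forall fun z => ?_)
  rw [norm_mul]
  refine mul_le_mul_of_nonneg_left ((LB_wedge _ _).trans ?_) (norm_nonneg _)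
  refine mul_le_mul_of_nonneg_left ?_ (by norm_num)
  exact mul_le_mul (((x a).norm_coe_le_norm z).trans (norm_le_pi_norm x a))
    (((y a).norm_coe_le_norm z).trans (norm_le_pi_norm y a)) (norm_nonneg _) (norm_nonneg _)

theorem bb_loc {x y : V0 C.ι} (h : ∀ a z, x a z = 0 ∨ y a z = 0) : C.bb x y = 0 := by
  have e : ∀ a z, wedge (x a z) (y a z) = 0 := by
    intro a z
    rcases h a z with h0 | h0 <;> rw [h0] <;>
      simp only [wedge, Pi.zero_apply, zero_mul, mul_zero, sub_zero, add_zero]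
  simp only [bb, e, mul_zero, integral_zero, Finset.sum_const_zero]

variable {C}

theorem LB_pt (i : C.I) (z : K1) :
    (C.ch i).symm z ∈ C.U i (3 / 2) ∧ C.ch i ((C.ch i).symm z) = z :=
  C.symm_mem_U i (by norm_num) (by linarith [LB_K1 z])

theorem LB_sm {i : C.I} {α : M → C2 →L[ℝ] ℂ} (z : K1) (h : C.SmO α ((C.ch i).symm z)) (v : C2) :
    ContDiffAt ℝ ∞ (fun w => C.cmp (C.ch i) α w v) z := by
  have h1 := h.cmp_sm (C.isCh i) (LB_pt i z).1.1 v
  rw [(LB_pt i z).2] at h1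
  exact h1.self_of_nhds

theorem LB_df {i : C.I} {α : M → C2 →L[ℝ] ℂ} (z : K1) (h : C.SmO α ((C.ch i).symm z)) (v : C2) :
    DifferentiableAt ℝ (fun w => C.cmp (C.ch i) α w v) z :=
  (LB_sm z h v).differentiableAt (by simp)

theorem LB_add {i : C.I} {α β : M → C2 →L[ℝ] ℂ} (z : K1) (h : C.SmO α ((C.ch i).symm z))
    (h' : C.SmO β ((C.ch i).symm z)) (v w : C2) :
    extD (C.cmp (C.ch i) (α + β)) z v w =
      extD (C.cmp (C.ch i) α) z v w + extD (C.cmp (C.ch i) β) z v w := by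
  have e : C.cmp (C.ch i) (α + β) = C.cmp (C.ch i) α + C.cmp (C.ch i) β :=
    funext fun y => C.cmp_add _ y
  rw [e, extD_add (LB_df z h) (LB_df z h')]

theorem LB_zero (i : C.I) (z : C2) : C.Om 0 i z = 0 := by
  funext a b
  have e : C.cmp (C.ch i) ((0 : C.I → M → C2 →L[ℝ] ℂ) i) = fun _ => 0 := by
    funext y
    simp only [cmp, Pi.zero_apply, ContinuousLinearMap.zero_comp]
  unfold Om
  rw [e]
  simp only [extD, zero_apply, fderiv_fun_const, Pi.zero_apply, sub_self]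

theorem Cn.cont (h : C.Cn θ) (i : C.I) : Continuous fun z : K1 => C.Om θ i z := by
  have h1 : ∀ v w : C2, Continuous fun z : K1 =>
      fderiv ℝ (fun y => C.cmp (C.ch i) (θ i) y w) z v := by
    intro v w
    refine continuous_iff_continuousAt.2 fun z => ?_
    have h2 := (LB_sm z (h i _ (LB_pt i z).1) w).continuousAt_fderiv (by simp)
    exact (ContinuousAt.comp (f := Subtype.val) h2
      continuous_subtype_val.continuousAt).clm_apply continuousAt_const
  exact continuous_pi fun a => continuous_pi fun b => (h1 _ _).sub (h1 _ _)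

theorem Cn.cv_apply (h : C.Cn θ) (k : ℤ) (a : C.ι) (z : K1) :
    C.cv θ k a z = C.Om θ (a, k) z := by
  unfold cv
  rw [ContinuousMap.mkD_of_continuous (h.cont (a, k))]
  rfl

theorem Cn.add (h : C.Cn θ) (h' : C.Cn θ') : C.Cn (θ + θ') := fun i p hp =>
  (h i p hp).add (h' i p hp)

theorem Cn.smul (h : C.Cn θ) (c : ℂ) : C.Cn (c • θ) := fun i p hp =>
  SmO.smul (smAt_const c) (h i p hp)

theorem Cn.shf (h : C.Cn θ) (k : ℤ) : C.Cn (C.shf k θ) := fun i p hp =>
  SmO.gz k (h (i.1, i.2 - k) _ ((C.U_shift i k _ p).2 hp))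

theorem Cn.cv_add (h : C.Cn θ) (h' : C.Cn θ') : C.cv (θ + θ') = C.cv θ + C.cv θ' := by
  funext k a
  refine ContinuousMap.ext fun z => ?_
  rw [Pi.add_apply, Pi.add_apply, ContinuousMap.add_apply, (h.add h').cv_apply, h.cv_apply,
    h'.cv_apply]
  funext b c
  exact LB_add z (h _ _ (LB_pt _ z).1) (h' _ _ (LB_pt _ z).1) _ _

theorem Cn.cv_smul (h : C.Cn θ) (m : ℤ) : C.cv ((m : ℂ) • θ) = m • C.cv θ := by
  funext k a
  refine ContinuousMap.ext fun z => ?_
  rw [Pi.smul_apply, Pi.smul_apply, ContinuousMap.coe_zsmul, Pi.smul_apply,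
    (h.smul m).cv_apply, h.cv_apply]
  funext b c
  have h1 := extD_smul (f := fun _ => (m : ℂ)) (differentiableAt_const _)
    (LB_df z (h (a, k) _ (LB_pt _ z).1)) (bs b) (bs c)
  simp only [fderiv_fun_const, Pi.zero_apply, zero_apply, zero_mul, sub_self, add_zero] at h1
  rw [Pi.smul_apply, Pi.smul_apply, zsmul_eq_mul]
  exact h1

theorem cv_shf (θ : C.I → M → C2 →L[ℝ] ℂ) (k : ℤ) : C.cv (C.shf k θ) = shS k (C.cv θ) := by
  funext l a
  have e : C.cmp (C.ch (a, l)) (C.shf k θ (a, l)) = C.cmp (C.ch (a, l - k)) (θ (a, l - k)) := by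
    funext z
    have e1 : ∀ y, (C.ch (a, l - k)).symm y = (C.g ^ k) ((C.ch (a, l)).symm y) :=
      C.ch_symm_shift (a, l) k
    have e2 : C.ch (C.idx ((C.ch (a, l - k)).symm z)) ∘ (C.ch (a, l - k)).symm =
        C.ch (C.idx ((C.ch (a, l)).symm z)) ∘ (C.ch (a, l)).symm := by
      funext y
      rw [Function.comp_apply, Function.comp_apply, e1, e1, C.idx_gz, C.ch_shift]
    unfold cmp
    rw [e2, e1]
    rfl
  have e3 : C.Om (C.shf k θ) (a, l) = C.Om θ (a, l - k) := by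
    funext z b c
    unfold Om
    rw [e]
  simp only [cv, shS, e3]

theorem Om_congr {i : C.I} {z : C2} (hz : ‖z‖ < 4) (h : θ i =ᶠ[𝓝 ((C.ch i).symm z)] θ' i) :
    C.Om θ i z = C.Om θ' i z := by
  obtain ⟨h1, h2⟩ := C.symm_mem_U i le_rfl hz
  have h3 := AD_cmp (C := C) h1.1 h
  rw [h2] at h3
  funext a b
  exact extD_congr h3 _ _

theorem cv_congr {k : ℤ} (h : ∀ a, ∀ p ∈ C.U (a, k) (3 / 2), θ (a, k) p = θ' (a, k) p) :
    C.cv θ k = C.cv θ' k := by
  funext a
  have e : (fun z : K1 => C.Om θ (a, k) z) = fun z : K1 => C.Om θ' (a, k) z := by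
    funext z
    refine Om_congr (by linarith [LB_K1 z]) ?_
    filter_upwards [(C.isOpen_U (a, k) (3 / 2)).mem_nhds (LB_pt (a, k) z).1] with p hp
    exact h a p hp
  simp only [cv, e]

theorem Om_zero {i : C.I} {z : C2} (hz : ‖z‖ < 4) (h : θ i =ᶠ[𝓝 ((C.ch i).symm z)] 0) :
    C.Om θ i z = 0 :=
  (Om_congr (θ' := 0) hz h).trans (LB_zero i z)

/-- A gauge transformation does not change the curvature. -/
theorem Cn.cv_dl (h : C.Cn θ) {s : C.I → M → ℂ}
    (hs : ∀ i, ∀ p ∈ C.U i (3 / 2), SmAt (s i) p ∧ s i p ≠ 0) :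
    C.Cn (fun i => θ i + C.dl (s i)) ∧ C.cv (fun i => θ i + C.dl (s i)) = C.cv θ := by
  have h1 : ∀ i, ∀ p ∈ C.U i (3 / 2), C.SmO (C.dl (s i)) p := fun i p hp =>
    smO_dl (hs i p hp).1 (hs i p hp).2
  have h2 : C.Cn fun i => θ i + C.dl (s i) := fun i p hp => (h i p hp).add (h1 i p hp)
  refine ⟨h2, ?_⟩
  funext k a
  refine ContinuousMap.ext fun z => ?_
  rw [h2.cv_apply, h.cv_apply]
  funext b c
  have hp := LB_pt (C := C) (a, k) z
  have h3 := extD_dl (C := C) (hs _ _ hp.1).1 (hs _ _ hp.1).2 (C.isCh (a, k)) hp.1.1 (bs b) (bs c)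
  rw [hp.2] at h3
  have h4 := LB_add z (h _ _ hp.1) (h1 _ _ hp.1) (bs b) (bs c)
  rw [h3, add_zero] at h4
  exact h4

theorem Pd.cv {N : ℕ} (h : C.Pd N θ) (k : ℤ) : C.cv θ (k - N) = C.cv θ k := by
  have h1 := congrFun (cv_shf θ N) k
  rw [show C.shf N θ = θ from h] at h1
  exact h1.symm

/-- Compactly supported forms have finitely many nonzero levels. -/
theorem CS.cv {a b : ℝ} (h : C.CS 0 θ a b) : (Function.support (C.cv θ)).Finite := by
  refine (Set.finite_Icc (-⌈C.R + |a| + |b|⌉) ⌈C.R + |a| + |b|⌉).subset fun k hk => ?_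
  by_contra hn
  apply hk
  have hk' : C.R + |a| + |b| < |(k : ℝ)| := by
    have h1 : ⌈C.R + |a| + |b|⌉ < |k| := by
      rw [mem_Icc, ← abs_le] at hn
      exact not_le.1 hn
    have h2 : ((⌈C.R + |a| + |b|⌉ : ℤ) : ℝ) < |(k : ℝ)| := by exact_mod_cast h1
    exact (Int.le_ceil _).trans_lt h2
  have h3 : C.cv θ k = C.cv 0 k := by
    refine cv_congr fun c p hp => h _ p fun ht => ?_
    have h4 : |C.t p + (k : ℝ)| ≤ C.R := C.t_ch hp.1
    have h5 := abs_le.1 h4
    have h6 := le_abs_self b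
    have h7 := neg_abs_le a
    have h8 := abs_nonneg a
    have h9 := abs_nonneg b
    rcases lt_abs.1 hk' with h0 | h0 <;> linarith [ht.1, ht.2]
  rw [h3]
  funext c
  refine ContinuousMap.ext fun z => ?_
  have h0 : C.Cn 0 := fun i p _ => smO_zero
  rw [h0.cv_apply, LB_zero]
  rfl

/-- Forms with disjoint supports are orthogonal. -/
theorem CS.jp_zero {a b a' b' : ℝ} (h : C.CS 0 θ a b) (h' : C.CS 0 θ' a' b') (h1 : C.Cn θ)
    (h2 : C.Cn θ') (hd : Disjoint (Icc a b) (Icc a' b')) : jp C.bH (C.cv θ) (C.cv θ') = 0 := by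
  have key : ∀ {θ : C.I → M → C2 →L[ℝ] ℂ} {a b : ℝ}, C.CS 0 θ a b → C.Cn θ → ∀ k c (z : K1),
      C.t ((C.ch (c, k)).symm z) ∉ Icc a b → C.cv θ k c z = 0 := by
    intro θ a b h h1 k c z hz
    rw [h1.cv_apply]
    refine Om_zero (by linarith [LB_K1 z]) ?_
    filter_upwards [(isClosed_Icc.preimage C.continuous_t).isOpen_compl.mem_nhds hz] with p hp
    exact h _ p hp
  unfold jp
  refine finsum_eq_zero_of_forall_eq_zero fun k => ?_
  rw [bH_apply]
  refine C.bb_loc fun c z => ?_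
  by_cases ht : C.t ((C.ch (c, k)).symm z) ∈ Icc a b
  · exact Or.inr (key h' h2 k c z (Set.disjoint_left.1 hd ht))
  · exact Or.inl (key h h1 k c z ht)

end Cov

end Vale.Agent.P267
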