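import Vale.Agent.P267L.LC
import Vale.Agent.P272.Loc

/-! P267, lifting part: the Chern connection. -/

open scoped Manifold ContDiff Topology ENNReal
open Filter Metric Set MeasureTheory

noncomputable section

namespace Vale.Agent.P267

set_option linter.unusedSectionVars false

variable {M : Type} [TopologicalSpace M] [ChartedSpace C2 M] [T2Space M]

theorem LE1_ext {ψ : C2 → ℝ} {z : C2} (h : ∀ᶠ w in 𝓝 z, ContDiffAt ℝ ∞ ψ w) (v w : C2) :
    fderiv ℝ (fun y => (fderiv ℝ (fun y => (ψ y : ℂ)) y - dbar (fun y => (ψ y : ℂ)) y) w) z v =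
      ((fderiv ℝ (fderiv ℝ ψ) z v w : ℝ) -
        Complex.I * (fderiv ℝ (fderiv ℝ ψ) z v (Complex.I • w) : ℝ)) * (1 / 2) := by
  have h1 : HasFDerivAt (fderiv ℝ ψ) (fderiv ℝ (fderiv ℝ ψ) z) z :=
    ((h.self_of_nhds.fderiv_right (m := ∞) (by simp)).differentiableAt (by simp)).hasFDerivAt
  have h2 : ∀ v : C2, HasFDerivAt (fun w => ((fderiv ℝ ψ w v : ℝ) : ℂ))
      (Complex.ofRealCLM ∘L (ContinuousLinearMap.apply ℝ ℝ v ∘L fderiv ℝ (fderiv ℝ ψ) z)) z :=
    fun v => Complex.ofRealCLM.hasFDerivAt.comp z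
      ((ContinuousLinearMap.apply ℝ ℝ v).hasFDerivAt.comp z h1)
  have h3 : (fun y => (fderiv ℝ (fun y => (ψ y : ℂ)) y - dbar (fun y => (ψ y : ℂ)) y) w) =ᶠ[𝓝 z]
      fun y => (((fderiv ℝ ψ y w : ℝ) : ℂ) -
        Complex.I * ((fderiv ℝ ψ y (Complex.I • w) : ℝ) : ℂ)) * (1 / 2) := by
    filter_upwards [h] with y hy
    have hy' := hy.differentiableAt (by simp)
    rw [sub_apply, ac_app, P272.Loc_fderiv_ofReal hy',
      P272.Loc_fderiv_ofReal hy']
    ring
  have h4 := (((h2 w).sub ((h2 (Complex.I • w)).const_mul Complex.I)).mul_const (1 / 2)).fderiv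
  rw [h3.fderiv_eq]
  refine (congrArg (fun L : C2 →L[ℝ] ℂ => L v) h4).trans ?_
  simp
  ring

/-- The square of the curvature of a weight. -/
theorem wedge_levi {ψ : C2 → ℝ} {z : C2} (h : ∀ᶠ w in 𝓝 z, ContDiffAt ℝ ∞ ψ w) :
    wedge (fun a b => extD (fun w => fderiv ℝ (fun y => (ψ y : ℂ)) w - dbar (fun y => (ψ y : ℂ)) w)
        z (bs a) (bs b))
      (fun a b => extD (fun w => fderiv ℝ (fun y => (ψ y : ℂ)) w - dbar (fun y => (ψ y : ℂ)) w)
        z (bs a) (bs b)) = -8 * ((P272.LM ψ z).det.re : ℂ) := by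
  have hs : IsSymmSndFDerivAt ℝ ψ z := h.self_of_nhds.isSymmSndFDerivAt (by
    rw [minSmoothness_of_isRCLikeNormedField]; exact WithTop.coe_le_coe.2 le_top)
  have b0 : bs 0 = Pi.single 0 1 := rfl
  have b2 : bs 2 = Pi.single 1 1 := rfl
  have b1 : bs 1 = Complex.I • Pi.single 0 1 := by
    rw [← Pi.single_smul', smul_eq_mul, mul_one]; rfl
  have b3 : bs 3 = Complex.I • Pi.single 1 1 := by
    rw [← Pi.single_smul', smul_eq_mul, mul_one]; rfl
  have hI : ∀ v : C2, Complex.I • Complex.I • v = -v := fun v => by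
    rw [smul_smul, Complex.I_mul_I, neg_one_smul]
  simp only [wedge, extD, LE1_ext h, b0, b1, b2, b3, hI, map_neg, Matrix.det_fin_two, P272.LM,
    Matrix.of_apply, P272.Loc_lev h.self_of_nhds]
  generalize (Pi.single 0 1 : C2) = x
  generalize (Pi.single 1 1 : C2) = y
  simp only [hs.eq (Complex.I • x) x, hs.eq y x, hs.eq (Complex.I • y) x, hs.eq y (Complex.I • x),
    hs.eq (Complex.I • y) (Complex.I • x), hs.eq (Complex.I • y) y]
  generalize fderiv ℝ (fderiv ℝ ψ) z x x = a₁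
  generalize fderiv ℝ (fderiv ℝ ψ) z x (Complex.I • x) = a₂
  generalize fderiv ℝ (fderiv ℝ ψ) z x y = a₃
  generalize fderiv ℝ (fderiv ℝ ψ) z x (Complex.I • y) = a₄
  generalize fderiv ℝ (fderiv ℝ ψ) z (Complex.I • x) (Complex.I • x) = a₅
  generalize fderiv ℝ (fderiv ℝ ψ) z (Complex.I • x) y = a₆
  generalize fderiv ℝ (fderiv ℝ ψ) z (Complex.I • x) (Complex.I • y) = a₇
  generalize fderiv ℝ (fderiv ℝ ψ) z y y = a₈
  generalize fderiv ℝ (fderiv ℝ ψ) z y (Complex.I • y) = a₉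
  generalize fderiv ℝ (fderiv ℝ ψ) z (Complex.I • y) (Complex.I • y) = a₀
  apply Complex.ext
  · simp
    ring
  · simp

namespace Cov
variable {C : Cov M} {F : C.I → M → ℂ} {r : ℝ}

theorem LE1_db {f : M → ℂ} {p : M} (hf : SmAt f p) : C.SmO (C.db f) p := by
  have hP := C.isCh (C.idx p)
  have hp := C.ac_src p
  generalize C.ch (C.idx p) = P at hP hp
  have h1 : ∀ j : Fin 2, SmAt ((fun w => dbar (f ∘ P.symm) w (Pi.single j 1)) ∘ P) p := fun j =>
    hP.sm_fun hp (((hP.sm p hp f).1 hf).mono fun z hz => AD_sm hz _)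
  have h2 : ∀ q ∈ P.source, ∀ j : Fin 2, SmAt (fun q => (starRingEnd ℂ) (P q j)) q :=
    fun q hq j => (hP.coord hq j).smAt.conj
  have h3 : ∀ q ∈ P.source, ∀ (j : Fin 2) (v : C2),
      C.cmp P (C.d fun q => (starRingEnd ℂ) (P q j)) (P q) v = (starRingEnd ℂ) (v j) := by
    intro q hq j v
    have e : (fun q => (starRingEnd ℂ) (P q j)) ∘ P.symm =ᶠ[𝓝 (P q)]
        (Complex.conjCLE.toContinuousLinearMap.comp (ContinuousLinearMap.proj j) : C2 →L[ℝ] ℂ) := by
      filter_upwards [P.open_target.mem_nhds (P.map_source hq)] with z hz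
      simp [P.right_inv hz]
    rw [C.cmp_d hP hq (h2 q hq j), e.fderiv_eq, ContinuousLinearMap.fderiv]
    rfl
  refine SmO.congr (smO_sum Finset.univ fun j _ => SmO.smul (h1 j) (smO_d (h2 p hp j))) ?_
  filter_upwards [P.open_source.mem_nhds hp, C.sm_ev hf] with q hq hq'
  refine (C.cmp_inj (α := C.db f) (β := fun q => ∑ j, ((fun w => dbar (f ∘ P.symm) w
    (Pi.single j 1)) ∘ P) q • C.d (fun q => (starRingEnd ℂ) (P q j)) q) hP hq ?_).symm
  rw [C.cmp_db hP hq hq']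
  ext v
  rw [AD_anti fun c v => dbar_smul _ _ v c, C.ac_cmp hq]
  simp only [ContinuousLinearMap.comp_apply, _root_.sum_apply,
    _root_.smul_apply, smul_eq_mul]
  refine Finset.sum_congr rfl fun j _ => ?_
  rw [← h3 q hq j v, C.ac_cmp hq, mul_comm]
  rfl

theorem smF_smO {α : M → C2 →L[ℝ] ℂ} {p : M} (h : C.SmF α p) : C.SmO α p :=
  AD_ind (Q := fun α => C.SmO α p) h (fun _ _ e q => q.congr e.symm) smO_zero
    fun _ _ _ hf hh q => (SmO.smul hf (LE1_db hh)).add q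

theorem LE1_sm (h : C.HFr F r) {i : C.I} {p : M} (hp : p ∈ C.U i r) :
    SmAt (fun q => (Real.log (‖F i q‖ ^ 2) : ℂ)) p := by
  refine (h.met i p hp).comp_real (φ := fun x => Real.log (x ^ 2)) ?_
  filter_upwards [isOpen_ne.mem_nhds (norm_ne_zero_iff.2 (h.ne i p hp))] with x hx
  exact (contDiffAt_id.pow 2).log (pow_ne_zero 2 hx)

theorem LE1_conj {c : M → ℂ} {p : M} (hc : HolAt c p) :
    C.db (fun q => (starRingEnd ℂ) (c q)) p = C.d (fun q => (starRingEnd ℂ) (c q)) p := by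
  have h1 := (Complex.conjCLE.toContinuousLinearMap.hasFDerivAt.comp _
    (C.ac_d hc.smAt).hasFDerivAt).fderiv
  ext v
  have h2 := congrArg (fun L : C2 →L[ℝ] ℂ => (starRingEnd ℂ) (L (Complex.I • v))) (C.db_hol hc)
  simp only [db, ac_app, smul_smul, Complex.I_mul_I, neg_one_smul, map_neg, map_mul, map_add,
    zero_apply, map_zero, Complex.conj_I, map_inv₀, map_ofNat] at h2
  have h3 : ∀ w, fderiv ℝ ((fun q => (starRingEnd ℂ) (c q)) ∘ (C.ch (C.idx p)).symm)
      (C.ch (C.idx p) p) w = (starRingEnd ℂ) (fderiv ℝ (c ∘ (C.ch (C.idx p)).symm)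
        (C.ch (C.idx p) p) w) := fun w => congrArg (fun L : C2 →L[ℝ] ℂ => L w) h1
  simp only [db, d, ac_app, h3]
  linear_combination Complex.I * h2 - (2⁻¹ * (starRingEnd ℂ) (fderiv ℝ (c ∘ (C.ch (C.idx p)).symm)
    (C.ch (C.idx p) p) v)) * Complex.I_mul_I

theorem HFr.wg_sm (h : C.HFr F r) (hr : r ≤ 4) (i : C.I) :
    ∀ z ∈ ball (0 : C2) r, ContDiffAt ℝ ∞ (C.wg F i) z := by
  intro z hz
  obtain ⟨h1, h2⟩ := C.symm_mem_U i hr (mem_ball_zero_iff.1 hz)
  have := (((C.isCh i).sm _ h1.1 _).1 (LE1_sm h h1)).self_of_nhds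
  rw [h2] at this
  exact Complex.reCLM.contDiff.contDiffAt.comp z this

theorem HFr.chern (h : C.HFr F r) (hr : 3 / 2 ≤ r) : C.Con F (C.chern F) := by
  refine ⟨fun i p hp => ?_, fun i j p hp => ?_⟩
  · have := LE1_sm h (C.U_mono i hr hp)
    exact (smO_d this).sub (smF_smO (smF_db this))
  have hi := C.U_mono i hr hp.1
  have hj := C.U_mono j hr hp.2
  have hc := h.hol i j p ⟨hi, hj⟩
  have h0 : (F i / F j) p ≠ 0 := div_ne_zero (h.ne i p hi) (h.ne j p hj)
  have h0' : (starRingEnd ℂ) ((F i / F j) p) ≠ 0 := (map_ne_zero _).2 h0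
  have hN := hc.smAt.mul hc.smAt.conj
  have e : ((fun q => (Real.log (‖F i q‖ ^ 2) : ℂ)) + -fun q => (Real.log (‖F j q‖ ^ 2) : ℂ))
      =ᶠ[𝓝 p] fun q => Complex.log ((F i / F j * fun q => (starRingEnd ℂ) ((F i / F j) q)) q) := by
    filter_upwards [(C.isOpen_U i r).mem_nhds hi, (C.isOpen_U j r).mem_nhds hj] with q h1 h2
    have k1 := pow_ne_zero 2 (norm_ne_zero_iff.2 (h.ne i q h1))
    have k2 := pow_ne_zero 2 (norm_ne_zero_iff.2 (h.ne j q h2))
    simp only [Pi.mul_apply, Pi.add_apply, Pi.neg_apply, Pi.div_apply]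
    rw [Complex.mul_conj, Complex.normSq_eq_norm_sq, ← Complex.ofReal_log (sq_nonneg _), norm_div,
      div_pow, Real.log_div k1 k2]
    push_cast
    ring
  have hl : HasDerivAt Complex.log ((F i / F j) p * (starRingEnd ℂ) ((F i / F j) p))⁻¹
      ((F i / F j * fun q => (starRingEnd ℂ) ((F i / F j) q)) p) := by
    refine Complex.hasDerivAt_log ?_
    rw [Complex.mul_conj]
    exact Complex.ofReal_mem_slitPlane.2 (Complex.normSq_pos.2 h0)
  have e1 := C.d_congr e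
  have e2 := C.db_congr e
  rw [C.d_add (LE1_sm h hi) (LE1_sm h hj).neg, C.d_neg, C.d_comp hN hl,
    C.d_mul hc.smAt hc.smAt.conj] at e1
  rw [C.db_add (LE1_sm h hi) (LE1_sm h hj).neg, C.db_neg, C.db_comp hN hl,
    C.db_mul hc.smAt hc.smAt.conj, C.db_hol hc, LE1_conj hc] at e2
  have e3 : C.chern F i p - C.chern F j p = _ - _ := (by
    simp only [Cov.chern]; abel : _ = _ - _).trans (congrArg₂ (· - ·) e1 e2)
  rw [e3]
  ext v
  simp only [dl, sub_apply, add_apply, _root_.smul_apply, smul_eq_mul, zero_apply]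
  field_simp
  ring

theorem Pd.chern {N : ℕ} (h : C.Pd N F) : C.Pd N (C.chern F) := by
  funext i p
  have e : (fun q => (Real.log (‖F (i.1, i.2 - N) q‖ ^ 2) : ℂ)) ∘ (C.g ^ (N : ℤ) : M ≃ₜ M) =
      fun q => (Real.log (‖F i q‖ ^ 2) : ℂ) := by
    funext q
    rw [← congrFun (congrFun h i) q]
    rfl
  simp only [Cov.shf, Cov.chern]
  rw [← C.d_gz, ← C.db_gz, e]

theorem HFr.bb_chern (h : C.HFr F 4) (k : ℤ) :
    C.bb (C.cv (C.chern F) k) (C.cv (C.chern F) k) =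
      ((2 / Real.pi ^ 2 * ∑ a, ∫ z : K1, C.ρ a ((C.e a).symm z) *
        (P272.LM (C.wg F (a, k)) z).det.re ∂(volume.comap Subtype.val) : ℝ) : ℂ) := by
  have hC := (h.chern (by norm_num)).sm
  have key : ∀ a (z : K1), wedge (C.cv (C.chern F) k a z) (C.cv (C.chern F) k a z) =
      -8 * ((P272.LM (C.wg F (a, k)) z).det.re : ℂ) := by
    intro a z
    have hz : (z : C2) ∈ ball (0 : C2) 4 :=
      mem_ball_zero_iff.2 ((LB_K1 z).trans_lt (by norm_num))
    obtain ⟨h1, h2⟩ := C.symm_mem_U (a, k) le_rfl (mem_ball_zero_iff.1 hz)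
    have e1 := C.LA_d (C.isCh _) h1.1 (LE1_sm h h1)
    have e2 := C.AD_db (C.isCh _) h1.1 (LE1_sm h h1)
    rw [h2] at e1 e2
    have e : C.cmp (C.ch (a, k)) (C.chern F (a, k)) =ᶠ[𝓝 (z : C2)] fun w =>
        fderiv ℝ (fun y => (C.wg F (a, k) y : ℂ)) w - dbar (fun y => (C.wg F (a, k) y : ℂ)) w := by
      filter_upwards [e1, e2] with w k1 k2
      exact congrArg₂ (· - ·) k1 k2
    rw [hC.cv_apply, ← wedge_levi (mem_of_superset (isOpen_ball.mem_nhds hz) (h.wg_sm le_rfl _))]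
    congr 1 <;> exact funext₂ fun _ _ => extD_congr e _ _
  simp only [bb, key]
  push_cast
  rw [Finset.mul_sum, Finset.mul_sum]
  refine Finset.sum_congr rfl fun a _ => ?_
  rw [← integral_complex_ofReal, ← integral_const_mul, ← integral_const_mul]
  refine integral_congr_ae (.of_forall fun z => ?_)
  have : (Real.pi : ℂ) ≠ 0 := by exact_mod_cast Real.pi_ne_zero
  push_cast
  field_simp
  ring

end Cov

end Vale.Agent.P267
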