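import Vale.Agent.P267L.LE1
import Vale.Agent.P267S.CV

/-! P267, lifting part: the energy. -/

open scoped Manifold ContDiff Topology ENNReal
open Filter Metric Set MeasureTheory

noncomputable section

namespace Vale.Agent.P267

set_option linter.unusedSectionVars false

variable {M : Type} [TopologicalSpace M] [ChartedSpace C2 M] [T2Space M]

theorem LE2_fro (A : Matrix (Fin 2) (Fin 2) ℂ) : 0 ≤ fro A :=
  Finset.sum_nonneg fun _ _ => Finset.sum_nonneg fun _ _ => sq_nonneg _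

theorem LE2_conj {D X : Matrix (Fin 2) (Fin 2) ℂ} {L : ℝ} (hD : ∀ j k, ‖D j k‖ ≤ L) :
    fro (D.conjTranspose * X * D) ≤ 16 * L ^ 4 * fro X := by
  have hL : 0 ≤ L := (norm_nonneg _).trans (hD 0 0)
  have h1 : ∀ a b j k, ‖star (D j a) * X j k * D k b‖ ≤ L ^ 2 * ‖X j k‖ := fun a b j k => by
    rw [norm_mul, norm_mul, norm_star]
    calc _ ≤ L * ‖X j k‖ * L := by gcongr <;> exact hD _ _
      _ = _ := by ring
  have h2 : ∀ a b, ‖(D.conjTranspose * X * D) a b‖ ^ 2 ≤ 4 * L ^ 4 * fro X := fun a b => by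
    have e : (D.conjTranspose * X * D) a b = star (D 0 a) * X 0 0 * D 0 b +
        star (D 0 a) * X 0 1 * D 1 b + star (D 1 a) * X 1 0 * D 0 b +
        star (D 1 a) * X 1 1 * D 1 b := by
      simp only [Matrix.mul_apply, Matrix.conjTranspose_apply, Fin.sum_univ_two]
      ring
    have h3 : ‖(D.conjTranspose * X * D) a b‖ ≤
        L ^ 2 * (‖X 0 0‖ + ‖X 0 1‖ + ‖X 1 0‖ + ‖X 1 1‖) := by
      rw [e]
      refine (norm_add_le_of_le (norm_add_le_of_le (norm_add_le_of_le (h1 _ _ _ _) (h1 _ _ _ _))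
        (h1 _ _ _ _)) (h1 _ _ _ _)).trans (le_of_eq (by ring))
    refine (pow_le_pow_left₀ (norm_nonneg _) h3 2).trans ?_
    rw [mul_pow, ← pow_mul, mul_comm 4, mul_assoc]
    refine mul_le_mul_of_nonneg_left ?_ (by positivity)
    simp only [fro, Fin.sum_univ_two]
    nlinarith [sq_nonneg (‖X 0 0‖ - ‖X 0 1‖), sq_nonneg (‖X 0 0‖ - ‖X 1 0‖),
      sq_nonneg (‖X 0 0‖ - ‖X 1 1‖), sq_nonneg (‖X 0 1‖ - ‖X 1 0‖), sq_nonneg (‖X 0 1‖ - ‖X 1 1‖),
      sq_nonneg (‖X 1 0‖ - ‖X 1 1‖)]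
  have h4 := h2 0 0
  have h5 := h2 0 1
  have h6 := h2 1 0
  have h7 := h2 1 1
  rw [fro]
  simp only [Fin.sum_univ_two]
  linarith

theorem LE2_sub : closedBall (0 : C2) 1 ⊆ ball 0 4 := closedBall_subset_ball (by norm_num)

namespace Cov
variable {C : Cov M} {F : C.I → M → ℂ}

theorem en_nonneg (F : C.I → M → ℂ) (k : ℤ) : 0 ≤ C.en F k :=
  Finset.sum_nonneg fun _ _ => integral_nonneg fun _ => mul_nonneg (C.ρ_nonneg _ _) (LE2_fro _)

theorem Pd.en {N : ℕ} (h : C.Pd N F) (k : ℤ) : C.en F (k - N) = C.en F k := by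
  have e : ∀ a, C.wg F (a, k - N) = C.wg F (a, k) := fun a => funext fun z => by
    have h1 : F (a, k - N) ((C.g ^ (N : ℤ)) ((C.ch (a, k)).symm z)) = _ :=
      congrFun (congrFun h (a, k)) ((C.ch (a, k)).symm z)
    have h2 : (C.ch (a, k - N)).symm z = _ := C.ch_symm_shift (a, k) N z
    simp only [wg, h2, h1]
  simp only [Cov.en, e]

theorem HFr.fro_cont (h : C.HFr F 4) (i : C.I) :
    ContinuousOn (fun z => P272.LM (C.wg F i) z) (ball 0 4) :=
  continuousOn_pi.2 fun j => continuousOn_pi.2 fun k z hz =>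
    (P272.contDiffAt_LM (h.wg_sm le_rfl i z hz) j k).continuousAt.continuousWithinAt

theorem LE2_rho (C : Cov M) (a : C.ι) : Continuous (C.ρ a) :=
  continuous_iff_continuousAt.2 fun p =>
    Complex.continuous_re.continuousAt.comp (C.ρ_sm a p).continuousAt

theorem LE2_rho' (C : Cov M) (a : C.ι) :
    ContinuousOn (fun z => C.ρ a ((C.e a).symm z)) (closedBall 0 1) :=
  (C.LE2_rho a).comp_continuousOn ((C.e a).continuousOn_symm.mono (C.tgt a ▸ LE2_sub))

theorem LE2_int (h : C.HFr F 4) (i : C.I) {φ : Matrix (Fin 2) (Fin 2) ℂ → ℝ} (hφ : Continuous φ) :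
    IntegrableOn (fun z => C.ρ i.1 ((C.e i.1).symm z) * φ (P272.LM (C.wg F i) z))
      (closedBall 0 1) :=
  ((C.LE2_rho' i.1).mul (hφ.comp_continuousOn ((h.fro_cont i).mono LE2_sub))).integrableOn_compact
    (isCompact_closedBall 0 1)

theorem LE2_froc : Continuous fro := by
  unfold fro
  fun_prop

theorem LE2_en (F : C.I → M → ℂ) (k : ℤ) : C.en F k = ∑ a, ∫ z in closedBall (0 : C2) 1,
    C.ρ a ((C.e a).symm z) * fro (P272.LM (C.wg F (a, k)) z) :=
  Finset.sum_congr rfl fun a _ => integral_subtype_comap measurableSet_closedBall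
    fun z => C.ρ a ((C.e a).symm z) * fro (P272.LM (C.wg F (a, k)) z)

theorem energy (C : Cov M) {c : ℝ} (hc : 0 < c) : ∃ C₀ : ℝ, 0 < C₀ ∧ ∀ N : ℕ, 0 < N →
    ∀ F, C.HFr F 4 → (∀ i, ∀ z ∈ closedBall (0 : C2) 1,
      fro (P272.LM (C.wg F i) z) ≤ c * (1 / N - (P272.LM (C.wg F i) z).det.re)) →
    C.pr N (C.cv (C.chern F)) (C.cv (C.chern F)) = -1 →
    ∑ k ∈ Finset.range N, C.en F k ≤ C₀ := by
  obtain ⟨V, hV⟩ : ∃ V, V = ∑ a, ∫ z in closedBall (0 : C2) 1, C.ρ a ((C.e a).symm z) := ⟨_, rfl⟩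
  have V0 : 0 ≤ V := hV ▸ Finset.sum_nonneg fun _ _ => integral_nonneg fun _ => C.ρ_nonneg _ _
  refine ⟨c * (V + Real.pi ^ 2 / 2), by positivity, fun N hN F hF hb hp => ?_⟩
  obtain ⟨S, hS⟩ : ∃ S : ℤ → ℝ, ∀ k, S k = ∑ a, ∫ z in closedBall (0 : C2) 1,
      C.ρ a ((C.e a).symm z) * (P272.LM (C.wg F (a, k)) z).det.re := ⟨_, fun _ => rfl⟩
  have h1 : ∀ k, C.bb (C.cv (C.chern F) k) (C.cv (C.chern F) k) =
      ((2 / Real.pi ^ 2 * S k : ℝ) : ℂ) := fun k => by
    rw [hF.bb_chern, hS]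
    congr 2
    exact Finset.sum_congr rfl fun a _ => integral_subtype_comap measurableSet_closedBall
      fun z => C.ρ a ((C.e a).symm z) * (P272.LM (C.wg F (a, k)) z).det.re
  have h2 : ∑ k ∈ Finset.range N, S k = -(Real.pi ^ 2 / 2) := by
    simp only [pr, h1] at hp
    rw [← Complex.ofReal_sum, ← Finset.mul_sum] at hp
    have h3 : 2 / Real.pi ^ 2 * ∑ k ∈ Finset.range N, S k = -1 := by exact_mod_cast hp
    have := Real.pi_pos
    field_simp at h3
    linarith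
  have hd : Continuous fun A : Matrix (Fin 2) (Fin 2) ℂ => A.det.re :=
    Complex.continuous_re.comp (continuous_id.matrix_det)
  have h3 : ∀ k : ℤ, C.en F k ≤ c * (1 / N) * V - c * S k := fun k => by
    rw [LE2_en, hV, hS, Finset.mul_sum, Finset.mul_sum, ← Finset.sum_sub_distrib]
    refine Finset.sum_le_sum fun a _ => ?_
    have i1 := (C.LE2_rho' a).integrableOn_compact (μ := volume) (isCompact_closedBall 0 1)
    have i2 := LE2_int hF (a, k) hd
    rw [← integral_const_mul, ← integral_const_mul,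
      ← integral_sub (i1.const_mul _) (i2.const_mul _)]
    refine setIntegral_mono_on (LE2_int hF (a, k) LE2_froc) ((i1.const_mul _).sub (i2.const_mul _))
      measurableSet_closedBall fun z hz => ?_
    refine (mul_le_mul_of_nonneg_left (hb (a, k) z hz) (C.ρ_nonneg _ _)).trans (le_of_eq ?_)
    ring
  refine (Finset.sum_le_sum fun (k : ℕ) _ => h3 k).trans (le_of_eq ?_)
  have : (N : ℝ) ≠ 0 := Nat.cast_ne_zero.2 hN.ne'
  rw [Finset.sum_sub_distrib, ← Finset.mul_sum (Finset.range N) (fun k : ℕ => S k), h2,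
    Finset.sum_const, Finset.card_range, nsmul_eq_mul]
  field_simp
  ring

theorem LE2_tr (hF : C.HFr F 4) {i j : C.I} {p : M} (hi : p ∈ C.U i 4) (hj : p ∈ C.U j 4) :
    P272.LM (C.wg F i) (C.ch i p) = (P272.DM (C.ch j ∘ (C.ch i).symm) (C.ch i p)).conjTranspose *
      P272.LM (C.wg F j) (C.ch j p) * P272.DM (C.ch j ∘ (C.ch i).symm) (C.ch i p) := by
  have e0 : (C.ch i).symm (C.ch i p) = p := (C.ch i).left_inv hi.1
  have ha := ((C.isCh i).hol p hi.1 _).1 (hF.hol i j p ⟨hi, hj⟩)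
  have h0 : ((F i / F j) ∘ (C.ch i).symm) (C.ch i p) ≠ 0 := by
    simp only [Function.comp_apply, e0, Pi.div_apply]
    exact div_ne_zero (hF.ne i p hi) (hF.ne j p hj)
  have hT := (C.isCh i).tr (C.isCh j) hi.1 hj.1
  have e1 : (C.ch j ∘ (C.ch i).symm) (C.ch i p) = C.ch j p := by
    rw [Function.comp_apply, e0]
  have hw : ContDiffAt ℝ ∞ (C.wg F j) ((C.ch j ∘ (C.ch i).symm) (C.ch i p)) :=
    e1 ▸ hF.wg_sm le_rfl j _ (mem_ball_zero_iff.2 hj.2)
  have ht : Tendsto (C.ch i).symm (𝓝 (C.ch i p)) (𝓝 p) := (C.ch i).tendsto_symm hi.1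
  have e : C.wg F i =ᶠ[𝓝 (C.ch i p)]
      (fun w => Real.log (‖((F i / F j) ∘ (C.ch i).symm) w‖ ^ 2)) +
        C.wg F j ∘ (C.ch j ∘ (C.ch i).symm) := by
    filter_upwards [ht.eventually ((C.isOpen_U i 4).mem_nhds hi),
      ht.eventually ((C.isOpen_U j 4).mem_nhds hj)] with w h1 h2
    have n1 := norm_pos_iff.2 (hF.ne i _ h1)
    have n2 := norm_pos_iff.2 (hF.ne j _ h2)
    simp only [wg, Pi.add_apply, Function.comp_apply, Pi.div_apply, (C.ch j).left_inv h2.1]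
    rw [← Real.log_mul (by rw [norm_div]; positivity) (by positivity), norm_div]
    congr 1
    field_simp
  rw [P272.LM_congr e, P272.LM_add _ (hw.comp _ (hT.contDiffAt.restrict_scalars ℝ)),
    P272.LM_log_normSq ha h0, zero_add, P272.LM_comp_hol hw hT, e1]
  exact (((ha.contDiffAt (n := ∞)).restrict_scalars ℝ).norm_sq ℂ).log
    (pow_pos (norm_pos_iff.2 h0) 2).ne'

/-- The energy in a large polydisc is bounded by the energy of the nearby levels. -/
theorem energy_ch (C : Cov M) : ∃ (K : ℝ) (D : ℕ), 0 ≤ K ∧ ∀ F, C.HFr F 4 → ∀ (i : C.I) (A : ℝ),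
    0 ≤ A → ∑ l ∈ Finset.Icc (i.2 - D) (i.2 + D), C.en F l ≤ A ^ 2 →
    ∫⁻ z in ball (0 : C2) 3, ENNReal.ofReal (fro (P272.LM (C.wg F i) z)) ≤
      ENNReal.ofReal (K * A) ^ 2 := by
  obtain ⟨L₀, hL₀, ht⟩ := C.geo_tr
  obtain ⟨L, hL, hn⟩ := C.cv_n2
  obtain ⟨m, hm⟩ := C.card_nb
  obtain ⟨b, hb⟩ : ∃ b, b = √(((m : ℝ) + 1) * (16 * L₀ ^ 4)) := ⟨_, rfl⟩
  have b0 : 0 ≤ b := hb ▸ Real.sqrt_nonneg _
  refine ⟨b * L, ⌈2 * C.R⌉.toNat, by positivity, fun F hF i A hA h => ?_⟩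
  let V : C.I → Set M := fun j => (C.U i 3 ∩ C.U j 3) ∩ {p | 1 / ((m : ℝ) + 1) < C.rho j p}
  let f : C.I → M → ℝ := fun j p => √(C.rho j p * fro (P272.LM (C.wg F j) (C.ch j p)))
  have m0 : 0 < 1 / ((m : ℝ) + 1) := by positivity
  have Vo : ∀ j, IsOpen (V j) := fun j => ((C.isOpen_U i 3).inter (C.isOpen_U j 3)).inter
    (isOpen_lt continuous_const ((C.LE2_rho j.1).comp (C.g ^ j.2).continuous))
  have cov : ball (0 : C2) 3 ⊆ ⋃ j ∈ C.nb i, C.ch i '' V j := by
    rw [← C.img_U i (by norm_num : (3 : ℝ) ≤ 4)]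
    rintro _ ⟨p, hp, rfl⟩
    have h1 := C.rho_sum (F := C.nb i) fun l hl => C.mem_nb hp.1 hl
    obtain ⟨j, hj, hl⟩ : ∃ j ∈ C.nb i, 1 / ((m : ℝ) + 1) < C.rho j p := by
      by_contra hc
      push Not at hc
      have h2 := Finset.sum_le_card_nsmul _ _ _ hc
      rw [h1, hm, nsmul_eq_mul, mul_one_div, one_le_div (by positivity)] at h2
      linarith
    exact mem_biUnion hj ⟨p, ⟨⟨hp, C.rho_U (by norm_num) (m0.trans hl).ne'⟩, hl⟩, rfl⟩
  have key : ∀ j, n2 (C.ch i '' V j) (fun z => √(fro (P272.LM (C.wg F i) z))) ≤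
      ENNReal.ofReal (b * L) ^ 2 * ENNReal.ofReal (∫ z in closedBall (0 : C2) 1,
        C.ρ j.1 ((C.e j.1).symm z) * fro (P272.LM (C.wg F j) z)) := fun j => by
    have a1 : n2 (C.ch i '' V j) (fun z => √(fro (P272.LM (C.wg F i) z))) ≤
        ENNReal.ofReal b ^ 2 * n2 (C.ch i '' V j) (f j ∘ (C.ch i).symm) := by
      refine n2_le (C.isOpen_img i (Vo j) fun p hp => hp.1.1.1).measurableSet ?_
      rintro _ ⟨p, hp, rfl⟩
      simp only [f, Function.comp_apply, (C.ch i).left_inv hp.1.1.1,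
        Real.norm_of_nonneg (Real.sqrt_nonneg _)]
      rw [hb, ← Real.sqrt_mul (by positivity), LE2_tr hF (C.U_mono i (by norm_num) hp.1.1)
        (C.U_mono j (by norm_num) hp.1.2)]
      refine Real.sqrt_le_sqrt ((LE2_conj (L := L₀) fun a c => ?_).trans ?_)
      · refine (norm_le_pi_norm _ a).trans (((fderiv ℂ (C.ch j ∘ (C.ch i).symm)
          (C.ch i p)).le_opNorm _).trans ?_)
        rw [Pi.norm_single, norm_one, mul_one]
        exact ht i j p hp.1
      · have h1 : 1 ≤ ((m : ℝ) + 1) * C.rho j p := by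
          have := hp.2
          rw [mem_ofPred_eq, div_lt_iff₀' (by positivity)] at this
          exact this.le
        have h2 := mul_nonneg (by positivity : 0 ≤ 16 * L₀ ^ 4)
          (LE2_fro (P272.LM (C.wg F j) (C.ch j p)))
        nlinarith
    have a2 := hn i j (V j) (Vo j) inter_subset_left (f j)
    have a3 : n2 (C.ch j '' V j) (f j ∘ (C.ch j).symm) ≤ ENNReal.ofReal
        (∫ z in closedBall (0 : C2) 1, C.ρ j.1 ((C.e j.1).symm z) * fro (P272.LM (C.wg F j) z)) := by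
      rw [ofReal_integral_eq_lintegral_ofReal (LE2_int hF j LE2_froc)
        (.of_forall fun z => mul_nonneg (C.ρ_nonneg _ _) (LE2_fro _))]
      have hs : C.ch j '' V j ⊆ closedBall 0 1 := by
        rintro _ ⟨p, hp, rfl⟩
        exact mem_closedBall_zero_iff.2 (C.rho_supp (m0.trans hp.2).ne').2
      refine (n2_mono_set hs).trans (le_of_eq (setLIntegral_congr_fun measurableSet_closedBall
        fun z hz => ?_))
      have e1 := (C.symm_mem_U j le_rfl (mem_ball_zero_iff.1 (LE2_sub hz))).2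
      have e2 : C.rho j ((C.ch j).symm z) = C.ρ j.1 ((C.e j.1).symm z) := by
        rw [rho, ch_symm, ← gz_add, add_neg_cancel, zpow_zero]
        rfl
      simp only [f, Function.comp_apply, e1, e2]
      rw [n2_e, Real.norm_of_nonneg (Real.sqrt_nonneg _),
        Real.sq_sqrt (mul_nonneg (C.ρ_nonneg _ _) (LE2_fro _))]
    refine (a1.trans (mul_le_mul_right (a2.trans (mul_le_mul_right a3 _)) _)).trans (le_of_eq ?_)
    rw [← mul_assoc, ← mul_pow, ← ENNReal.ofReal_mul b0]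
  have e0 : ∫⁻ z in ball (0 : C2) 3, ENNReal.ofReal (fro (P272.LM (C.wg F i) z)) =
      n2 (ball 0 3) (fun z => √(fro (P272.LM (C.wg F i) z))) := by
    refine lintegral_congr fun z => ?_
    rw [n2_e, Real.norm_of_nonneg (Real.sqrt_nonneg _), Real.sq_sqrt (LE2_fro _)]
  rw [e0]
  refine (n2_cover _ _ cov).trans ((Finset.sum_le_sum fun j _ => key j).trans ?_)
  rw [← Finset.mul_sum, ← ENNReal.ofReal_sum_of_nonneg fun j _ =>
    integral_nonneg fun z => mul_nonneg (C.ρ_nonneg _ _) (LE2_fro _),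
    ENNReal.ofReal_mul (by positivity : 0 ≤ b * L), mul_pow, ← ENNReal.ofReal_pow hA]
  refine mul_le_mul_right (ENNReal.ofReal_le_ofReal (le_trans ?_ h)) _
  rw [nb, Finset.sum_product_right]
  refine le_trans (le_of_eq (Finset.sum_congr rfl fun l _ => (LE2_en F l).symm))
    (Finset.sum_le_sum_of_subset_of_nonneg (Finset.Icc_subset_Icc ?_ ?_)
      fun l _ _ => en_nonneg F l) <;> omega

end Cov

/-- Pigeonhole principle for a periodic sequence. -/
theorem stretch {e : ℤ → ℝ} {N W : ℕ} {C₀ ε : ℝ} (h0 : ∀ k, 0 ≤ e k)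
    (hs : ∑ k ∈ Finset.range N, e k ≤ C₀) (hε : 0 < ε) (hW : 0 < W)
    (hN : (C₀ / ε + 1) * W ≤ N) : ∃ k₀ : ℤ, ∑ l ∈ Finset.Ico k₀ (k₀ + W), e l ≤ ε := by
  by_contra hc
  push Not at hc
  have h1 : ∀ q : ℕ, q * ε ≤ ∑ k ∈ Finset.range (q * W), e k := fun q => by
    induction q with
    | zero => simp
    | succ q ih =>
      have := hc (q * W : ℕ)
      rw [Int.Ico_eq_finset_map, Finset.sum_map, add_sub_cancel_left, Int.toNat_natCast] at this
      rw [Nat.succ_mul, Finset.sum_range_add]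
      have e1 : ∑ x ∈ Finset.range W, e ((q * W + x : ℕ) : ℤ) = ∑ x ∈ Finset.range W,
          e ((Nat.castEmbedding.trans (addLeftEmbedding ((q * W : ℕ) : ℤ))) x) :=
        Finset.sum_congr rfl fun x _ => by rw [Nat.cast_add]; rfl
      rw [e1]
      push_cast
      push_cast at this
      linarith
  have h2 : ∑ k ∈ Finset.range (N / W * W), e k ≤ ∑ k ∈ Finset.range N, e k :=
    Finset.sum_le_sum_of_subset_of_nonneg (Finset.range_mono (Nat.div_mul_le_self N W))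
      fun _ _ _ => h0 _
  have h3 : (N : ℝ) < ((N / W : ℕ) + 1) * W := by
    have := Nat.lt_div_mul_add (a := N) hW
    have h4 : (N : ℝ) < (N / W * W + W : ℕ) := by exact_mod_cast this
    push_cast at h4
    linarith
  have h4 : (0 : ℝ) < W := Nat.cast_pos.2 hW
  have h5 : C₀ / ε < (N / W : ℕ) := by nlinarith
  rw [div_lt_iff₀ hε] at h5
  linarith [h1 (N / W)]

end Vale.Agent.P267
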