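import Vale.Agent.P267L.Defs
import Vale.Agent.P267S.Dol
import Vale.Agent.P267S.Cal
import Vale.Agent.P267S.N2

/-! P267, lifting part: holomorphic one-forms that are almost closed. -/

open scoped Manifold ContDiff Topology ENNReal
open Filter Metric Set MeasureTheory

noncomputable section

namespace Vale.Agent.P267

set_option linter.unusedSectionVars false

variable {M : Type} [TopologicalSpace M] [ChartedSpace C2 M] [T2Space M]

theorem LF1_zero {F τ : C2 → ℂ} {r r' : ℝ} (hr' : r < r') (hτ : Continuous τ)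
    (hi : ∀ (a : ℂ) (v : C2), ‖a‖ = 1 → τ (a • v) = τ v)
    (hF : DifferentiableOn ℂ F (ball 0 r')) :
    ∫ v in ball (0 : C2) r, F v * τ v = (∫ v in ball (0 : C2) r, τ v) * F 0 := by
  have hn : ∀ θ : ℝ, ‖circleMap 0 1 θ‖ = 1 := fun θ => by simp
  have hmem : ∀ (a : ℂ) (v : C2), ‖a‖ ≤ 1 → ‖v‖ ≤ r → a • v ∈ ball (0 : C2) r' := by
    intro a v ha hv
    rw [mem_ball_zero_iff, norm_smul]
    exact (mul_le_of_le_one_left (norm_nonneg _) ha).trans_lt (hv.trans_lt hr')
  have hc : ContinuousOn (fun p : ℝ × C2 => F (circleMap 0 1 p.1 • p.2) * τ p.2)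
      (Icc 0 (2 * Real.pi) ×ˢ closedBall 0 r) := by
    refine (hF.continuousOn.comp (Continuous.continuousOn ?_) fun p hp => ?_).mul
      (hτ.comp continuous_snd).continuousOn
    · exact ((continuous_circleMap 0 1).comp continuous_fst).smul continuous_snd
    · exact hmem _ _ (hn _).le (mem_closedBall_zero_iff.1 hp.2)
  have hI : Integrable (Function.uncurry fun (θ : ℝ) (v : C2) => F (circleMap 0 1 θ • v) * τ v)
      ((volume.restrict (uIoc 0 (2 * Real.pi))).prod (volume.restrict (ball 0 r))) := by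
    rw [Measure.prod_restrict, uIoc_of_le Real.two_pi_pos.le]
    exact (hc.integrableOn_compact (isCompact_Icc.prod (isCompact_closedBall _ _))).mono_set
      (prod_mono Ioc_subset_Icc_self ball_subset_closedBall)
  have h1 := intervalIntegral_integral_swap hI
  have h2 : ∀ v ∈ ball (0 : C2) r,
      ∫ θ in (0 : ℝ)..2 * Real.pi, F (circleMap 0 1 θ • v) * τ v =
        τ v * ((2 * Real.pi : ℝ) * F 0) := by
    intro v hv
    have hv' : ‖v‖ ≤ r := (mem_ball_zero_iff.1 hv).le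
    have hd : DifferentiableOn ℂ (fun t : ℂ => F (t • v)) (closedBall 0 1) :=
      hF.comp (by fun_prop) fun t ht => hmem _ _ (mem_closedBall_zero_iff.1 ht) hv'
    have h3 : Real.circleAverage (fun t : ℂ => F (t • v)) 0 1 = F ((0 : ℂ) • v) := by
      refine DiffContOnCl.circleAverage (f := fun t : ℂ => F (t • v)) ?_
      rw [abs_one]
      refine DifferentiableOn.diffContOnCl ?_
      rwa [closure_ball _ one_ne_zero]
    rw [Real.circleAverage_def, zero_smul, Complex.real_smul] at h3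
    rw [intervalIntegral.integral_mul_const, ← h3, ← mul_assoc (((2 * Real.pi : ℝ) : ℂ)),
      ← Complex.ofReal_mul, mul_inv_cancel₀ Real.two_pi_pos.ne', Complex.ofReal_one, one_mul,
      mul_comm]
  have h5 : ∀ θ : ℝ, ∫ v in ball (0 : C2) r, F (circleMap 0 1 θ • v) * τ v =
      ∫ v in ball (0 : C2) r, F v * τ v := fun θ => by
    rw [← P271A.mean_rot (fun v => F v * τ v) (hn θ) r]
    simp only [hi _ _ (hn θ)]
  rw [setIntegral_congr_fun measurableSet_ball h2, integral_mul_const] at h1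
  simp only [h5, intervalIntegral.integral_const, sub_zero, Complex.real_smul] at h1
  have h4 : ((2 * Real.pi : ℝ) : ℂ) ≠ 0 := Complex.ofReal_ne_zero.2 Real.two_pi_pos.ne'
  refine mul_left_cancel₀ h4 (h1.trans ?_)
  ring

theorem LF1_wt {ρ : ℝ} (hρ : 0 < ρ) : ∃ σ : C2 → ℝ, ContDiff ℝ ∞ σ ∧ (∀ v, 0 ≤ σ v) ∧ σ 0 ≠ 0 ∧
    (∀ v, v ∉ ball (0 : C2) (ρ / 2) → σ v = 0) ∧
    ∀ (a : ℂ) (v : C2), ‖a‖ = 1 → σ (a • v) = σ v := by
  let b : ContDiffBump (0 : ℝ) := ⟨ρ ^ 2 / 8, ρ ^ 2 / 4, by positivity, by nlinarith⟩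
  have hq : ∀ j : Fin 2, ContDiff ℝ ∞ fun v : C2 => ‖v j‖ ^ 2 := fun j =>
    (contDiff_norm_sq ℝ (E := ℂ)).comp (contDiff_apply ℝ ℂ j)
  refine ⟨fun v => b (‖v 0‖ ^ 2 + ‖v 1‖ ^ 2), b.contDiff.comp ((hq 0).add (hq 1)),
    fun v => b.nonneg, ?_, fun v hv => ?_, fun a v ha => ?_⟩
  · have h1 : b (0 : ℝ) = 1 := b.one_of_mem_closedBall (mem_closedBall_self b.rIn_pos.le)
    simp [h1]
  · refine b.zero_of_le_dist ?_
    rw [Real.dist_eq, sub_zero, abs_of_nonneg (by positivity)]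
    by_contra h
    refine hv (mem_ball_zero_iff.2 ((pi_norm_lt_iff (by linarith)).2 fun j => ?_))
    have h1 : ‖v 0‖ ^ 2 + ‖v 1‖ ^ 2 < ρ ^ 2 / 4 := not_le.1 h
    have h2 : ‖v j‖ ^ 2 < (ρ / 2) ^ 2 := by
      have h3 := sq_nonneg ‖v 0‖
      have h4 := sq_nonneg ‖v 1‖
      fin_cases j
      · show ‖v 0‖ ^ 2 < (ρ / 2) ^ 2
        linarith
      · show ‖v 1‖ ^ 2 < (ρ / 2) ^ 2
        linarith
    exact lt_of_pow_lt_pow_left₀ 2 (by linarith) h2
  · simp only [Pi.smul_apply, norm_smul, ha, one_mul]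

theorem LF1_cj (F : C2 → ℂ) (z v : C2) :
    dbar (fun w => (starRingEnd ℂ) (F w)) z v = (starRingEnd ℂ) (P271.dz v F z) := by
  have h : fderiv ℝ (fun w => (starRingEnd ℂ) (F w)) z =
      (Complex.conjCLE : ℂ →L[ℝ] ℂ).comp (fderiv ℝ F z) := Complex.conjCLE.comp_fderiv
  rw [ac_app, h, P271.dz]
  simp only [ContinuousLinearMap.comp_apply, ContinuousLinearEquiv.coe_coe,
    Complex.conjCLE_apply, map_div₀, map_sub, map_mul, Complex.conj_I, map_ofNat]
  ring

theorem LF1_hol {F : C2 → ℂ} {z : C2} (hF : DifferentiableAt ℂ F z) (v : C2) :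
    P271.dz v F z = fderiv ℂ F z v := by
  rw [P271.dz, (hF.hasFDerivAt.restrictScalars ℝ).fderiv]
  simp only [ContinuousLinearMap.coe_restrictScalars', map_smul, smul_eq_mul]
  linear_combination (-2⁻¹ * fderiv ℂ F z v) * Complex.I_mul_I

theorem LF1_smc {F : C2 → ℂ} {z : C2} (hF : ContDiffAt ℝ ∞ F z) :
    ContDiffAt ℝ ∞ (fun w => (starRingEnd ℂ) (F w)) z :=
  (Complex.conjCLE : ℂ →L[ℝ] ℂ).contDiff.contDiffAt.comp z hF

/-- The mean value property with a smooth weight. -/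
theorem mean_wt {ρ : ℝ} (hρ : 0 < ρ) : ∃ τ : C2 → ℂ, ContDiff ℝ ∞ τ ∧ HasCompactSupport τ ∧
    tsupport τ ⊆ ball 0 ρ ∧ ∀ (c : C2) (h : C2 → ℂ), DifferentiableOn ℂ h (ball c ρ) →
      ∫ z in ball c ρ, h z * τ (z - c) = h c := by
  obtain ⟨σ, s1, s2, s3, s4, s5⟩ := LF1_wt hρ
  have hc : HasCompactSupport σ := HasCompactSupport.intro (isCompact_closedBall 0 (ρ / 2))
    fun v hv => s4 v fun h => hv (ball_subset_closedBall h)
  have hp : 0 < ∫ v, σ v :=
    s1.continuous.integral_pos_of_hasCompactSupport_nonneg_nonzero hc s2 s3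
  have hI : ∫ v in ball (0 : C2) (ρ / 2), σ v = ∫ v, σ v :=
    setIntegral_eq_integral_of_forall_compl_eq_zero s4
  set I := ∫ v, σ v with hId
  have hI0 : (I : ℂ) ≠ 0 := Complex.ofReal_ne_zero.2 hp.ne'
  have t1 : ContDiff ℝ ∞ fun v => (σ v : ℂ) * (I : ℂ)⁻¹ :=
    (Complex.ofRealCLM.contDiff.comp s1).mul contDiff_const
  have t2 : ∀ v, v ∉ ball (0 : C2) (ρ / 2) → (σ v : ℂ) * (I : ℂ)⁻¹ = 0 := fun v hv => by
    rw [s4 v hv, Complex.ofReal_zero, zero_mul]
  refine ⟨fun v => (σ v : ℂ) * (I : ℂ)⁻¹, t1,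
    HasCompactSupport.intro (isCompact_closedBall 0 (ρ / 2))
      fun v hv => t2 v fun h => hv (ball_subset_closedBall h), ?_, fun c h hh => ?_⟩
  · refine (closure_minimal (fun v hv => ?_) (isClosed_closedBall (x := (0 : C2))
      (ε := ρ / 2))).trans (closedBall_subset_ball (by linarith))
    by_contra h
    exact hv (t2 v fun h' => h (ball_subset_closedBall h'))
  have h1 := (measurePreserving_add_left (volume : Measure C2) c).setIntegral_preimage_emb
    (measurableEmbedding_addLeft c) (fun z => h z * ((σ (z - c) : ℂ) * (I : ℂ)⁻¹)) (ball c ρ)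
  have h2 : (fun v : C2 => c + v) ⁻¹' ball c ρ = ball 0 ρ := by
    ext v
    simp [dist_eq_norm]
  have h3 : DifferentiableOn ℂ (fun v : C2 => h (c + v)) (ball 0 ρ) :=
    hh.comp (by fun_prop) fun v hv => by
      rw [← h2] at hv
      exact hv
  have h4 := LF1_zero (r := ρ / 2) (by linarith) t1.continuous
    (fun a v ha => by simp only [s5 a v ha]) h3
  rw [← h1, h2]
  simp only [add_sub_cancel_left]
  rw [setIntegral_eq_of_subset_of_forall_sdiff_eq_zero measurableSet_ball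
    (ball_subset_ball (show ρ / 2 ≤ ρ by linarith)) fun v hv => by rw [t2 v hv.2, mul_zero],
    h4, integral_mul_const, integral_complex_ofReal, hI, mul_inv_cancel₀ hI0, one_mul, add_zero]

/-- If the holomorphic functions `h j` are close to the derivatives of `ψ`, their curl is small. -/
theorem curl_small {ρ : ℝ} (hρ : 0 < ρ) : ∃ K : ℝ, 0 ≤ K ∧ ∀ (c : C2) (ψ : C2 → ℂ)
    (h : Fin 2 → C2 → ℂ) (A : ℝ), 0 ≤ A → (∀ z ∈ ball c ρ, ContDiffAt ℝ ∞ ψ z) →
    (∀ j, DifferentiableOn ℂ (h j) (ball c ρ)) →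
    (∀ j, n2 (ball c ρ) (fun z => P271.dz (ee j) ψ z - h j z) ≤ ENNReal.ofReal A ^ 2) →
    ‖fderiv ℂ (h 1) c (ee 0) - fderiv ℂ (h 0) c (ee 1)‖ ≤ K * A := by
  obtain ⟨τ, t1, t2, t3, t4⟩ := mean_wt hρ
  obtain ⟨K, hK, hn⟩ := n2_const ρ
  have hb : ∀ j : Fin 2, ∃ D : ℝ, 0 ≤ D ∧
      ∀ z, ‖dbar (fun w => (starRingEnd ℂ) (τ w)) z (ee j)‖ ≤ D := fun j => by
    have h1 : ContDiff ℝ ∞ fun w => (starRingEnd ℂ) (τ w) :=
      contDiff_iff_contDiffAt.2 fun z => LF1_smc t1.contDiffAt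
    have h2 : HasCompactSupport fun w => (starRingEnd ℂ) (τ w) := t2.comp_left (map_zero _)
    obtain ⟨D, hD⟩ := (contDiff_iff_contDiffAt.2 fun z => dbar_sm_apply (z := z) h1.contDiffAt
      (ee j)).continuous.bounded_above_of_compact_support (h2.mono' (cal_supp _ (ee j)))
    exact ⟨D, (norm_nonneg _).trans (hD 0), hD⟩
  choose D hD0 hD using hb
  refine ⟨K * D 0 + K * D 1, add_nonneg (mul_nonneg hK (hD0 0)) (mul_nonneg hK (hD0 1)),
    fun c ψ h A hA hψ hh hg => ?_⟩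
  have ha : ∀ j, ∀ z ∈ ball c ρ, AnalyticAt ℂ (h j) z := fun j =>
    P278F.analyticOnNhd_of_differentiableOn isOpen_ball (hh j)
  have hs : ∀ j, ∀ z ∈ ball c ρ, ContDiffAt ℝ ∞ (fun w => (starRingEnd ℂ) (h j w)) z :=
    fun j z hz => LF1_smc ((ha j z hz).contDiffAt.restrict_scalars ℝ)
  let T : C2 → ℂ := fun w => (starRingEnd ℂ) (τ (w - c))
  have T1 : ContDiff ℝ ∞ T := contDiff_iff_contDiffAt.2 fun z =>
    LF1_smc (t1.comp (contDiff_id.sub contDiff_const)).contDiffAt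
  have T3 : tsupport T ⊆ (fun w => w - c) ⁻¹' tsupport τ :=
    closure_minimal (fun w hw => subset_closure fun h0 => hw (by simp only [T, h0, map_zero]))
      ((isClosed_tsupport τ).preimage (continuous_id.sub continuous_const))
  have T4 : tsupport T ⊆ ball c ρ := fun w hw => by
    have h1 := t3 (T3 hw)
    rwa [mem_ball_zero_iff, ← dist_eq_norm] at h1
  have T2 : HasCompactSupport T :=
    (isCompact_closedBall c ρ).of_isClosed_subset (isClosed_tsupport T)
      (T4.trans ball_subset_closedBall)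
  have T5 : ∀ z v, dbar T z v = dbar (fun w => (starRingEnd ℂ) (τ w)) (z - c) v := fun z v => by
    have h1 : fderiv ℝ T z = fderiv ℝ (fun w => (starRingEnd ℂ) (τ w)) (z - c) :=
      fderiv_comp_sub (f := fun w => (starRingEnd ℂ) (τ w)) c
    rw [ac_app, ac_app, h1]
  let G : Fin 2 → C2 → ℂ := fun j =>
    (fun w => dbar (fun w => (starRingEnd ℂ) (ψ w)) w (ee j)) - fun w => (starRingEnd ℂ) (h j w)
  have G0 : ∀ j, ∀ z ∈ ball c ρ, ContDiffAt ℝ ∞
      (fun w => dbar (fun w => (starRingEnd ℂ) (ψ w)) w (ee j)) z := fun j z hz =>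
    dbar_sm_apply (LF1_smc (hψ z hz)) _
  have G1 : ∀ j, ∀ z ∈ ball c ρ, ContDiffAt ℝ ∞ (G j) z := fun j z hz =>
    (G0 j z hz).sub (hs j z hz)
  have G2 : ∀ j, n2 (ball c ρ) (G j) ≤ ENNReal.ofReal A ^ 2 := fun j => by
    refine le_trans (le_of_eq ?_) (hg j)
    refine lintegral_congr fun z => ?_
    simp only [G, Pi.sub_apply, LF1_cj, ← map_sub, ← ofReal_norm, RCLike.norm_conj]
  have G3 : ∀ j k, ‖∫ z in ball c ρ, G j z * dbar T z (ee k)‖ ≤ A * (K * D k) := fun j k =>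
    (n2_cs (ContinuousOn.aestronglyMeasurable
        (fun z hz => (G1 j z hz).continuousAt.continuousWithinAt) measurableSet_ball)
      (contDiff_iff_contDiffAt.2 fun z => dbar_sm_apply (z := z) T1.contDiffAt
        (ee k)).continuous.aestronglyMeasurable hA (mul_nonneg hK (hD0 k)) (G2 j)
      (hn c _ (D k) fun z _ => by rw [T5]; exact hD k _)).2
  have hw : DifferentiableOn ℂ (fun z => fderiv ℂ (h 1) z (ee 0) - fderiv ℂ (h 0) z (ee 1))
      (ball c ρ) := fun z hz =>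
    (((ha 1 z hz).fderiv.differentiableAt.clm_apply (differentiableAt_const _)).sub
      ((ha 0 z hz).fderiv.differentiableAt.clm_apply
        (differentiableAt_const _))).differentiableWithinAt
  have e1 : (starRingEnd ℂ) (fderiv ℂ (h 1) c (ee 0) - fderiv ℂ (h 0) c (ee 1)) =
      (∫ z in ball c ρ, G 1 z * dbar T z (ee 0)) - ∫ z in ball c ρ, G 0 z * dbar T z (ee 1) := by
    rw [← t4 c _ hw, ← integral_conj, ibp isOpen_ball (G1 1) T1 T2 T4,
      ibp isOpen_ball (G1 0) T1 T2 T4, neg_sub_neg,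
      ← integral_sub (cal_int isOpen_ball (fun z hz => dbar_sm_apply (G1 0 z hz) _) T1 T2 T4)
        (cal_int isOpen_ball (fun z hz => dbar_sm_apply (G1 1 z hz) _) T1 T2 T4)]
    refine setIntegral_congr_fun measurableSet_ball fun z hz => ?_
    have h1 : ∀ j v, dbar (G j) z v =
        dbar (fun w => dbar (fun w => (starRingEnd ℂ) (ψ w)) w (ee j)) z v -
          (starRingEnd ℂ) (fderiv ℂ (h j) z v) := fun j v => by
      rw [dbar_sub' ((G0 j z hz).differentiableAt (by simp))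
        ((hs j z hz).differentiableAt (by simp)), sub_apply, LF1_cj (h j),
        LF1_hol (ha j z hz).differentiableAt]
    simp only [h1, dbar_dbar (LF1_smc (hψ z hz)), map_mul, map_sub, T]
    ring
  rw [← RCLike.norm_conj, e1]
  refine (norm_sub_le _ _).trans ((add_le_add (G3 1 0) (G3 0 1)).trans (le_of_eq ?_))
  ring

end Vale.Agent.P267
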