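import Vale.Agent.P267L.LF1

/-! P267, lifting part: the holomorphic Poincare lemma with an error. -/

open scoped Manifold ContDiff Topology ENNReal
open Filter Metric Set MeasureTheory

noncomputable section

namespace Vale.Agent.P267

set_option linter.unusedSectionVars false

variable {M : Type} [TopologicalSpace M] [ChartedSpace C2 M] [T2Space M]

/-- The derivative of the integrand. -/
def LF2_D (h : Fin 2 → C2 → ℂ) (x : C2) (t : ℝ) : C2 →L[ℂ] ℂ :=
  ∑ j, (h j ((t : ℂ) • x) • ContinuousLinearMap.proj j +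
    x j • ((t : ℂ) • fderiv ℂ (h j) ((t : ℂ) • x)))

theorem LF2_mem {r : ℝ} {x : C2} (hx : x ∈ ball (0 : C2) r) {t : ℝ} (ht : t ∈ Icc (0 : ℝ) 1) :
    (t : ℂ) • x ∈ ball (0 : C2) r := by
  rw [mem_ball_zero_iff] at hx ⊢
  rw [norm_smul, Complex.norm_real, Real.norm_of_nonneg ht.1]
  exact (mul_le_of_le_one_left (norm_nonneg _) ht.2).trans_lt hx

theorem LF2_der {r : ℝ} {h : Fin 2 → C2 → ℂ} (hh : ∀ j, DifferentiableOn ℂ (h j) (ball 0 r))
    {x : C2} (hx : x ∈ ball (0 : C2) r) {t : ℝ} (ht : t ∈ Icc (0 : ℝ) 1) :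
    HasFDerivAt (fun x : C2 => ∑ j, h j ((t : ℂ) • x) * x j) (LF2_D h x t) x := by
  refine HasFDerivAt.fun_sum fun j _ => ?_
  have a := ((hh j).differentiableAt (isOpen_ball.mem_nhds (LF2_mem hx ht))).hasFDerivAt.comp x
    ((hasFDerivAt_id x).const_smul (t : ℂ))
  have e : (fderiv ℂ (h j) ((t : ℂ) • x)).comp ((t : ℂ) • ContinuousLinearMap.id ℂ C2) =
      (t : ℂ) • fderiv ℂ (h j) ((t : ℂ) • x) := by
    rw [ContinuousLinearMap.comp_smul, ContinuousLinearMap.comp_id]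
  rw [e] at a
  exact a.mul (hasFDerivAt_apply j x)

theorem LF2_cont {r : ℝ} {h : Fin 2 → C2 → ℂ} (hh : ∀ j, DifferentiableOn ℂ (h j) (ball 0 r)) :
    (∀ j, ContinuousOn (fun p : C2 × ℝ => h j ((p.2 : ℂ) • p.1)) (ball 0 r ×ˢ Icc 0 1)) ∧
    (∀ j, ContinuousOn (fun p : C2 × ℝ => fderiv ℂ (h j) ((p.2 : ℂ) • p.1))
      (ball 0 r ×ˢ Icc 0 1)) ∧
    ContinuousOn (fun p : C2 × ℝ => LF2_D h p.1 p.2) (ball 0 r ×ˢ Icc 0 1) := by
  have c0 : Continuous fun p : C2 × ℝ => (p.2 : ℂ) • p.1 := by fun_prop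
  have m : MapsTo (fun p : C2 × ℝ => (p.2 : ℂ) • p.1) (ball 0 r ×ˢ Icc 0 1) (ball 0 r) :=
    fun p hp => LF2_mem hp.1 hp.2
  have c1 := fun j => (hh j).continuousOn.comp c0.continuousOn m
  have c2 := fun j => (P278F.analyticOnNhd_of_differentiableOn isOpen_ball
    (hh j)).fderiv.continuousOn.comp c0.continuousOn m
  have c3 : ∀ j, Continuous fun p : C2 × ℝ => p.1 j := fun j => by fun_prop
  have c4 : Continuous fun p : C2 × ℝ => (p.2 : ℂ) := by fun_prop
  exact ⟨c1, c2, continuousOn_finsetSum _ fun j _ => ((c1 j).smul continuousOn_const).add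
    ((c3 j).continuousOn.smul (c4.continuousOn.smul (c2 j)))⟩

theorem LF2_sl {E : Type} [TopologicalSpace E] {r : ℝ} {f : C2 × ℝ → E}
    (hf : ContinuousOn f (ball 0 r ×ˢ Icc 0 1)) {x : C2} (hx : x ∈ ball (0 : C2) r) :
    ContinuousOn (fun t => f (x, t)) (uIcc 0 1) := by
  rw [uIcc_of_le zero_le_one]
  exact hf.comp (by fun_prop) fun t ht => ⟨hx, ht⟩

theorem LF2_H {r : ℝ} {h : Fin 2 → C2 → ℂ} (hh : ∀ j, DifferentiableOn ℂ (h j) (ball 0 r))
    {z : C2} (hz : z ∈ ball (0 : C2) r) :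
    HasFDerivAt (fun x : C2 => ∫ t in (0 : ℝ)..1, ∑ j, h j ((t : ℂ) • x) * x j)
      (∫ t in (0 : ℝ)..1, LF2_D h z t) z := by
  obtain ⟨c1, -, c3⟩ := LF2_cont hh
  obtain ⟨ε, e0, he⟩ := nhds_basis_closedBall.mem_iff.1 (isOpen_ball.mem_nhds hz)
  obtain ⟨B, hB⟩ := ((isCompact_closedBall z ε).prod isCompact_Icc).exists_bound_of_continuousOn
    (c3.mono (prod_mono he subset_rfl))
  have sub : uIoc (0 : ℝ) 1 ⊆ Icc 0 1 := by
    rw [uIoc_of_le zero_le_one]
    exact Ioc_subset_Icc_self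
  have c4 : ∀ x ∈ ball (0 : C2) r,
      ContinuousOn (fun t : ℝ => ∑ j, h j ((t : ℂ) • x) * x j) (uIcc 0 1) := fun x hx =>
    continuousOn_finsetSum _ fun j _ => (LF2_sl (c1 j) hx).mul continuousOn_const
  refine intervalIntegral.hasFDerivAt_integral_of_dominated_of_fderiv_le (bound := fun _ => B)
    (F' := LF2_D h) (closedBall_mem_nhds z e0) ?_ (c4 z hz).intervalIntegrable
    (((LF2_sl c3 hz).mono uIoc_subset_uIcc).aestronglyMeasurable measurableSet_uIoc)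
    (.of_forall fun t ht x hx => hB (x, t) ⟨hx, sub ht⟩) intervalIntegrable_const
    (.of_forall fun t ht x hx => LF2_der hh (he hx) (sub ht))
  filter_upwards [isOpen_ball.mem_nhds hz] with x hx
  exact ((c4 x hx).mono uIoc_subset_uIcc).aestronglyMeasurable measurableSet_uIoc

theorem LF2_ftc {r : ℝ} {h : Fin 2 → C2 → ℂ} (hh : ∀ j, DifferentiableOn ℂ (h j) (ball 0 r))
    {z : C2} (hz : z ∈ ball (0 : C2) r) (j : Fin 2) :
    ∫ t in (0 : ℝ)..1, (h j ((t : ℂ) • z) + t * fderiv ℂ (h j) ((t : ℂ) • z) z) = h j z := by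
  obtain ⟨c1, c2, -⟩ := LF2_cont hh
  rw [intervalIntegral.integral_eq_sub_of_hasDerivAt (f := fun t : ℝ => t * h j ((t : ℂ) • z))]
  · simp
  · intro t ht
    rw [uIcc_of_le zero_le_one] at ht
    have a := ((hh j).differentiableAt
      (isOpen_ball.mem_nhds (LF2_mem hz ht))).hasFDerivAt.comp_hasDerivAt (t : ℂ)
      ((hasDerivAt_id (t : ℂ)).smul_const z)
    have b := ((hasDerivAt_id (t : ℂ)).mul a).comp_ofReal
    simpa only [id, one_mul, one_smul, Function.comp, Pi.mul_apply] using b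
  · exact ((LF2_sl (c1 j) hz).add (ContinuousOn.mul (by fun_prop)
      ((LF2_sl (c2 j) hz).clm_apply continuousOn_const))).intervalIntegrable

theorem hol_prim {r : ℝ} (hr : 0 < r) {h : Fin 2 → C2 → ℂ}
    (hh : ∀ j, DifferentiableOn ℂ (h j) (ball 0 r)) {D : ℝ}
    (hD : ∀ z ∈ ball (0 : C2) r, ‖fderiv ℂ (h 1) z (ee 0) - fderiv ℂ (h 0) z (ee 1)‖ ≤ D) :
    ∃ H : C2 → ℂ, DifferentiableOn ℂ H (ball 0 r) ∧
      ∀ j, ∀ z ∈ ball (0 : C2) r, ‖fderiv ℂ H z (ee j) - h j z‖ ≤ r * D := by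
  obtain ⟨c1, c2, c3⟩ := LF2_cont hh
  refine ⟨_, fun z hz => (LF2_H hh hz).differentiableAt.differentiableWithinAt, fun j z hz => ?_⟩
  have i1 : IntervalIntegrable (fun t => LF2_D h z t) volume 0 1 :=
    (LF2_sl c3 hz).intervalIntegrable
  have i2 : IntervalIntegrable (fun t => LF2_D h z t (ee j)) volume 0 1 :=
    ((LF2_sl c3 hz).clm_apply continuousOn_const).intervalIntegrable
  have i3 : IntervalIntegrable
      (fun t : ℝ => h j ((t : ℂ) • z) + t * fderiv ℂ (h j) ((t : ℂ) • z) z) volume 0 1 :=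
    ((LF2_sl (c1 j) hz).add (ContinuousOn.mul (by fun_prop)
      ((LF2_sl (c2 j) hz).clm_apply continuousOn_const))).intervalIntegrable
  rw [(LF2_H hh hz).fderiv, ContinuousLinearMap.intervalIntegral_apply i1, ← LF2_ftc hh hz j,
    ← intervalIntegral.integral_sub i2 i3]
  refine (intervalIntegral.norm_integral_le_of_norm_le_const (C := r * D) fun t ht => ?_).trans
    (by simp)
  rw [uIoc_of_le zero_le_one] at ht
  have hm := hD _ (LF2_mem hz (Ioc_subset_Icc_self ht))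
  have ez : ∀ L : C2 →L[ℂ] ℂ, L z = z 0 * L (ee 0) + z 1 * L (ee 1) := fun L => by
    rw [← smul_eq_mul, ← smul_eq_mul, ← map_smul, ← map_smul, ← map_add]
    congr 1
    ext i
    fin_cases i <;> simp
  have nz : ∀ i, ‖(t : ℂ) * z i‖ ≤ r := fun i => by
    rw [norm_mul, Complex.norm_real, Real.norm_of_nonneg ht.1.le]
    exact (mul_le_of_le_one_left (norm_nonneg _) ht.2).trans
      ((norm_le_pi_norm z i).trans (mem_ball_zero_iff.1 hz).le)
  have key : ∀ (i : Fin 2) (w e : ℂ), ‖e‖ = 1 → w = e * ((t : ℂ) * z i *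
      (fderiv ℂ (h 1) ((t : ℂ) • z) (ee 0) - fderiv ℂ (h 0) ((t : ℂ) • z) (ee 1))) →
      ‖w‖ ≤ r * D := fun i w e he hw => by
    rw [hw, norm_mul, he, one_mul, norm_mul]
    exact mul_le_mul (nz i) hm (norm_nonneg _) hr.le
  rw [ez (fderiv ℂ (h j) _)]
  fin_cases j
  · refine key 1 _ 1 norm_one ?_
    simp [LF2_D, Fin.sum_univ_two]
    ring
  · refine key 0 _ (-1) (by simp) ?_
    simp [LF2_D, Fin.sum_univ_two]
    ring

end Vale.Agent.P267
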