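import Vale.Agent.P267L.LF2
import Vale.Agent.P272.Loc

/-! P267, lifting part: approximation by pluriharmonic functions. -/

open scoped Manifold ContDiff Topology ENNReal
open Filter Metric Set MeasureTheory

noncomputable section

namespace Vale.Agent.P267

set_option linter.unusedSectionVars false

variable {M : Type} [TopologicalSpace M] [ChartedSpace C2 M] [T2Space M]

theorem LF3_fd (F : C2 → ℂ) (z v : C2) :
    fderiv ℝ (fun w => (starRingEnd ℂ) (F w)) z v = (starRingEnd ℂ) (fderiv ℝ F z v) := by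
  have := Complex.conjCLE.comp_fderiv (f := F) (x := z)
  exact congrArg (fun A : C2 →L[ℝ] ℂ => A v) this

theorem LF3_dbar (F : C2 → ℂ) (z v : C2) :
    dbar (fun w => (starRingEnd ℂ) (F w)) z v = (starRingEnd ℂ) (P271.dz v F z) := by
  have e : dbar (fun w => (starRingEnd ℂ) (F w)) z v =
      2⁻¹ * (fderiv ℝ (fun w => (starRingEnd ℂ) (F w)) z v +
        Complex.I * fderiv ℝ (fun w => (starRingEnd ℂ) (F w)) z (Complex.I • v)) := rfl
  rw [e, LF3_fd, LF3_fd, P271.dz, map_div₀, map_sub, map_mul, Complex.conj_I, map_ofNat]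
  ring

theorem LF3_dz (ψ : C2 → ℝ) (v : C2) : P271.dz v (fun w => (ψ w : ℂ)) =
    fun z => (starRingEnd ℂ) (P271.dzb v (fun w => (ψ w : ℂ)) z) := by
  funext z
  have e : ∀ u, (starRingEnd ℂ) (fderiv ℝ (fun w => (ψ w : ℂ)) z u) =
      fderiv ℝ (fun w => (ψ w : ℂ)) z u := fun u => by
    rw [← LF3_fd]
    simp only [Complex.conj_ofReal]
  rw [P271.dz, P271.dzb, map_div₀, map_add, map_mul, Complex.conj_I, map_ofNat, e, e]
  ring

theorem LF3_lev (ψ : C2 → ℝ) (j : Fin 2) (z : C2) :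
    ‖dbar (P271.dz (ee j) fun w => (ψ w : ℂ)) z‖ ≤ 2 * ‖√(fro (P272.LM ψ z))‖ := by
  have e : ∀ k, ‖dbar (P271.dz (ee j) fun w => (ψ w : ℂ)) z (ee k)‖ ≤ √(fro (P272.LM ψ z)) := by
    intro k
    rw [LF3_dz, LF3_dbar, Complex.norm_conj]
    refine Real.le_sqrt_of_sq_le ?_
    exact (Finset.single_le_sum (f := fun k => ‖P272.LM ψ z j k‖ ^ 2) (fun _ _ => by positivity)
      (Finset.mem_univ k)).trans (Finset.single_le_sum
        (f := fun j => ∑ k, ‖P272.LM ψ z j k‖ ^ 2) (fun _ _ => by positivity) (Finset.mem_univ j))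
  rw [Real.norm_of_nonneg (Real.sqrt_nonneg _)]
  linarith [(anti_dbar (P271.dz (ee j) fun w => (ψ w : ℂ)) z).norm_le, e 0, e 1]

theorem LF3_sm {F : C2 → ℂ} {z : C2} (h : ContDiffAt ℝ ∞ F z) (v : C2) :
    ContDiffAt ℝ ∞ (P271.dz v F) z := by
  have h1 : ContDiffAt ℝ ∞ (fderiv ℝ F) z := h.fderiv_right (by simp)
  exact ((h1.clm_apply contDiffAt_const).sub
    (contDiffAt_const.mul (h1.clm_apply contDiffAt_const))).div_const _

theorem LF3_sub {F H : C2 → ℂ} {z : C2} (h : DifferentiableAt ℝ F z)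
    (hH : DifferentiableAt ℂ H z) (v : C2) :
    P271.dz v (F - H) z = P271.dz v F z - fderiv ℂ H z v := by
  simp only [P271.dz, fderiv_sub h (hH.restrictScalars ℝ), hH.fderiv_restrictScalars ℝ,
    sub_apply, ContinuousLinearMap.coe_restrictScalars', map_smul, smul_eq_mul]
  linear_combination (fderiv ℂ H z v / 2) * Complex.I_mul_I

theorem LF3_mul {x y : ℝ≥0∞} {K B : ℝ} (hK : 0 ≤ K) (h1 : x ≤ ENNReal.ofReal K ^ 2 * y)
    (h2 : y ≤ ENNReal.ofReal B ^ 2) : x ≤ ENNReal.ofReal (K * B) ^ 2 := by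
  rw [ENNReal.ofReal_mul hK, mul_pow]
  exact h1.trans (mul_le_mul_right h2 _)

theorem ddc : ∃ K : ℝ, 0 ≤ K ∧ ∀ (ψ : C2 → ℝ) (A : ℝ), 0 ≤ A →
    (∀ z ∈ ball (0 : C2) 3, ContDiffAt ℝ ∞ ψ z) →
    ∫⁻ z in ball (0 : C2) 3, ENNReal.ofReal (fro (P272.LM ψ z)) ≤ ENNReal.ofReal A ^ 2 →
    ∃ H : C2 → ℂ, AnalyticOnNhd ℂ H (ball 0 (5 / 2)) ∧
      n2 (ball 0 (5 / 2)) (fun z => ψ z - 2 * (H z).re) ≤ ENNReal.ofReal (K * A) ^ 2 := by
  obtain ⟨K1, p1, h1⟩ := dol_hol (r := 3) (r' := 29 / 10) (by norm_num) (by norm_num)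
  obtain ⟨K2, p2, h2⟩ := curl_small (ρ := 1 / 10) (by norm_num)
  obtain ⟨K3, p3, h3⟩ := n2_const (28 / 10)
  obtain ⟨K4, p4, h4⟩ := dol_hol (r := 28 / 10) (r' := 5 / 2) (by norm_num) (by norm_num)
  refine ⟨K4 * (2 * (2 * (2 * (K1 * 2 + K3 * (28 / 10 * (K2 * (K1 * 2))))))), by positivity,
    fun ψ A A0 hψ hA => ?_⟩
  set Ψ : C2 → ℂ := fun w => (ψ w : ℂ) with hΨ
  have sΨ : ∀ z ∈ ball (0 : C2) 3, ContDiffAt ℝ ∞ Ψ z := fun z hz =>
    Complex.ofRealCLM.contDiff.contDiffAt.comp z (hψ z hz)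
  have q0 : n2 (ball 0 3) (fun z => √(fro (P272.LM ψ z))) ≤ ENNReal.ofReal A ^ 2 := by
    refine le_trans (le_of_eq (lintegral_congr fun z => ?_)) hA
    rw [n2_e, Real.norm_of_nonneg (Real.sqrt_nonneg _), Real.sq_sqrt]
    exact Finset.sum_nonneg fun _ _ => Finset.sum_nonneg fun _ _ => by positivity
  choose h hh hb using fun j : Fin 2 => h1 0 (P271.dz (ee j) Ψ) fun z hz => LF3_sm (sΨ z hz) _
  have q1 : ∀ j, n2 (ball 0 (29 / 10)) (fun z => P271.dz (ee j) Ψ z - h j z) ≤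
      ENNReal.ofReal (K1 * (2 * A)) ^ 2 := fun j =>
    LF3_mul p1 (hb j).2 (LF3_mul (by norm_num)
      (n2_le measurableSet_ball fun z _ => LF3_lev ψ j z) q0)
  have s1 : ball (0 : C2) (28 / 10) ⊆ ball 0 (29 / 10) := ball_subset_ball (by norm_num)
  have s2 : ball (0 : C2) (29 / 10) ⊆ ball 0 3 := ball_subset_ball (by norm_num)
  have s3 : ball (0 : C2) (5 / 2) ⊆ ball 0 (28 / 10) := ball_subset_ball (by norm_num)
  obtain ⟨H, hH, bH⟩ := hol_prim (r := 28 / 10) (by norm_num) (fun j => (hh j).mono s1)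
    (D := K2 * (K1 * (2 * A))) fun c hc => by
      have s : ball c (1 / 10) ⊆ ball 0 (29 / 10) :=
        ball_subset_ball' (by linarith [mem_ball.1 hc])
      exact h2 c Ψ h _ (by positivity) (fun z hz => sΨ z (s2 (s hz))) (fun j => (hh j).mono s)
        fun j => (n2_mono_set s).trans (q1 j)
  have aH := P278F.analyticOnNhd_of_differentiableOn isOpen_ball hH
  have sH : ∀ z ∈ ball (0 : C2) (28 / 10), ContDiffAt ℝ ∞ (Ψ - H) z := fun z hz =>
    (sΨ z (s2 (s1 hz))).sub ((aH z hz).contDiffAt.restrict_scalars ℝ)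
  obtain ⟨G, hG, -, nG⟩ := h4 0 (fun w => (starRingEnd ℂ) ((Ψ - H) w)) fun z hz =>
    Complex.conjCLE.contDiff.contDiffAt.comp z (sH z hz)
  have q2 : ∀ j, n2 (ball 0 (28 / 10)) (P271.dz (ee j) (Ψ - H)) ≤ ENNReal.ofReal
      (2 * (K1 * (2 * A) + K3 * (28 / 10 * (K2 * (K1 * (2 * A)))))) ^ 2 := fun j => by
    have c1 : ContinuousOn (fun z => P271.dz (ee j) Ψ z - h j z) (ball 0 (28 / 10)) :=
      ContinuousOn.sub (fun z hz => (LF3_sm (sΨ z (s2 (s1 hz))) _).continuousAt.continuousWithinAt)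
        ((hh j).continuousOn.mono s1)
    refine (n2_le_add (h := fun z => fderiv ℂ H z (ee j) - h j z) measurableSet_ball
      (c1.aestronglyMeasurable measurableSet_ball) fun z hz => ?_).trans
      (sq_add_le (by positivity) (by positivity) ((n2_mono_set s1).trans (q1 j))
        (h3 0 _ _ (bH j)))
    rw [LF3_sub ((sΨ z (s2 (s1 hz))).differentiableAt (by simp)) (aH z hz).differentiableAt,
      ← sub_sub_sub_cancel_right _ _ (h j z)]
    exact norm_sub_le _ _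
  have c2 : ContinuousOn (P271.dz (ee 0) (Ψ - H)) (ball 0 (28 / 10)) := fun z hz =>
    (LF3_sm (sH z hz) _).continuousAt.continuousWithinAt
  have q3 := (n2_le_add (f := dbar fun w => (starRingEnd ℂ) ((Ψ - H) w))
    (h := P271.dz (ee 1) (Ψ - H)) measurableSet_ball
    (c2.aestronglyMeasurable measurableSet_ball) fun z _ => by
      have := (anti_dbar (fun w => (starRingEnd ℂ) ((Ψ - H) w)) z).norm_le
      rwa [LF3_dbar, LF3_dbar, Complex.norm_conj, Complex.norm_conj] at this).trans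
    (sq_add_le (by positivity) (by positivity) (q2 0) (q2 1))
  refine ⟨fun z => (H z + G z) / 2, fun z hz => ((aH z (s3 hz)).add
    (P278F.analyticOnNhd_of_differentiableOn isOpen_ball hG z hz)).div analyticAt_const
      two_ne_zero, ?_⟩
  have q4 := LF3_mul p4 nG q3
  refine le_trans (LF3_mul zero_le_one (n2_le measurableSet_ball fun z _ => ?_) q4)
    (le_of_eq (by congr 2; ring))
  refine le_trans (le_of_eq ?_) ((Complex.abs_re_le_norm _).trans (one_mul _).ge)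
  rw [Real.norm_eq_abs]
  congr 1
  simp [hΨ]
  ring

end Vale.Agent.P267
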