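import Vale.Agent.P267L.LA
import Vale.Agent.P267S.N2

/-! P267, lifting part: estimates for holomorphic functions without zeros. -/

open scoped Manifold ContDiff Topology ENNReal
open Filter Metric Set MeasureTheory

noncomputable section

namespace Vale.Agent.P267

set_option linter.unusedSectionVars false

variable {M : Type} [TopologicalSpace M] [ChartedSpace C2 M] [T2Space M]

theorem LG_dlog {h f : C2 → ℂ} {z₀ : C2} (hh : DifferentiableAt ℂ h z₀) (hf : ContinuousAt f z₀)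
    (he : ∀ᶠ z in 𝓝 z₀, Complex.exp (f z) = h z) : DifferentiableAt ℂ f z₀ := by
  have h0 : Complex.exp (f z₀) = h z₀ := he.self_of_nhds
  have hne : h z₀ ≠ 0 := h0 ▸ Complex.exp_ne_zero _
  have h1 : DifferentiableAt ℂ (fun z => f z₀ + Complex.log (h z * (h z₀)⁻¹)) z₀ := by
    refine (differentiableAt_const _).add (DifferentiableAt.clog (hh.mul_const _) ?_)
    rw [mul_inv_cancel₀ hne]
    exact Complex.one_mem_slitPlane
  refine h1.congr_of_eventuallyEq ?_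
  have h2 : ∀ᶠ z in 𝓝 z₀, dist (f z) (f z₀) < Real.pi :=
    Metric.tendsto_nhds.1 hf _ Real.pi_pos
  filter_upwards [he, h2] with z a b
  rw [dist_eq_norm] at b
  have c := abs_lt.1 ((Complex.abs_im_le_norm _).trans_lt b)
  rw [← a, ← h0, ← div_eq_mul_inv, ← Complex.exp_sub, Complex.log_exp c.1 c.2.le]
  ring

theorem LG_log {c : C2} {ρ : ℝ} (hρ : 0 < ρ) {h : C2 → ℂ} (hh : DifferentiableOn ℂ h (ball c ρ))
    (h0 : ∀ z ∈ ball c ρ, h z ≠ 0) :
    ∃ f : C2 → ℂ, DifferentiableOn ℂ f (ball c ρ) ∧ ∀ z ∈ ball c ρ, Real.log ‖h z‖ = (f z).re := by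
  have hcon : ContractibleSpace (ball c ρ) :=
    (convex_ball c ρ).contractibleSpace (nonempty_ball.2 hρ)
  have hsc : IsSimplyConnected (ball c ρ) := (inferInstance : SimplyConnectedSpace (ball c ρ))
  obtain ⟨f, hf, he⟩ := Complex.exists_continuousOn_eqOn_exp_comp hsc isOpen_ball (g := h)
    hh.continuousOn (by
      rintro ⟨z, hz, hz0⟩
      exact h0 z hz hz0)
  refine ⟨f, fun z hz => (LG_dlog (hh.differentiableAt (isOpen_ball.mem_nhds hz))
    (hf.continuousAt (isOpen_ball.mem_nhds hz))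
    (mem_of_superset (isOpen_ball.mem_nhds hz) fun w hw => he hw)).differentiableWithinAt,
    fun z hz => ?_⟩
  rw [← he hz, Function.comp_apply, Complex.norm_exp, Real.log_exp]

/-- The mean value property for the logarithm of the modulus. -/
theorem log_mean {ρ : ℝ} (hρ : 0 < ρ) : ∃ K : ℝ, 0 ≤ K ∧ ∀ (c : C2) (h : C2 → ℂ) (A : ℝ),
    0 ≤ A → DifferentiableOn ℂ h (ball c ρ) → (∀ z ∈ ball c ρ, h z ≠ 0) →
    n2 (ball c ρ) (fun z => Real.log ‖h z‖) ≤ ENNReal.ofReal A ^ 2 →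
    |Real.log ‖h c‖| ≤ K * A := by
  have hV : 0 < volume.real (ball (0 : C2) (ρ / 2)) :=
    ENNReal.toReal_pos (measure_ball_pos _ _ (half_pos hρ)).ne' measure_ball_lt_top.ne
  obtain ⟨K, hK, hK'⟩ := n2_const (ρ / 2)
  refine ⟨(volume.real (ball (0 : C2) (ρ / 2)))⁻¹ * K, by positivity,
    fun c h A hA hh h0 h1 => ?_⟩
  obtain ⟨f, hf, he⟩ := LG_log hρ hh h0
  have hs : ball c (ρ / 2) ⊆ ball c ρ := ball_subset_ball (half_le_self hρ.le)
  have hfc : ContinuousOn f (ball c (ρ / 2)) := hf.continuousOn.mono hs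
  have hi : IntegrableOn f (ball c (ρ / 2)) :=
    ((hf.continuousOn.mono (closedBall_subset_ball (half_lt_self hρ))).integrableOn_compact
      (isCompact_closedBall _ _)).mono_set ball_subset_closedBall
  have h2 : n2 (ball c (ρ / 2)) (fun z => (((f z).re : ℝ) : ℂ)) ≤ ENNReal.ofReal A ^ 2 := by
    refine le_trans ?_ ((n2_mono_set hs).trans h1)
    refine (n2_le (c := 1) (g := fun z => Real.log ‖h z‖) measurableSet_ball
      fun z hz => ?_).trans (by simp)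
    rw [he z (hs hz), one_mul, Complex.norm_real]
  have h3 := (n2_cs (g := fun _ => (1 : ℂ)) ((Complex.continuous_ofReal.comp_continuousOn
    (Complex.continuous_re.comp_continuousOn hfc)).aestronglyMeasurable measurableSet_ball)
    aestronglyMeasurable_const hA (by positivity) h2
    (hK' c (fun _ => (1 : ℂ)) 1 fun _ _ => by simp)).2
  have h4 := congrArg Complex.re (P271A.mean_value (half_pos hρ) (half_lt_self hρ) hf)
  have h5 : ∫ z in ball c (ρ / 2), (f z).re = (∫ z in ball c (ρ / 2), f z).re := integral_re hi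
  simp only [Function.comp_apply, mul_one, integral_complex_ofReal,
    Complex.norm_real, Real.norm_eq_abs] at h3
  rw [Complex.re_ofReal_mul, ← h5] at h4
  rw [h4, abs_mul, abs_of_pos hV] at h3
  rw [he c (mem_ball_self hρ), mul_assoc, le_inv_mul_iff₀ hV, mul_comm K]
  exact h3

/-- A holomorphic function of almost constant modulus has a small derivative. -/
theorem dlog_small {ρ κ : ℝ} (hρ : 0 < ρ) (hκ : 0 < κ) : ∃ ε : ℝ, 0 < ε ∧ ∀ (c : C2)
    (h : C2 → ℂ), DifferentiableOn ℂ h (ball c ρ) →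
    (∀ z ∈ ball c ρ, h z ≠ 0 ∧ |Real.log ‖h z‖| ≤ ε) → ‖(h c)⁻¹ • fderiv ℝ h c‖ ≤ κ := by
  obtain ⟨n, hn⟩ := exists_nat_ge (2 * Real.exp 1 / ρ * Real.exp 1 / κ)
  have hn1 : (0 : ℝ) < (n + 1 : ℕ) := by positivity
  refine ⟨((n + 1 : ℕ) : ℝ)⁻¹, inv_pos.2 hn1, fun c h hh h0 => ?_⟩
  have hb : ∀ z ∈ ball c ρ, ‖h z ^ (n + 1)‖ ≤ Real.exp 1 ∧ Real.exp (-1) ≤ ‖h z ^ (n + 1)‖ := by
    intro z hz
    have h1 := abs_le.1 (h0 z hz).2
    have h2 : ‖h z ^ (n + 1)‖ = Real.exp ((n + 1 : ℕ) * Real.log ‖h z‖) := by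
      rw [Real.exp_nat_mul, Real.exp_log (norm_pos_iff.2 (h0 z hz).1), norm_pow]
    have h3 := mul_inv_cancel₀ hn1.ne'
    rw [h2, Real.exp_le_exp, Real.exp_le_exp]
    constructor
    · nlinarith [mul_le_mul_of_nonneg_left h1.2 hn1.le]
    · nlinarith [mul_le_mul_of_nonneg_left h1.1 hn1.le]
  have hc := mem_ball_self (x := c) hρ
  have hd : DifferentiableAt ℂ h c := hh.differentiableAt (isOpen_ball.mem_nhds hc)
  have h1 := P278F.norm_fderiv_le (f := fun x => h x ^ (n + 1)) hρ (hh.pow (n + 1))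
    fun z hz => (hb z hz).1
  have h2 : fderiv ℂ (fun x => h x ^ (n + 1)) c =
      (((n + 1 : ℕ) : ℂ) * h c ^ (n + 1)) • (h c)⁻¹ • fderiv ℂ h c := by
    rw [(hd.hasFDerivAt.pow (n + 1)).fderiv, smul_smul]
    congr 1
    have := (h0 c hc).1
    simp only [Nat.add_sub_cancel, nsmul_eq_mul]
    field_simp
    rw [pow_succ]
  have h3 : ‖(h c)⁻¹ • fderiv ℝ h c‖ = ‖(h c)⁻¹ • fderiv ℂ h c‖ := by
    rw [norm_smul, norm_smul, hd.fderiv_restrictScalars ℝ,
      ContinuousLinearMap.norm_restrictScalars]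
  rw [h2, norm_smul, norm_mul, Complex.norm_natCast] at h1
  rw [h3]
  generalize ‖(h c)⁻¹ • fderiv ℂ h c‖ = x at h1
  have h4 := (hb c hc).2
  have h5 : Real.exp 1 * Real.exp (-1) = 1 := by rw [← Real.exp_add]; simp
  have he := Real.exp_pos 1
  by_contra hx
  rw [not_le] at hx
  rw [div_le_iff₀ hκ] at hn
  have h6 : 1 ≤ Real.exp 1 * ‖h c ^ (n + 1)‖ :=
    h5.ge.trans (mul_le_mul_of_nonneg_left h4 he.le)
  have h7 := mul_le_mul_of_nonneg_right h1 he.le
  have h8 : ((n + 1 : ℕ) : ℝ) * x * 1 ≤ (n + 1 : ℕ) * x * (Real.exp 1 * ‖h c ^ (n + 1)‖) :=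
    mul_le_mul_of_nonneg_left h6 (mul_nonneg hn1.le (hκ.trans hx).le)
  have h9 : (n : ℝ) * κ ≤ n * x := mul_le_mul_of_nonneg_left hx.le n.cast_nonneg
  push_cast at h7 h8
  nlinarith

namespace Cov
variable (C : Cov M)

theorem LG_ball {i j : C.I} {r ρ : ℝ} {p : M} {Q : M → Prop}
    (hb : ball (C.ch i p) ρ ⊆ C.ch i '' (C.U i r ∩ C.U j r)) (h : ∀ q ∈ C.U i r ∩ C.U j r, Q q) :
    ∀ z ∈ ball (C.ch i p) ρ, Q ((C.ch i).symm z) := fun _ hz =>
  h _ (C.mem_img (fun _ hq => hq.1.1) (hb hz)).1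

theorem LG_hol {i j : C.I} {r ρ : ℝ} {p : M} {h : M → ℂ}
    (hb : ball (C.ch i p) ρ ⊆ C.ch i '' (C.U i r ∩ C.U j r))
    (hh : ∀ q ∈ C.U i r ∩ C.U j r, HolAt h q) :
    DifferentiableOn ℂ (h ∘ (C.ch i).symm) (ball (C.ch i p) ρ) := fun z hz => by
  obtain ⟨h1, h2⟩ := C.mem_img (fun _ hq => hq.1.1) (hb hz)
  have := ((C.isCh i).hol _ h1.1.1 h).1 (hh _ h1)
  rw [h2] at this
  exact this.differentiableAt.differentiableWithinAt

theorem dl_small {κ : ℝ} (hκ : 0 < κ) : ∃ ε : ℝ, 0 < ε ∧ ∀ (i j : C.I) (h : M → ℂ),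
    (∀ p ∈ C.U i 2 ∩ C.U j 2, HolAt h p ∧ h p ≠ 0 ∧ |Real.log ‖h p‖| ≤ ε) →
    ∀ p ∈ C.U i (3 / 2) ∩ C.U j (3 / 2), ‖C.dl h p‖ ≤ κ := by
  obtain ⟨L, hL, hL'⟩ := C.cmp_norm
  obtain ⟨ρ, hρ, hb⟩ := C.geo_ball (s := 3 / 2) (s' := 2) (u := 3 / 2) (u' := 2) (by norm_num)
    (by norm_num) (by norm_num) (by norm_num)
  obtain ⟨ε, hε, hε'⟩ := dlog_small hρ (div_pos hκ hL)
  refine ⟨ε, hε, fun i j h hh p hp => ?_⟩
  have hp2 : p ∈ C.U i 2 ∩ C.U j 2 :=
    ⟨C.U_mono i (by norm_num) hp.1, C.U_mono j (by norm_num) hp.2⟩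
  have h1 := hε' _ _ (C.LG_hol (hb i j p hp) fun q hq => (hh q hq).1)
    (C.LG_ball (Q := fun q => h q ≠ 0 ∧ |Real.log ‖h q‖| ≤ ε) (hb i j p hp)
      fun q hq => (hh q hq).2)
  refine (hL' i (C.dl h) p (C.U_mono i (by norm_num) hp.1)).2.trans ?_
  have h2 : C.cmp (C.ch i) (C.dl h) (C.ch i p) =
      (h ((C.ch i).symm (C.ch i p)))⁻¹ • C.cmp (C.ch i) (C.d h) (C.ch i p) :=
    C.cmp_smul (β := C.d h) _ (fun q => (h q)⁻¹) _
  rw [h2, C.cmp_d (C.isCh i) hp.1.1 (hh p hp2).1.smAt, ← le_div_iff₀' hL]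
  exact h1

theorem d_cauchy {r r' : ℝ} (h1 : r' < r) (h2 : r ≤ 3) : ∃ L : ℝ, 0 ≤ L ∧
    ∀ (i j : C.I) (h : M → ℂ) (η : ℝ), (∀ p ∈ C.U i r ∩ C.U j r, HolAt h p ∧ ‖h p‖ ≤ η) →
    ∀ p ∈ C.U i r' ∩ C.U j r', ‖C.d h p‖ ≤ L * η := by
  obtain ⟨L, hL, hL'⟩ := C.cmp_norm
  obtain ⟨ρ, hρ, hb⟩ := C.geo_ball h1 (by linarith) h1 (by linarith)
  refine ⟨L * (2 / ρ), by positivity, fun i j h η hh p hp => ?_⟩
  have hp2 : p ∈ C.U i r ∩ C.U j r := ⟨C.U_mono i h1.le hp.1, C.U_mono j h1.le hp.2⟩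
  have hd := C.LG_hol (hb i j p hp) fun q hq => (hh q hq).1
  have h3 := P278F.norm_fderiv_le hρ hd
    (C.LG_ball (Q := fun q => ‖h q‖ ≤ η) (hb i j p hp) fun q hq => (hh q hq).2)
  refine (hL' i (C.d h) p (C.U_mono i h2 hp2.1)).2.trans ?_
  rw [C.cmp_d (C.isCh i) hp.1.1 (hh p hp2).1.smAt,
    (hd.differentiableAt (ball_mem_nhds _ hρ)).fderiv_restrictScalars ℝ,
    ContinuousLinearMap.norm_restrictScalars, mul_assoc]
  refine mul_le_mul_of_nonneg_left (h3.trans_eq ?_) hL.le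
  ring

theorem LG_chi : ContDiff ℝ ∞ chi :=
  Complex.ofRealCLM.contDiff.comp (Real.smoothTransition.contDiff.comp
    (contDiff_const.sub (contDiff_const.mul contDiff_id)))

theorem LG_dchi : ∃ B : ℝ, 0 ≤ B ∧ ∀ s, ‖fderiv ℝ chi s‖ ≤ B := by
  obtain ⟨B, hB⟩ := (isCompact_Icc (a := (0 : ℝ)) (b := 1)).exists_bound_of_continuousOn
    (LG_chi.continuous_fderiv (by simp)).continuousOn
  have h0 : 0 ≤ B := (norm_nonneg _).trans (hB 0 ⟨le_rfl, zero_le_one⟩)
  refine ⟨B, h0, fun s => ?_⟩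
  rcases lt_or_ge s 0 with hs | hs
  · have : chi =ᶠ[𝓝 s] fun _ => 1 := by
      filter_upwards [Iio_mem_nhds hs] with x (hx : x < 0)
      rw [chi, Real.smoothTransition.one_of_one_le (by linarith), Complex.ofReal_one]
    rw [this.fderiv_eq]
    simpa using h0
  rcases lt_or_ge 1 s with hs' | hs'
  · have : chi =ᶠ[𝓝 s] fun _ => 0 := by
      filter_upwards [Ioi_mem_nhds hs'] with x (hx : 1 < x)
      rw [chi, Real.smoothTransition.zero_of_nonpos (by linarith), Complex.ofReal_zero]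
    rw [this.fderiv_eq]
    simpa using h0
  · exact hB s ⟨hs, hs'⟩

theorem d_chi : ∃ L : ℝ, 0 ≤ L ∧ ∀ (k : ℤ) (p : M),
    SmAt (fun q => chi (C.t q + k)) p ∧ ‖chi (C.t p + k)‖ ≤ 1 ∧
      ‖C.d (fun q => chi (C.t q + k)) p‖ ≤ L := by
  obtain ⟨B, hB0, hB⟩ := LG_dchi
  have hsm : ∀ a : C.ι, ContDiffOn ℝ ∞ (fun z => C.t ((C.ch (a, 0)).symm z)) (ball 0 4) :=
    fun a z hz => (Complex.reCLM.contDiff.contDiffAt.comp z
      (C.sm_ball (i := (a, 0)) le_rfl (fun p _ => C.t_sm p) z hz)).contDiffWithinAt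
  choose D hD using fun a : C.ι => (isCompact_closedBall (0 : C2) 1).exists_bound_of_continuousOn
    (((hsm a).continuousOn_fderiv_of_isOpen isOpen_ball (by simp)).mono
      (closedBall_subset_ball (by norm_num)))
  refine ⟨B * ∑ a, |D a|, by positivity, fun k p => ⟨?_, ?_, ?_⟩⟩
  · exact SmAt.comp_real (φ := fun s => Real.smoothTransition (2 - 3 * (s + k))) (C.t_sm p)
      (.of_forall fun x => (Real.smoothTransition.contDiff.comp (contDiff_const.sub
        (contDiff_const.mul (contDiff_id.add contDiff_const)))).contDiffAt)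
  · rw [chi, Complex.norm_real, Real.norm_of_nonneg (Real.smoothTransition.nonneg _)]
    exact Real.smoothTransition.le_one _
  · have hz : ‖C.ch (C.idx p) p‖ < 1 := (C.mem_U_idx p).2
    have e : (fun q => chi (C.t q + k)) ∘ (C.ch (C.idx p)).symm =
        chi ∘ fun z => C.t ((C.ch ((C.idx p).1, 0)).symm z) + ((-(C.idx p).2 : ℤ) + k) := by
      funext z
      simp only [Function.comp_apply, C.ch_symm, C.t_gz, neg_zero, Int.cast_zero, add_zero,
        add_assoc]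
    have hd : DifferentiableAt ℝ (fun z => C.t ((C.ch ((C.idx p).1, 0)).symm z))
        (C.ch (C.idx p) p) :=
      ((hsm _).contDiffAt (isOpen_ball.mem_nhds
        (mem_ball_zero_iff.2 (by linarith)))).differentiableAt (by simp)
    rw [d, e, fderiv_comp _ (LG_chi.differentiable (by simp) _) (hd.add_const _), fderiv_add_const]
    refine (ContinuousLinearMap.opNorm_comp_le _ _).trans (mul_le_mul (hB _) ?_ (norm_nonneg _) hB0)
    exact ((hD _ _ (mem_closedBall_zero_iff.2 hz.le)).trans (le_abs_self _)).trans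
      (Finset.single_le_sum (f := fun a => |D a|) (fun _ _ => abs_nonneg _) (Finset.mem_univ _))

end Cov

end Vale.Agent.P267
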