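import Vale.Agent.P267L.LE2
import Vale.Agent.P267L.LF3
import Vale.Agent.P267L.LG
import Vale.Agent.P267S.CV

/-! P267, lifting part: almost unitary frames. -/

open scoped Manifold ContDiff Topology ENNReal
open Filter Metric Set MeasureTheory

noncomputable section

namespace Vale.Agent.P267

set_option linter.unusedSectionVars false

variable {M : Type} [TopologicalSpace M] [ChartedSpace C2 M] [T2Space M]

theorem LH_sm {C : Cov M} {F : C.I → M → ℂ} (h : C.HFr F 4) (i : C.I) {z : C2} (hz : ‖z‖ < 4) :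
    ContDiffAt ℝ ∞ (C.wg F i) z := by
  obtain ⟨h1, h2⟩ := C.symm_mem_U i le_rfl hz
  have h3 := (((C.isCh i).sm _ h1.1 _).1 (h.met i _ h1)).self_of_nhds
  rw [h2] at h3
  exact ((Complex.reCLM.contDiff.contDiffAt.comp z h3).pow 2).log
    (pow_ne_zero 2 (norm_ne_zero_iff.2 (h.ne i _ h1)))

theorem LH_sum {e : ℤ → ℝ} {N : ℤ} (h : ∀ k, e (k - N) = e k) (k D : ℤ) :
    ∑ l ∈ Finset.Icc (k - N - D) (k - N + D), e l = ∑ l ∈ Finset.Icc (k - D) (k + D), e l := by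
  rw [show k - D = k - N - D + N by ring, show k + D = k - N + D + N by ring,
    ← Finset.map_add_right_Icc, Finset.sum_map]
  exact Finset.sum_congr rfl fun l _ => by rw [← h (addRightEmbedding N l)]; simp

theorem LH_log {x y a b : ℂ} (hx : x ≠ 0) (hy : y ≠ 0) :
    ‖Real.log ‖x * Complex.exp (-a) / (y * Complex.exp (-b))‖‖ ≤
      ‖Real.log (‖x‖ ^ 2) - 2 * a.re‖ + ‖Real.log (‖y‖ ^ 2) - 2 * b.re‖ := by
  have h1 := norm_ne_zero_iff.2 hx
  have h2 := norm_ne_zero_iff.2 hy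
  rw [norm_div, norm_mul, norm_mul, Complex.norm_exp, Complex.norm_exp,
    Real.log_div (mul_ne_zero h1 (Real.exp_ne_zero _)) (mul_ne_zero h2 (Real.exp_ne_zero _)),
    Real.log_mul h1 (Real.exp_ne_zero _), Real.log_mul h2 (Real.exp_ne_zero _), Real.log_exp,
    Real.log_exp, Real.log_pow, Real.log_pow, Complex.neg_re, Complex.neg_re]
  simp only [Real.norm_eq_abs, Nat.cast_ofNat, abs_le]
  constructor <;> linarith [le_abs_self (2 * Real.log ‖x‖ - 2 * a.re),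
    neg_abs_le (2 * Real.log ‖x‖ - 2 * a.re), le_abs_self (2 * Real.log ‖y‖ - 2 * b.re),
    neg_abs_le (2 * Real.log ‖y‖ - 2 * b.re)]

theorem Cov.normalL (C : Cov M) : ∃ (K : ℝ) (D : ℕ), 0 ≤ K ∧ ∀ N : ℕ, 0 < N → ∀ F, C.HFr F 4 →
    C.Pd N F → ∃ F', C.HFr F' (5 / 2) ∧ C.Pd N F' ∧
      (∀ i, ∀ p ∈ C.U i (5 / 2), HolAt (F' i / F i) p) ∧
      ∀ (a b : ℤ) (A : ℝ), 0 ≤ A → ∑ l ∈ Finset.Icc (a - D) (b + D), C.en F l ≤ A ^ 2 →
        C.Uni F' (9 / 4) a b (K * A) := by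
  obtain ⟨K₁, k1, dd⟩ := ddc
  obtain ⟨K₂, D, k2, ec⟩ := C.energy_ch
  obtain ⟨ρ, hρ, gb⟩ := C.geo_ball (s := 9 / 4) (s' := 5 / 2) (u := 9 / 4) (u' := 5 / 2)
    (by norm_num) (by norm_num) (by norm_num) (by norm_num)
  obtain ⟨K₃, k3, lm⟩ := log_mean hρ
  obtain ⟨L, hL, cv⟩ := C.cv_n2
  choose! Hc h1 h2 using dd
  refine ⟨K₃ * (2 * (K₁ * K₂ + L * (K₁ * K₂))), D, by positivity, fun N _ F hF hP => ?_⟩
  obtain ⟨S, hS⟩ : ∃ S : ℤ → ℝ, S = fun k : ℤ => ∑ l ∈ Finset.Icc (k - D) (k + D), C.en F l :=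
    ⟨_, rfl⟩
  obtain ⟨H, hH⟩ : ∃ H : C.I → C2 → ℂ, H = fun i => Hc (C.wg F i) (K₂ * √(S i.2)) := ⟨_, rfl⟩
  have S0 : ∀ k, 0 ≤ S k := fun k => hS ▸ Finset.sum_nonneg fun l _ => Cov.en_nonneg F l
  have sm : ∀ i, ∀ z ∈ ball (0 : C2) 3, ContDiffAt ℝ ∞ (C.wg F i) z := fun i z hz =>
    LH_sm hF i ((mem_ball_zero_iff.1 hz).trans (by norm_num))
  have en := fun i : C.I => ec F hF i (√(S i.2)) (Real.sqrt_nonneg _)
    (by rw [Real.sq_sqrt (S0 _), hS])
  have a1 : ∀ i, AnalyticOnNhd ℂ (H i) (ball 0 (5 / 2)) := fun i =>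
    hH ▸ h1 _ _ (by positivity) (sm i) (en i)
  have a2 : ∀ i, n2 (ball 0 (5 / 2)) (fun z => C.wg F i z - 2 * (H i z).re) ≤
      ENNReal.ofReal (K₁ * (K₂ * √(S i.2))) ^ 2 := fun i =>
    hH ▸ h2 _ _ (by positivity) (sm i) (en i)
  obtain ⟨e, he⟩ : ∃ e : C.I → M → ℂ, e = fun i p => Complex.exp (-H i (C.ch i p)) := ⟨_, rfl⟩
  have e0 : ∀ i p, e i p ≠ 0 := fun i p => he ▸ Complex.exp_ne_zero _
  have e1 : ∀ i, ∀ p ∈ C.U i (5 / 2), HolAt (e i) p := fun i p hp =>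
    he ▸ ((C.isCh i).hol_fun hp.1 (a1 i _ (mem_ball_zero_iff.2 hp.2)).neg).exp
  have mo : ∀ i, C.U i (5 / 2) ⊆ C.U i 4 := fun i => C.U_mono i (by norm_num)
  have mo' : ∀ i, C.U i (9 / 4) ⊆ C.U i (5 / 2) := fun i => C.U_mono i (by norm_num)
  have fr : C.HFr (F * e) (5 / 2) := ⟨fun i p hp => mul_ne_zero (hF.ne i p (mo i hp)) (e0 i p),
    fun i j p hp => ((hF.hol i j p ⟨mo i hp.1, mo j hp.2⟩).mul ((e1 i p hp.1).div (e1 j p hp.2)
      (e0 j p))).congr (Eventually.of_forall fun q => (mul_div_mul_comm _ _ _ _).symm),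
    fun i p hp => ((hF.met i p (mo i hp)).mul ((e1 i p hp).smAt.norm (e0 i p))).congr
      (Eventually.of_forall fun q => by simp only [Pi.mul_apply, norm_mul, Complex.ofReal_mul])⟩
  refine ⟨F * e, fr, ?_, fun i p hp => (e1 i p hp).congr ?_, fun a b A hA hs i j hi hj p hp =>
    ⟨fr.ne i p (mo' i hp.1), fr.hol i j p ⟨mo' i hp.1, mo' j hp.2⟩, ?_⟩⟩
  · funext i p
    have f : ∀ q, F (i.1, i.2 - N) ((C.g ^ (N : ℤ)) q) = F i q := fun q => congrFun (congrFun hP i) q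
    have w : C.wg F (i.1, i.2 - N) = C.wg F i := funext fun z => by
      simp only [Cov.wg, C.ch_symm_shift, f]
    have s : S (i.2 - N) = S i.2 := hS ▸ LH_sum hP.en i.2 D
    simp only [Cov.shf, Pi.mul_apply, f, he, hH, w, s, C.ch_shift]
  · filter_upwards [(C.isOpen_U i 4).mem_nhds (mo i hp)] with q hq
    simp only [Pi.div_apply, Pi.mul_apply, mul_div_cancel_left₀ _ (hF.ne i q hq)]
  have W : IsOpen (C.U i (5 / 2) ∩ C.U j (5 / 2)) := (C.isOpen_U _ _).inter (C.isOpen_U _ _)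
  have bA : ∀ l : C.I, l.2 ∈ Icc a b → n2 (ball 0 (5 / 2)) (fun z => C.wg F l z - 2 * (H l z).re) ≤
      ENNReal.ofReal (K₁ * K₂ * A) ^ 2 := fun l hl => by
    have : √(S l.2) ≤ A := Real.sqrt_le_iff.2 ⟨hA, le_trans (hS ▸
      Finset.sum_le_sum_of_subset_of_nonneg (Finset.Icc_subset_Icc (by linarith [hl.1])
        (by linarith [hl.2])) fun k _ _ => Cov.en_nonneg F k) hs⟩
    refine (a2 l).trans ?_
    rw [mul_assoc]
    gcongr
  have mi := fun z (hz : z ∈ ball (C.ch i p) ρ) =>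
    C.mem_img (fun q hq => hq.1.1) (gb i j p hp hz)
  have sb : ball (C.ch i p) ρ ⊆ ball 0 (5 / 2) := fun z hz =>
    mem_ball_zero_iff.2 ((mi z hz).2 ▸ (mi z hz).1.1.2)
  have b2 : n2 (ball (C.ch i p) ρ) ((fun q => Real.log (‖F j q‖ ^ 2) - 2 * (H j (C.ch j q)).re) ∘
      (C.ch i).symm) ≤ ENNReal.ofReal (L * (K₁ * K₂ * A)) ^ 2 := by
    refine (n2_mono_set (gb i j p hp)).trans ((cv i j _ W (inter_subset_inter
      (C.U_mono i (by norm_num)) (C.U_mono j (by norm_num))) _).trans ?_)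
    rw [ENNReal.ofReal_mul hL.le, mul_pow]
    refine mul_le_mul_right (le_trans ?_ (bA j hj)) _
    rw [← C.img_U j (by norm_num)]
    refine (n2_mono_set (image_mono inter_subset_right)).trans (le_of_eq (n2_congr
      (C.isOpen_img j (C.isOpen_U _ _) fun q hq => hq.1).measurableSet fun z hz => ?_))
    simp only [Function.comp_apply, Cov.wg, (C.mem_img (fun q hq => hq.1) hz).2]
  have := lm (C.ch i p) (((F * e) i / (F * e) j) ∘ (C.ch i).symm) (2 * (K₁ * K₂ * A +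
    L * (K₁ * K₂ * A))) (by positivity) (fun z hz => by
      have := ((C.isCh i).hol _ (mi z hz).1.1.1 _).1 (fr.hol i j _ (mi z hz).1)
      rw [(mi z hz).2] at this
      exact this.differentiableAt.differentiableWithinAt)
    (fun z hz => div_ne_zero (fr.ne i _ (mi z hz).1.1) (fr.ne j _ (mi z hz).1.2))
    ((n2_le_add (g := fun z => C.wg F i z - 2 * (H i z).re) measurableSet_ball
      (ContinuousOn.aestronglyMeasurable (fun z hz => ((sm i z (ball_subset_ball (by norm_num)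
        (sb hz))).continuousAt.sub (continuousAt_const.mul (Complex.continuous_re.continuousAt.comp
          (a1 i z (sb hz)).continuousAt))).continuousWithinAt) measurableSet_ball) fun z hz => by
      have := LH_log (a := H i z) (b := H j (C.ch j ((C.ch i).symm z)))
        (hF.ne i _ (mo i (mi z hz).1.1)) (hF.ne j _ (mo j (mi z hz).1.2))
      simpa only [Function.comp_apply, Pi.div_apply, Pi.mul_apply, he, (mi z hz).2, Cov.wg]
        using this).trans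
      (sq_add_le (by positivity) (by positivity) ((n2_mono_set sb).trans (bA i hi)) b2))
  rw [Function.comp_apply, (C.ch i).left_inv hp.1.1] at this
  exact this.trans (le_of_eq (by ring))

end Vale.Agent.P267
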