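import Vale.Agent.P267L.LG

/-! P267, lifting part: two close positions. -/

open scoped Manifold ContDiff Topology ENNReal
open Filter Metric Set MeasureTheory

noncomputable section

namespace Vale.Agent.P267

set_option linter.unusedSectionVars false

variable {M : Type} [TopologicalSpace M] [ChartedSpace C2 M] [T2Space M]

/-- A finite code for bounded holomorphic functions. -/
theorem LI_code (K : Set C2) (hK : K ⊆ ball 0 2) {ρ η : ℝ} (hρ : 0 < ρ) (hη : 0 < η) :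
    ∃ (S : Type) (_ : Finite S) (code : (C2 → ℂ) → S), ∀ f f' : C2 → ℂ,
      (∀ z ∈ K, DifferentiableOn ℂ f (ball z ρ) ∧ ∀ y ∈ ball z ρ, ‖f y‖ ≤ 2) →
      (∀ z ∈ K, DifferentiableOn ℂ f' (ball z ρ) ∧ ∀ y ∈ ball z ρ, ‖f' y‖ ≤ 2) →
      code f = code f' → ∀ z ∈ K, ‖f z - f' z‖ ≤ η := by
  obtain ⟨t, t1, t2, t3⟩ := finite_approx_of_totallyBounded
    ((isCompact_closedBall (0 : C2) 2).totallyBounded.subset (hK.trans ball_subset_closedBall))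
    (min ρ (ρ * η / 16)) (by positivity)
  obtain ⟨u, -, u2, u3⟩ := finite_approx_of_totallyBounded
    (isCompact_closedBall (0 : ℂ) 2).totallyBounded (η / 4) (by positivity)
  have hc : ∀ x : ℂ, ∃ c : Option u, ‖x‖ ≤ 2 → ∃ y : u, c = some y ∧ ‖x - y‖ < η / 4 := fun x => by
    by_cases h : ‖x‖ ≤ 2
    · obtain ⟨y, hy, h'⟩ := mem_iUnion₂.1 (u3 (mem_closedBall_zero_iff.2 h))
      exact ⟨some ⟨y, hy⟩, fun _ => ⟨_, rfl, mem_ball_iff_norm.1 h'⟩⟩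
    · exact ⟨none, fun h' => absurd h' h⟩
  choose c hc using hc
  have := t2.to_subtype
  have := u2.to_subtype
  refine ⟨t → Option u, inferInstance, fun f y => c (f y), fun f f' hf hf' h z hz => ?_⟩
  obtain ⟨y, hy, hzy⟩ := mem_iUnion₂.1 (t3 hz)
  have h1 : z ∈ ball y ρ := ball_subset_ball (min_le_left _ _) hzy
  have h2 : 2 * 2 / ρ * ‖z - y‖ ≤ η / 4 := by
    have h3 := (mem_ball_iff_norm.1 hzy).trans_le (min_le_right _ _)
    rw [div_mul_eq_mul_div, div_le_iff₀ hρ]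
    linarith
  have a1 := (P278F.norm_sub_le_of_bound (hf y (t1 hy)).1 (hf y (t1 hy)).2 h1).trans h2
  have a2 := (P278F.norm_sub_le_of_bound (hf' y (t1 hy)).1 (hf' y (t1 hy)).2 h1).trans h2
  obtain ⟨v, v1, v2⟩ := hc _ ((hf y (t1 hy)).2 y (mem_ball_self hρ))
  obtain ⟨v', v1', v2'⟩ := hc _ ((hf' y (t1 hy)).2 y (mem_ball_self hρ))
  have e : c (f y) = c (f' y) := congrFun h ⟨y, hy⟩
  obtain rfl : v = v' := Option.some_injective _ (v1.symm.trans (e.trans v1'))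
  calc ‖f z - f' z‖ = ‖(f z - f y) + (f y - v) - (f' y - v) - (f' z - f' y)‖ := by
        congr 1; ring
    _ ≤ ‖f z - f y‖ + ‖f y - v‖ + ‖f' y - v‖ + ‖f' z - f' y‖ :=
        (norm_sub_le _ _).trans (add_le_add ((norm_sub_le _ _).trans
          (add_le_add (norm_add_le _ _) le_rfl)) le_rfl)
    _ ≤ η := by linarith

/-- The transition function at the level shifted by `m`, in a chart. -/
def LI_G (C : Cov M) (F : C.I → M → ℂ) (m : ℤ) (i j : C.I) : C2 → ℂ :=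
  (F (i.1, i.2 - m) / F (j.1, j.2 - m)) ∘ (C.ch (i.1, i.2 - m)).symm

theorem LI_bd (C : Cov M) {F : C.I → M → ℂ} {a b m : ℤ} (hF : C.Uni F (9 / 4) a b (1 / 2))
    {ρ : ℝ} (hρ : ∀ i j, ∀ p ∈ C.U i 2 ∩ C.U j 2,
      ball (C.ch i p) ρ ⊆ C.ch i '' (C.U i (9 / 4) ∩ C.U j (9 / 4))) {i j : C.I}
    (hi : i.2 - m ∈ Icc a b) (hj : j.2 - m ∈ Icc a b) :
    ∀ z ∈ C.ch i '' (C.U i 2 ∩ C.U j 2), DifferentiableOn ℂ (LI_G C F m i j) (ball z ρ) ∧
      ∀ y ∈ ball z ρ, ‖LI_G C F m i j y‖ ≤ 2 := by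
  rintro _ ⟨p, hp, rfl⟩
  have h := hρ _ _ _ ⟨(C.U_shift i m 2 p).2 hp.1, (C.U_shift j m 2 p).2 hp.2⟩
  rw [C.ch_shift] at h
  refine ⟨fun y hy => ?_, fun y hy => ?_⟩
  · obtain ⟨q, hq, rfl⟩ := h hy
    exact (((C.isCh _).hol q hq.1.1 _).1
      (hF _ _ hi hj q hq).2.1).differentiableAt.differentiableWithinAt
  · obtain ⟨q, hq, rfl⟩ := h hy
    rw [LI_G, Function.comp_apply, (C.ch _).left_inv hq.1.1, Pi.div_apply]
    have h1 := (abs_le.1 (hF _ _ hi hj q hq).2.2).2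
    have h2 := Real.log_two_gt_d9
    by_contra h3
    have h4 := Real.log_le_log two_pos (not_le.1 h3).le
    linarith

theorem Cov.net (C : Cov M) {η : ℝ} (hη : 0 < η) (w : ℕ) : ∃ T : ℕ, ∀ (F : C.I → M → ℂ) (k₀ : ℤ),
    C.Uni F (9 / 4) (k₀ - w) (k₀ + T + w) (1 / 2) →
    ∃ (k : ℤ) (P : ℕ), w ≤ P ∧ k₀ + P ≤ k ∧ k ≤ k₀ + T ∧ C.Cl F k P w η := by
  obtain ⟨ρ, h0, hρ⟩ := C.geo_ball (s := 2) (s' := 9 / 4) (u := 2) (u' := 9 / 4) (by norm_num)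
    (by norm_num) (by norm_num) (by norm_num)
  obtain ⟨X, hX⟩ : ∃ X : Finset C.I, ∀ i, i ∈ X ↔ |i.2| ≤ w :=
    ⟨Finset.univ ×ˢ Finset.Icc (-(w : ℤ)) w, fun i => by simp [abs_le]⟩
  choose S hS code hcode using fun x : X × X =>
    LI_code (C.ch x.1 '' (C.U x.1 2 ∩ C.U x.2 2))
      (by rintro _ ⟨p, hp, rfl⟩; exact mem_ball_zero_iff.2 hp.1.2) h0 hη
  have := Fintype.ofFinite (∀ x, S x)
  refine ⟨Fintype.card (∀ x, S x) * w, fun F k₀ hF => ?_⟩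
  generalize hn : Fintype.card (∀ x, S x) = n at hF ⊢
  obtain ⟨s, s', hs, he⟩ : ∃ s s' : Fin (n + 1), s < s' ∧
      (fun x : X × X => code x (LI_G C F (-(k₀ + s * w)) x.1 x.2)) =
        fun x : X × X => code x (LI_G C F (-(k₀ + s' * w)) x.1 x.2) := by
    obtain ⟨s, s', h1, h2⟩ := Fintype.exists_ne_map_eq_of_card_lt
      (fun (s : Fin (n + 1)) (x : X × X) => code x (LI_G C F (-(k₀ + s * w)) x.1 x.2))
      (by rw [hn, Fintype.card_fin]; exact n.lt_succ_self)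
    rcases h1.lt_or_gt with h | h
    · exact ⟨s, s', h, h2⟩
    · exact ⟨s', s, h, h2.symm⟩
  have hb : ∀ (s : Fin (n + 1)) (i : C.I), |i.2| ≤ w →
      i.2 - -(k₀ + s * w) ∈ Icc (k₀ - w) (k₀ + (n * w : ℕ) + w) := fun s i hi => by
    have h1 : ((s : ℕ) : ℤ) * w ≤ n * w :=
      mul_le_mul_of_nonneg_right (by have := s.2; omega) (Nat.cast_nonneg w)
    have h2 : 0 ≤ ((s : ℕ) : ℤ) * w := by positivity
    rw [abs_le] at hi
    push_cast
    constructor <;> linarith [hi.1, hi.2]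
  obtain ⟨d, hd⟩ : ∃ d : ℕ, (s' : ℕ) = s + d + 1 := Nat.exists_eq_add_of_lt hs
  have h1 : ((s' : ℕ) : ℤ) * w ≤ n * w :=
    mul_le_mul_of_nonneg_right (by have := s'.2; omega) (Nat.cast_nonneg w)
  have h2 : 0 ≤ ((s : ℕ) : ℤ) * w := by positivity
  have h3 : ((s' : ℕ) : ℤ) * w = s * w + ((d + 1) * w : ℕ) := by rw [hd]; push_cast; ring
  refine ⟨k₀ + s' * w, (d + 1) * w, Nat.le_mul_of_pos_left _ d.succ_pos, by linarith,
    by push_cast; linarith, fun i j hi hj p hp => ?_⟩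
  have hb' := hb s'
  generalize hk : k₀ + ((s' : ℕ) : ℤ) * w = k at hi hj he hb'
  have h := hcode (⟨(i.1, i.2 - k), (hX _).2 hi⟩, ⟨(j.1, j.2 - k), (hX _).2 hj⟩) _ _
    (LI_bd C hF hρ (hb' _ hi) (hb' _ hj)) (LI_bd C hF hρ (hb s _ hi) (hb s _ hj))
    (congrFun he _).symm (C.ch i p)
    ⟨(C.g ^ k) p, ⟨(C.U_shift i k 2 p).2 hp.1, (C.U_shift j k 2 p).2 hp.2⟩, C.ch_shift i k p⟩
  have e1 : ∀ l : ℤ, l - k - -k = l := fun l => by ring
  have e2 : ∀ l : ℤ, l - k - -(k₀ + ((s : ℕ) : ℤ) * w) = l - ((d + 1) * w : ℕ) := fun l => by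
    rw [← hk, h3]; ring
  simp only [LI_G, e1, e2, Function.comp_apply, C.ch_symm_shift, Prod.mk.eta,
    (C.ch i).left_inv hp.1.1, Pi.div_apply] at h
  exact h

end Vale.Agent.P267
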