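import Vale.Agent.P267L.LG
import Vale.Agent.P267L.LC

/-! P267, lifting part: closing up a piece. -/

open scoped Manifold ContDiff Topology ENNReal
open Filter Metric Set MeasureTheory

noncomputable section

namespace Vale.Agent.P267

set_option linter.unusedSectionVars false

variable {M : Type} [TopologicalSpace M] [ChartedSpace C2 M] [T2Space M]

namespace Cov
variable {C : Cov M}

theorem chi_one {s : ℝ} (h : s ≤ 1 / 3) : chi s = 1 := by
  rw [chi, Real.smoothTransition.one_of_one_le (by linarith), Complex.ofReal_one]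
theorem chi_zero {s : ℝ} (h : 2 / 3 ≤ s) : chi s = 0 := by
  rw [chi, Real.smoothTransition.zero_of_nonpos (by linarith), Complex.ofReal_zero]

theorem pd_glu (F : C.I → M → ℂ) (k : ℤ) {P : ℕ} (hP : 0 < P) : C.Pd P (C.glu F k P) := by
  funext i x
  have p : (P : ℝ) ≠ 0 := Nat.cast_ne_zero.2 hP.ne'
  have e : C.mm k P ((C.g ^ (P : ℤ)) x) = C.mm k P x + 1 := by
    rw [mm, mm, C.t_gz, ← Int.floor_add_one]
    congr 1
    push_cast
    field_simp
    ring
  change C.shf P (C.shf (-(P * C.mm k P ((C.g ^ (P : ℤ)) x))) _) i x = C.shf _ _ i x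
  rw [shf_add, e, mul_add, mul_one, neg_add', add_sub_cancel]

theorem lev_near {k : ℤ} {w : ℕ} (hw : 2 * C.R + 2 ≤ w) {i : C.I} {x : M}
    (hx : x ∈ (C.ch i).source) (ht : |C.t x + k| < 1) : |i.2 - k| ≤ w := by
  have h := abs_le.1 (C.t_ch hx)
  have h' := abs_lt.1 ht
  have : |(i.2 : ℝ) - k| ≤ w := abs_le.2 ⟨by linarith, by linarith⟩
  exact_mod_cast this

theorem LK1_lg {F : C.I → M → ℂ} {k : ℤ} {P w : ℕ} {ε η : ℝ}
    (hu : C.Uni F 2 (k - P - w) (k + w) ε) (hε : ε ≤ 1 / 2) (hc : C.Cl F k P w η)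
    (hη : η ≤ 1 / 8) {i j : C.I} {y : M} (hy : y ∈ C.U i 2 ∩ C.U j 2)
    (hi : |i.2 - k| ≤ w) (hj : |j.2 - k| ≤ w) : HolAt (C.lg F P i j) y ∧ ‖C.lg F P i j y‖ ≤ 4 * η ∧
      Complex.exp (C.lg F P i j y) = (F i y / F j y) / (C.shf P F i y / C.shf P F j y) ∧
      F i y ≠ 0 ∧ C.shf P F i y ≠ 0 := by
  have m : ∀ {i : C.I}, |i.2 - k| ≤ w → i.2 ∈ Icc (k - P - w) (k + w) ∧
      i.2 - P ∈ Icc (k - P - w) (k + w) := fun h => by
    have := abs_le.1 h
    simp only [mem_Icc]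
    omega
  have hy' := And.intro ((C.U_shift i P 2 y).2 hy.1) ((C.U_shift j P 2 y).2 hy.2)
  obtain ⟨a1, a2, -⟩ := hu i j (m hi).1 (m hj).1 y hy
  obtain ⟨b1, b2, b3⟩ := hu (i.1, i.2 - P) (j.1, j.2 - P) (m hi).2 (m hj).2 _ hy'
  have s0 : C.shf P F i y / C.shf P F j y ≠ 0 :=
    div_ne_zero b1 (hu (j.1, j.2 - P) (i.1, i.2 - P) (m hj).2 (m hi).2 _ hy'.symm).1
  have s1 : 1 / 2 ≤ ‖C.shf P F i y / C.shf P F j y‖ := by
    have := Real.log_le_sub_one_of_pos (norm_pos_iff.2 s0)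
    have := (abs_le.1 b3).1
    change -ε ≤ Real.log ‖C.shf P F i y / C.shf P F j y‖ at this
    linarith
  have h := hc i j hi hj y hy
  have n : ‖(F i y / F j y) / (C.shf P F i y / C.shf P F j y) - 1‖ ≤ 2 * η := by
    rw [div_sub_one s0, norm_div]
    exact (div_le_div₀ ((norm_nonneg _).trans h) h one_half_pos s1).trans_eq (by ring)
  have sl : (F i y / F j y) / (C.shf P F i y / C.shf P F j y) ∈ Complex.slitPlane := by
    simpa using Complex.mem_slitPlane_of_norm_lt_one (n.trans_lt (by linarith))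
  refine ⟨(a2.div ((C.hol_gz P).2 b2) s0).comp (analyticAt_clog sl), ?_,
    Complex.exp_log (Complex.slitPlane_ne_zero sl), a1, b1⟩
  have k := Complex.norm_log_one_add_half_le_self (n.trans (by linarith))
  rw [add_sub_cancel] at k
  exact k.trans (by linarith [norm_nonneg (F i y / F j y - C.shf P F i y / C.shf P F j y)])

/-- The logarithms near the level `k`. -/
theorem lg_spec {F : C.I → M → ℂ} {k : ℤ} {P w : ℕ} {ε η : ℝ} (hw : 2 * C.R + 2 ≤ w) (hP : w ≤ P)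
    (hu : C.Uni F 2 (k - P - w) (k + w) ε) (hε : ε ≤ 1 / 2) (hc : C.Cl F k P w η)
    (hη : η ≤ 1 / 8) {i j : C.I} {y : M} (hy : y ∈ C.U i 2 ∩ C.U j 2)
    (hi : |i.2 - k| ≤ w) (hj : |j.2 - k| ≤ w) : HolAt (C.lg F P i j) y ∧ ‖C.lg F P i j y‖ ≤ 4 * η ∧
      Complex.exp (C.lg F P i j y) = (F i y / F j y) / (C.shf P F i y / C.shf P F j y) ∧
      ∀ l, y ∈ C.U l 2 → |l.2 - k| ≤ w → C.lg F P i l y - C.lg F P j l y = C.lg F P i j y := by
  obtain ⟨a1, a2, a3, a4, a5⟩ := LK1_lg hu hε hc hη hy hi hj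
  refine ⟨a1, a2, a3, fun l hl hl' => ?_⟩
  obtain ⟨-, b2, b3, -⟩ := LK1_lg hu hε hc hη ⟨hy.1, hl⟩ hi hl'
  obtain ⟨-, c2, c3, c4, c5⟩ := LK1_lg hu hε hc hη ⟨hy.2, hl⟩ hj hl'
  obtain ⟨-, -, -, d4, d5⟩ := LK1_lg hu hε hc hη ⟨hl, hl⟩ hl' hl'
  have k1 := abs_le.1 ((Complex.abs_im_le_norm _).trans a2)
  have k2 := abs_le.1 ((Complex.abs_im_le_norm _).trans
    ((norm_sub_le _ _).trans (add_le_add b2 c2)))
  have := Real.pi_gt_three
  refine Complex.exp_inj_of_neg_pi_lt_of_le_pi (by linarith) (by linarith) (by linarith)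
    (by linarith) ?_
  rw [Complex.exp_sub, a3, b3, c3]
  field_simp

theorem LK1_zero {F : C.I → M → ℂ} {k : ℤ} {P : ℕ} {y : M} (h1 : -(k : ℝ) ≤ C.t y)
    (h2 : C.t y < -k + P) (i : C.I) : C.glu F k P i y =
      F i y * Complex.exp (-(chi (C.t y + k) * C.lg F P i (C.idx y) y)) := by
  have p : (0 : ℝ) < P := by linarith
  have e : C.mm k P y = 0 := Int.floor_eq_zero_iff.2
    ⟨div_nonneg (by linarith) p.le, (div_lt_one p).2 (by linarith)⟩
  simp only [glu, e, mul_zero, neg_zero, shf_zero]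

theorem LK1_neg {F : C.I → M → ℂ} {k : ℤ} {P : ℕ} {y : M} (hP : (2 : ℝ) ≤ P)
    (h1 : -(k : ℝ) - 1 < C.t y) (h2 : C.t y < -k) (i : C.I) :
    C.glu F k P i y = C.shf P F i y := by
  have p : (0 : ℝ) < P := by linarith
  have e : C.mm k P y = -1 := Int.floor_eq_iff.2
    ⟨(le_div_iff₀ p).2 (by push_cast; linarith), (div_lt_iff₀ p).2 (by push_cast; linarith)⟩
  have c : chi (C.t ((C.g ^ (P : ℤ)) y) + k) = 0 := chi_zero (by
    rw [C.t_gz]
    push_cast
    linarith)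
  simp only [glu, e, mul_neg, mul_one, neg_neg, shf, c, zero_mul, neg_zero, Complex.exp_zero]

/-- The cocycle of the glued frames on the fundamental domain. -/
theorem glu_spec {F : C.I → M → ℂ} {k : ℤ} {P w : ℕ} {ε η : ℝ} (hw : 2 * C.R + 2 ≤ w) (hP : w ≤ P)
    (hu : C.Uni F 2 (k - P - w) (k + w) ε) (hε : ε ≤ 1 / 2) (hc : C.Cl F k P w η)
    (hη : η ≤ 1 / 8) {i j : C.I} {x : M} (hx : x ∈ C.U i 2 ∩ C.U j 2)
    (h1 : -(k : ℝ) ≤ C.t x) (h2 : C.t x < -k + P) :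
    C.glu F k P i x ≠ 0 ∧ C.glu F k P i / C.glu F k P j =ᶠ[𝓝 x]
      (F i / F j) * fun y => Complex.exp (-(chi (C.t y + k) * C.lg F P i j y)) := by
  have h := abs_le.1 (C.t_ch hx.1.1)
  have wP : (w : ℝ) ≤ P := Nat.cast_le.2 hP
  have m : i.2 ∈ Icc (k - P - w) (k + w) := by
    have a : (k : ℝ) - P - w ≤ i.2 := by linarith
    have b : (i.2 : ℝ) ≤ k + w := by linarith
    exact ⟨by exact_mod_cast a, by exact_mod_cast b⟩
  refine ⟨by
    rw [LK1_zero h1 h2]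
    exact mul_ne_zero (hu i i m m x ⟨hx.1, hx.1⟩).1 (Complex.exp_ne_zero _), ?_⟩
  filter_upwards [((C.isOpen_U i 2).inter (C.isOpen_U j 2)).mem_nhds hx,
    C.continuous_t.continuousAt.eventually_lt continuousAt_const h2,
    continuousAt_const.eventually_lt C.continuous_t.continuousAt
      (show -(k : ℝ) - 1 < C.t x by linarith)] with y hy k1 k2
  simp only [Pi.div_apply, Pi.mul_apply]
  rcases le_or_gt (-(k : ℝ)) (C.t y) with k3 | k3
  · rw [LK1_zero k3 k1, LK1_zero k3 k1, mul_div_mul_comm, ← Complex.exp_sub]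
    rcases le_or_gt (2 / 3) (C.t y + k) with k4 | k4
    · simp [chi_zero k4]
    · have t : |C.t y + k| < 1 := abs_lt.2 ⟨by linarith, by linarith⟩
      rw [← (lg_spec hw hP hu hε hc hη hy (lev_near hw hy.1.1 t) (lev_near hw hy.2.1 t)).2.2.2 _
        (C.U_mono _ one_le_two (C.mem_U_idx y)) (lev_near hw (C.mem_U_idx y).1 t)]
      congr 2
      ring
  · have t : |C.t y + k| < 1 := abs_lt.2 ⟨by linarith, by linarith⟩
    obtain ⟨-, -, a3, a4, -⟩ := LK1_lg hu hε hc hη hy (lev_near hw hy.1.1 t) (lev_near hw hy.2.1 t)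
    obtain ⟨-, -, -, b4, -⟩ :=
      LK1_lg hu hε hc hη hy.symm (lev_near hw hy.2.1 t) (lev_near hw hy.1.1 t)
    rw [LK1_neg (by linarith) k2 k3, LK1_neg (by linarith) k2 k3, chi_one (by linarith), one_mul,
      Complex.exp_neg, a3, inv_div, mul_div_cancel₀ _ (div_ne_zero a4 b4)]

end Cov

end Vale.Agent.P267
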