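import Vale.Agent.P267L.LK1

/-! P267, lifting part: the glued bundle has small curvature. -/

open scoped Manifold ContDiff Topology ENNReal
open Filter Metric Set MeasureTheory

noncomputable section

namespace Vale.Agent.P267

set_option linter.unusedSectionVars false

variable {M : Type} [TopologicalSpace M] [ChartedSpace C2 M] [T2Space M]

namespace Cov
variable {C : Cov M}

theorem LK2_pos {P w : ℕ} (hw : 2 * C.R + 2 ≤ w) (hP : w ≤ P) (x : M) : 0 < P := by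
  have hR : 0 ≤ C.R := (abs_nonneg _).trans (C.t_ch (C.mem_U_idx x).1)
  have : (0 : ℝ) < w := by linarith
  exact lt_of_lt_of_le (Nat.cast_pos.1 this) hP

theorem LK2_lev {k : ℤ} {P w : ℕ} (hw : 2 * C.R + 2 ≤ w) {i : C.I} {x : M}
    (hx : x ∈ (C.ch i).source) (h1 : -(k : ℝ) ≤ C.t x) (h2 : C.t x < -k + P) :
    i.2 ∈ Icc (k - P - w) (k + w) := by
  have h := abs_le.1 (C.t_ch hx)
  have hR : 0 ≤ C.R := (abs_nonneg _).trans (C.t_ch hx)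
  constructor
  · have : ((k - P - w : ℤ) : ℝ) ≤ i.2 := by
      push_cast
      linarith [h.1]
    exact_mod_cast this
  · have : (i.2 : ℝ) ≤ ((k + w : ℤ) : ℝ) := by
      push_cast
      linarith [h.2]
    exact_mod_cast this

theorem LK2_c {F : C.I → M → ℂ} {a b : ℤ} {ε : ℝ} (hu : C.Uni F 2 a b ε) {i j : C.I}
    (hi : i.2 ∈ Icc a b) (hj : j.2 ∈ Icc a b) : ∀ p ∈ C.U i 2 ∩ C.U j 2,
      HolAt (F i / F j) p ∧ (F i / F j) p ≠ 0 ∧ |Real.log ‖(F i / F j) p‖| ≤ ε := fun p hp =>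
  ⟨(hu i j hi hj p hp).2.1, div_ne_zero (hu i j hi hj p hp).1 (hu j i hj hi p hp.symm).1,
    (hu i j hi hj p hp).2.2⟩

theorem LK2_U {i j : C.I} {x : M} (hx : x ∈ C.U i (3 / 2) ∩ C.U j (3 / 2)) :
    x ∈ C.U i 2 ∩ C.U j 2 := ⟨C.U_mono i (by norm_num) hx.1, C.U_mono j (by norm_num) hx.2⟩

theorem LK2_red (F : C.I → M → ℂ) (k : ℤ) {P : ℕ} (hP : 0 < P) (x : M) :
    ∃ n : ℤ, -(k : ℝ) ≤ C.t ((C.g ^ n) x) ∧ C.t ((C.g ^ n) x) < -k + P ∧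
      ∀ i : C.I, C.glu F k P i = C.glu F k P (i.1, i.2 - n) ∘ (C.g ^ n : M ≃ₜ M) := by
  have h0 : (0 : ℝ) < P := Nat.cast_pos.2 hP
  have h1 := (le_div_iff₀ h0).1 (Int.floor_le ((C.t x + k) / P))
  have h2 := (div_lt_iff₀ h0).1 (Int.lt_floor_add_one ((C.t x + k) / P))
  refine ⟨-⌊(C.t x + k) / P⌋ * P, ?_, ?_, fun i => ?_⟩
  · rw [t_gz]
    push_cast
    linarith
  · rw [t_gz]
    push_cast
    linarith
  · exact (congrFun ((pd_glu F k hP).mul_int (-⌊(C.t x + k) / P⌋)) i).symm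

theorem LK2_far {F : C.I → M → ℂ} {k : ℤ} {P w : ℕ} {ε η : ℝ} (hw : 2 * C.R + 2 ≤ w) (hP : w ≤ P)
    (hu : C.Uni F 2 (k - P - w) (k + w) ε) (hε : ε ≤ 1 / 2) (hc : C.Cl F k P w η)
    (hη : η ≤ 1 / 8) {i j : C.I} {x : M} (hx : x ∈ C.U i 2 ∩ C.U j 2)
    (h1 : -(k : ℝ) + 1 ≤ C.t x) (h2 : C.t x < -k + P) :
    C.glu F k P i / C.glu F k P j =ᶠ[𝓝 x] F i / F j := by
  have h := (glu_spec hw hP hu hε hc hη hx (by linarith) h2).2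
  have h3 : ∀ᶠ y in 𝓝 x, -(k : ℝ) + 2 / 3 < C.t y :=
    C.continuous_t.continuousAt.eventually (lt_mem_nhds (by linarith))
  filter_upwards [h, h3] with y e1 e2
  rw [e1, Pi.mul_apply, chi_zero (by linarith), zero_mul, neg_zero, Complex.exp_zero, mul_one]

theorem LK2_sm {F : C.I → M → ℂ} {k : ℤ} {P w : ℕ} {ε η : ℝ} (hw : 2 * C.R + 2 ≤ w) (hP : w ≤ P)
    (hu : C.Uni F 2 (k - P - w) (k + w) ε) (hε : ε ≤ 1 / 2) (hc : C.Cl F k P w η)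
    (hη : η ≤ 1 / 8) {i j : C.I} {x : M} (hx : x ∈ C.U i 2 ∩ C.U j 2)
    (h1 : -(k : ℝ) ≤ C.t x) (h2 : C.t x < -k + P) :
    SmAt (C.glu F k P i / C.glu F k P j) x := by
  have a := (LK2_c hu (LK2_lev hw hx.1.1 h1 h2) (LK2_lev hw hx.2.1 h1 h2) x hx).1.smAt
  rcases le_or_gt (-(k : ℝ) + 1) (C.t x) with h | h
  · exact a.congr (LK2_far hw hP hu hε hc hη hx h h2).symm
  · have ht : |C.t x + k| < 1 := abs_lt.2 ⟨by linarith, by linarith⟩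
    obtain ⟨L, -, hL⟩ := C.d_chi
    have b := (lg_spec hw hP hu hε hc hη hx (lev_near hw hx.1.1 ht) (lev_near hw hx.2.1 ht)).1.smAt
    exact (a.mul ((hL k x).1.mul b).neg.exp).congr (glu_spec hw hP hu hε hc hη hx h1 h2).2.symm

theorem sFr_glu {F : C.I → M → ℂ} {k : ℤ} {P w : ℕ} {ε η : ℝ} (hw : 2 * C.R + 2 ≤ w) (hP : w ≤ P)
    (hu : C.Uni F 2 (k - P - w) (k + w) ε) (hε : ε ≤ 1 / 2) (hc : C.Cl F k P w η)
    (hη : η ≤ 1 / 8) : C.SFr (C.glu F k P) := by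
  refine ⟨fun i p hp => ?_, fun i j p hp => ?_⟩
  · obtain ⟨n, h1, h2, e⟩ := LK2_red F k (LK2_pos hw hP p) p
    have hq := (C.U_shift i n _ p).2 hp
    rw [e i]
    exact (glu_spec hw hP hu hε hc hη (LK2_U ⟨hq, hq⟩) h1 h2).1
  · obtain ⟨n, h1, h2, e⟩ := LK2_red F k (LK2_pos hw hP p) p
    rw [e i, e j]
    exact (C.sm_gz n).2 (LK2_sm hw hP hu hε hc hη
      (LK2_U ⟨(C.U_shift i n _ p).2 hp.1, (C.U_shift j n _ p).2 hp.2⟩) h1 h2)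

theorem glu_mid {F : C.I → M → ℂ} {k : ℤ} {P w : ℕ} {ε η : ℝ} (hw : 2 * C.R + 2 ≤ w) (hP : w ≤ P)
    (hu : C.Uni F 2 (k - P - w) (k + w) ε) (hε : ε ≤ 1 / 2) (hc : C.Cl F k P w η)
    (hη : η ≤ 1 / 8) {i j : C.I} {x : M} (hx : x ∈ C.U i (3 / 2) ∩ C.U j (3 / 2))
    (h1 : -(k : ℝ) + 1 < C.t x) (h2 : C.t x < -k + P) :
    C.glu F k P i x / C.glu F k P j x = F i x / F j x :=
  (LK2_far hw hP hu hε hc hη (LK2_U hx) h1.le h2).eq_of_nhds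

theorem glu_bd (C : Cov M) : ∃ L : ℝ, 0 ≤ L ∧ ∀ κ : ℝ, 0 < κ → ∃ ε₀ : ℝ, 0 < ε₀ ∧
    ∀ (F : C.I → M → ℂ) (k : ℤ) (P w : ℕ) (ε η : ℝ), 2 * C.R + 2 ≤ w → w ≤ P →
      C.Uni F 2 (k - P - w) (k + w) ε → ε ≤ 1 / 2 → C.Cl F k P w η → η ≤ 1 / 8 → 0 ≤ η →
      ε ≤ ε₀ → ∀ i j : C.I, ∀ x ∈ C.U i (3 / 2) ∩ C.U j (3 / 2),
        ‖C.dl (C.glu F k P i / C.glu F k P j) x‖ ≤ κ + L * η ∧
        (-(k : ℝ) + 1 < C.t x → C.t x < -k + P →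
          ‖C.dl (C.glu F k P i / C.glu F k P j) x‖ ≤ κ) := by
  obtain ⟨L₁, hL₁, H₁⟩ := C.d_cauchy (r := 2) (r' := 3 / 2) (by norm_num) (by norm_num)
  obtain ⟨L₂, hL₂, H₂⟩ := C.d_chi
  refine ⟨4 * L₁ + 4 * L₂, by positivity, fun κ hκ => ?_⟩
  obtain ⟨ε₀, h0, H⟩ := C.dl_small hκ
  refine ⟨ε₀, h0, fun F k P w ε η hw hP hu hε hc hη hη0 hε0 => ?_⟩
  have hs : ∀ i j : C.I, ∀ x ∈ C.U i (3 / 2) ∩ C.U j (3 / 2), -(k : ℝ) ≤ C.t x →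
      C.t x < -k + P → ‖C.dl (F i / F j) x‖ ≤ κ := fun i j x hx h1 h2 =>
    H i j _ (fun p hp => (LK2_c hu (LK2_lev hw hx.1.1 h1 h2) (LK2_lev hw hx.2.1 h1 h2) p hp).imp_right
      fun h => h.imp_right fun h => h.trans hε0) x hx
  have far : ∀ i j : C.I, ∀ x ∈ C.U i (3 / 2) ∩ C.U j (3 / 2), -(k : ℝ) + 1 ≤ C.t x →
      C.t x < -k + P → ‖C.dl (C.glu F k P i / C.glu F k P j) x‖ ≤ κ := fun i j x hx h1 h2 => by
    rw [C.dl_congr (LK2_far hw hP hu hε hc hη (LK2_U hx) h1 h2)]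
    exact hs i j x hx (by linarith) h2
  have loc : ∀ i j : C.I, ∀ x ∈ C.U i (3 / 2) ∩ C.U j (3 / 2), -(k : ℝ) ≤ C.t x →
      C.t x < -k + P → ‖C.dl (C.glu F k P i / C.glu F k P j) x‖ ≤ κ + (4 * L₁ + 4 * L₂) * η := by
    intro i j x hx h1 h2
    rcases le_or_gt (-(k : ℝ) + 1) (C.t x) with h | h
    · exact (far i j x hx h h2).trans (le_add_of_nonneg_right (by positivity))
    have ht : |C.t x + k| < 1 := abs_lt.2 ⟨by linarith, by linarith⟩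
    have hx' := LK2_U hx
    have a := LK2_c hu (LK2_lev hw hx.1.1 h1 h2) (LK2_lev hw hx.2.1 h1 h2) x hx'
    have b : ∀ p ∈ C.U i 2 ∩ C.U j 2, HolAt (C.lg F P i j) p ∧ ‖C.lg F P i j p‖ ≤ 4 * η :=
      fun p hp =>
        have h := lg_spec hw hP hu hε hc hη hp (lev_near hw hx.1.1 ht) (lev_near hw hx.2.1 ht)
        ⟨h.1, h.2.1⟩
    have b1 := H₁ i j _ _ b x hx
    obtain ⟨b2, b3⟩ := b x hx'
    obtain ⟨c1, c2, c3⟩ := H₂ k x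
    have d := (c1.mul b2.smAt).neg
    have e : C.dl (C.glu F k P i / C.glu F k P j) x = C.dl (F i / F j) x +
        -(chi (C.t x + k) • C.d (C.lg F P i j) x +
          C.lg F P i j x • C.d (fun q => chi (C.t q + k)) x) := by
      rw [C.dl_congr (glu_spec hw hP hu hε hc hη hx' h1 h2).2, ← C.d_mul c1 b2.smAt, ← C.d_neg,
        ← C.dl_exp d]
      exact C.dl_mul a.1.smAt d.exp a.2.1 (Complex.exp_ne_zero _)
    rw [e]
    refine (norm_add_le _ _).trans (add_le_add (hs i j x hx h1 h2) ?_)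
    rw [norm_neg]
    calc _ ≤ ‖chi (C.t x + k)‖ * ‖C.d (C.lg F P i j) x‖ +
          ‖C.lg F P i j x‖ * ‖C.d (fun q => chi (C.t q + k)) x‖ := by
          rw [← norm_smul, ← norm_smul]
          exact norm_add_le _ _
      _ ≤ 1 * (L₁ * (4 * η)) + 4 * η * L₂ := by gcongr
      _ = _ := by ring
  refine fun i j x hx => ⟨?_, fun h1 h2 => far i j x hx h1.le h2⟩
  obtain ⟨n, h1, h2, e⟩ := LK2_red F k (LK2_pos hw hP x) x
  have := loc _ _ _ ⟨(C.U_shift i n _ x).2 hx.1, (C.U_shift j n _ x).2 hx.2⟩ h1 h2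
  rw [← C.dl_gz n] at this
  rw [e i, e j]
  exact this

end Cov

end Vale.Agent.P267
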