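import Vale.Agent.P267L.LK2

/-! P267, lifting part: the glued bundle has small square. -/

open scoped Manifold ContDiff Topology ENNReal
open Filter Metric Set MeasureTheory

noncomputable section

namespace Vale.Agent.P267

set_option linter.unusedSectionVars false

variable {M : Type} [TopologicalSpace M] [ChartedSpace C2 M] [T2Space M]

theorem LK3_small {B : ℝ} (hB : 0 ≤ B) : ∃ δ : ℝ, 0 < δ ∧ δ ≤ 1 / 8 ∧ B * δ ^ 2 ≤ 1 / 4 := by
  have h0 : 0 < 8 * (B + 1) := by positivity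
  have h1 : 1 / (8 * (B + 1)) ≤ 1 / 8 := one_div_le_one_div_of_le (by norm_num) (by linarith)
  have h2 : B * (1 / (8 * (B + 1))) ≤ 1 := by
    rw [mul_one_div, div_le_one h0]
    linarith
  have h3 : 0 < 1 / (8 * (B + 1)) := one_div_pos.2 h0
  refine ⟨_, h3, h1, ?_⟩
  rw [sq, ← mul_assoc]
  nlinarith [mul_nonneg hB h3.le]

theorem LK3_shift {V : Type} [AddCommGroup V] {g : ℤ → V} {P : ℕ} (h : ∀ l, g (l - P) = g l)
    (c : ℤ) : ∑ l ∈ Finset.range P, g (c + l) = ∑ l ∈ Finset.range P, g l := by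
  have key : ∀ c : ℤ, ∑ l ∈ Finset.range P, g (c + 1 + l) = ∑ l ∈ Finset.range P, g (c + l) := by
    intro c
    have h1 := Finset.sum_range_succ (fun l : ℕ => g (c + l)) P
    have h2 := Finset.sum_range_succ' (fun l : ℕ => g (c + l)) P
    have h3 : g (c + P) = g (c + ((0 : ℕ) : ℤ)) := by
      rw [← h (c + P)]
      simp
    have h4 : ∑ l ∈ Finset.range P, g (c + 1 + l) =
        ∑ l ∈ Finset.range P, g (c + ((l + 1 : ℕ) : ℤ)) :=
      Finset.sum_congr rfl fun l _ => congrArg g (by push_cast; ring)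
    rw [h1, h3] at h2
    rw [h4]
    exact (add_right_cancel h2).symm
  induction c using Int.induction_on with
  | zero => simp
  | succ n ih => rw [key, ih]
  | pred n ih => rw [← key, sub_add_cancel, ih]

theorem LK3_count (P D : ℕ) {b : ℝ} (hb : 0 ≤ b) :
    ∑ l ∈ Finset.range P, (if D ≤ l ∧ l + D < P then 0 else b) ≤ 2 * D * b := by
  rw [Finset.sum_ite, Finset.sum_const_zero, zero_add, Finset.sum_const, nsmul_eq_mul]
  refine mul_le_mul_of_nonneg_right ?_ hb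
  have h : ((Finset.range P).filter fun l => ¬(D ≤ l ∧ l + D < P)) ⊆
      Finset.range D ∪ Finset.Ico (P - D) P := by
    intro l hl
    simp only [Finset.mem_filter, Finset.mem_range, Finset.mem_union, Finset.mem_Ico] at hl ⊢
    omega
  have h1 := (Finset.card_le_card h).trans (Finset.card_union_le _ _)
  rw [Finset.card_range, Nat.card_Ico] at h1
  have h2 : ((Finset.range P).filter fun l => ¬(D ≤ l ∧ l + D < P)).card ≤ 2 * D := by omega
  exact_mod_cast h2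

theorem Cov.glu_sq (C : Cov M) : ∃ η : ℝ, 0 < η ∧ η ≤ 1 / 8 ∧ ∀ T : ℕ, ∃ ε₀ : ℝ, 0 < ε₀ ∧
    ε₀ ≤ 1 / 2 ∧ ∀ (F : C.I → M → ℂ) (k : ℤ) (P w : ℕ), 2 * C.R + 2 ≤ w → w ≤ P → P ≤ T →
      C.Uni F 2 (k - P - w) (k + w) ε₀ → C.Cl F k P w η →
      ‖C.pr P (C.cv (C.can (C.glu F k P))) (C.cv (C.can (C.glu F k P)))‖ < 1 := by
  obtain ⟨K, hK, hcan⟩ := C.can_bd
  obtain ⟨K2, hK2, hbb⟩ := C.bb_norm
  obtain ⟨L, hL, hglu⟩ := C.glu_bd
  obtain ⟨D, hD⟩ := exists_nat_gt (C.R + 1)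
  have hA : 0 ≤ K2 * K ^ 2 := by positivity
  obtain ⟨η, hη0, hη, hη2⟩ := LK3_small (B := 2 * D * (2 * (K2 * K ^ 2) * L ^ 2)) (by positivity)
  refine ⟨η, hη0, hη, fun T => ?_⟩
  obtain ⟨κ, hκ0, -, hκ2⟩ := LK3_small (B := T * (2 * (K2 * K ^ 2))) (by positivity)
  obtain ⟨ε₁, hε₁, hgl⟩ := hglu κ hκ0
  refine ⟨min ε₁ (1 / 2), lt_min hε₁ (by norm_num), min_le_right _ _,
    fun F k P w hw hP hT hu hc => ?_⟩
  rcases Nat.eq_zero_or_pos P with rfl | hP0
  · simp [Cov.pr]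
  have hs := Cov.sFr_glu hw hP hu (min_le_right _ _) hc hη
  have hg := hgl F k P w _ η hw hP hu (min_le_right _ _) hc hη hη0.le (min_le_left _ _)
  have hper := (Cov.pd_glu (C := C) F k hP0).can.cv
  set x := C.cv (C.can (C.glu F k P)) with hx
  have hlev : ∀ l : ℕ, ‖C.bb (x (k - P + l)) (x (k - P + l))‖ ≤ 2 * (K2 * K ^ 2) * κ ^ 2 +
      if D ≤ l ∧ l + D < P then 0 else 2 * (K2 * K ^ 2) * L ^ 2 * η ^ 2 := by
    intro l
    have hb : ∀ c : ℝ, 0 ≤ c → ‖x (k - P + l)‖ ≤ K * c →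
        ‖C.bb (x (k - P + l)) (x (k - P + l))‖ ≤ K2 * K ^ 2 * c ^ 2 := fun c _ h2 => by
      refine (hbb _ _).trans ?_
      have h3 := mul_le_mul h2 h2 (norm_nonneg _) ((norm_nonneg _).trans h2)
      have h4 := mul_le_mul_of_nonneg_left h3 hK2
      nlinarith
    split_ifs with hl
    · have h1 := hb κ hκ0.le (hcan _ _ κ hs hκ0.le fun a j p hp => by
        have h2 := abs_le.1 (C.t_ch hp.1.1)
        have h3 : (D : ℝ) ≤ l := by exact_mod_cast hl.1
        have h4 : (l : ℝ) + D < P := by exact_mod_cast hl.2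
        push_cast at h2
        exact (hg _ j p hp).2 (by linarith [h2.1]) (by linarith [h2.2]))
      nlinarith [mul_nonneg hA (sq_nonneg κ)]
    · have h0 : 0 ≤ κ + L * η := by positivity
      have h1 := hb _ h0 (hcan _ _ _ hs h0 fun a j p hp => (hg _ j p hp).1)
      nlinarith [mul_nonneg hA (sq_nonneg (κ - L * η))]
  have e : C.pr P x x = ∑ l ∈ Finset.range P, C.bb (x (k - P + l)) (x (k - P + l)) :=
    (LK3_shift (g := fun l => C.bb (x l) (x l)) (fun l => by rw [hper l]) (k - P)).symm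
  rw [e]
  refine lt_of_le_of_lt ((norm_sum_le _ _).trans (Finset.sum_le_sum fun l _ => hlev l)) ?_
  rw [Finset.sum_add_distrib, Finset.sum_const, Finset.card_range, nsmul_eq_mul]
  have h1 := LK3_count P D (b := 2 * (K2 * K ^ 2) * L ^ 2 * η ^ 2) (by positivity)
  have h2 : (P : ℝ) * (2 * (K2 * K ^ 2) * κ ^ 2) ≤ T * (2 * (K2 * K ^ 2) * κ ^ 2) :=
    mul_le_mul_of_nonneg_right (by exact_mod_cast hT) (by positivity)
  nlinarith

end Vale.Agent.P267
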