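import Vale.Agent.P267L.LN

/-! P267, lifting part: cutting open. -/

open scoped Manifold ContDiff Topology ENNReal
open Filter Metric Set MeasureTheory

noncomputable section

namespace Vale.Agent.P267

set_option linter.unusedSectionVars false

variable {M : Type} [TopologicalSpace M] [ChartedSpace C2 M] [T2Space M]

open Classical in
/-- The frames on the window. -/
def LM_e (C : Cov M) (Q : C.I → M → ℂ) (c d : ℝ) (i : C.I) (x : M) : ℂ :=
  if C.t x ∈ Ico c d ∧ x ∈ C.U i (3 / 2) then Q i x / Q (C.idx x) x else 1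

/-- The normalising factor. -/
def LM_lam (C : Cov M) (e : C.I → M → ℂ) (x : M) : ℝ :=
  ∑ l ∈ C.nb (C.idx x), C.rho l x * ‖e l x‖

theorem LM_idx (C : Cov M) (x : M) : x ∈ C.U (C.idx x) (3 / 2) :=
  C.U_mono _ (by norm_num) (C.mem_U_idx x)

theorem LM_sum (C : Cov M) (x : M) : ∑ l ∈ C.nb (C.idx x), C.rho l x = 1 :=
  C.rho_sum fun _ hl => C.mem_nb (C.ac_src x) hl

theorem LM_pos (C : Cov M) {e : C.I → M → ℂ} (h : ∀ i x, e i x ≠ 0) (x : M) :
    0 < LM_lam C e x := by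
  obtain ⟨l, hl, h0⟩ := Finset.exists_ne_zero_of_sum_ne_zero ((LM_sum C x).trans_ne one_ne_zero)
  exact Finset.sum_pos' (fun l _ => mul_nonneg (C.rho_nonneg l x) (norm_nonneg _))
    ⟨l, hl, mul_pos ((C.rho_nonneg l x).lt_of_ne' h0) (norm_pos_iff.2 (h l x))⟩

theorem LM_met (C : Cov M) {e : C.I → M → ℂ} (h : ∀ i x, e i x ≠ 0)
    (hs : ∀ i j, ∀ p ∈ C.U i (3 / 2) ∩ C.U j (3 / 2), SmAt (e i / e j) p) {i : C.I} {p : M}
    (hp : p ∈ C.U i (3 / 2)) : SmAt (fun q => (‖e i q / (LM_lam C e q : ℂ)‖ : ℂ)) p := by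
  have h1 : SmAt (∑ l ∈ C.nb i, fun q => (C.rho l q : ℂ) * (‖(e l / e i) q‖ : ℂ)) p :=
    SmAt.sum fun l _ => C.rho_mul_sm (r := 3 / 2) (by norm_num) fun hl =>
      (hs l i p ⟨hl, hp⟩).norm (div_ne_zero (h l p) (h i p))
  have h2 : ∀ q ∈ C.U i (3 / 2), (∑ l ∈ C.nb i, fun q => (C.rho l q : ℂ) * (‖(e l / e i) q‖ : ℂ)) q
      = (LM_lam C e q : ℂ) / (‖e i q‖ : ℂ) := fun q hq => by
    have k := C.sum_nb (p := q) (fun l => (‖e l q‖ : ℂ)) (W := C.nb (C.idx q)) (W' := C.nb i)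
      (fun _ hl => C.mem_nb (C.ac_src q) hl) fun _ hl => C.mem_nb hq.1 hl
    simp only [smul_eq_mul] at k
    simp only [LM_lam, Finset.sum_apply, Pi.div_apply, norm_div, Complex.ofReal_sum,
      Complex.ofReal_mul, Complex.ofReal_div, k, Finset.sum_div, mul_div_assoc]
  refine (h1.inv ?_).congr ?_
  · rw [h2 p hp]
    exact div_ne_zero (Complex.ofReal_ne_zero.2 (LM_pos C h p).ne')
      (Complex.ofReal_ne_zero.2 (norm_ne_zero_iff.2 (h i p)))
  · filter_upwards [(C.isOpen_U i _).mem_nhds hp] with q hq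
    rw [Pi.inv_apply, h2 q hq, inv_div, norm_div, Complex.norm_real,
      Real.norm_of_nonneg (LM_pos C h q).le, Complex.ofReal_div]

section
variable {C : Cov M} {Q : C.I → M → ℂ} {c d : ℝ} {i j : C.I} {x : M}

theorem LM_out (hx : C.t x ∉ Ico c d) (i : C.I) : LM_e C Q c d i x = 1 :=
  if_neg fun k => hx k.1

theorem LM_ne (h : C.SFr Q) (i : C.I) (x : M) : LM_e C Q c d i x ≠ 0 := by
  unfold LM_e
  split_ifs with k
  exacts [div_ne_zero (h.ne i x k.2) (h.ne _ x (LM_idx C x)), one_ne_zero]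

theorem LM_in (h : C.SFr Q) (hx : C.t x ∈ Ico c d) (hi : x ∈ C.U i (3 / 2))
    (hj : x ∈ C.U j (3 / 2)) : LM_e C Q c d i x / LM_e C Q c d j x = Q i x / Q j x := by
  rw [LM_e, LM_e, if_pos ⟨hx, hi⟩, if_pos ⟨hx, hj⟩,
    div_div_div_cancel_right₀ (h.ne _ x (LM_idx C x))]

end

theorem Cov.cut_open {C : Cov M} {Q : C.I → M → ℂ} {N : ℕ} {a : ℝ} (hN : 2 < N) (h : C.SFr Q)
    (hP : C.Pd N Q) (h1 : ∀ i j, ∀ x ∈ C.U i (3 / 2) ∩ C.U j (3 / 2), a < C.t x → C.t x < a + 2 →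
      Q i x / Q j x = 1) : ∃ E : C.I → M → ℂ, C.SFr E ∧
      (∀ i, ∀ p ∈ C.U i (3 / 2), SmAt (fun q => (‖E i q‖ : ℂ)) p) ∧ C.CS 1 E (a + 2) (a + N) ∧
      ∀ i j, ∀ p ∈ C.U i (3 / 2) ∩ C.U j (3 / 2),
        C.perF N E i p / C.perF N E j p = Q i p / Q j p := by
  have hN' : (2 : ℝ) < N := by exact_mod_cast hN
  have per : ∀ (l : ℤ) (i : C.I) p, Q (i.1, i.2 - l * N) ((C.g ^ (l * N)) p) = Q i p :=
    fun l i p => congrFun (congrFun (hP.mul_int l) i) p
  have h2 : ∀ i j, ∀ x ∈ C.U i (3 / 2) ∩ C.U j (3 / 2), a + N < C.t x → C.t x < a + N + 2 →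
      Q i x / Q j x = 1 := fun i j x hx k1 k2 => by
    rw [← per (-1) i, ← per (-1) j]
    refine h1 _ _ _ ⟨(C.U_shift i _ _ x).2 hx.1, (C.U_shift j _ _ x).2 hx.2⟩ ?_ ?_ <;>
      rw [C.t_gz] <;> push_cast <;> linarith
  obtain ⟨e, he⟩ : ∃ e, e = LM_e C Q (a + 1) (a + 1 + N) := ⟨_, rfl⟩
  have ne : ∀ i x, e i x ≠ 0 := he ▸ LM_ne h
  have sm : ∀ i j, ∀ p ∈ C.U i (3 / 2) ∩ C.U j (3 / 2), SmAt (e i / e j) p := fun i j p hp => by
    have ev := ((C.isOpen_U i (3 / 2)).inter (C.isOpen_U j (3 / 2))).mem_nhds hp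
    have ct := C.continuous_t.continuousAt (x := p)
    by_cases k : C.t p ∈ Ioo a (a + N + 2)
    · refine (h.sm i j p hp).congr ?_
      filter_upwards [ev, ct.eventually (isOpen_Ioo.mem_nhds k)] with q hq kq
      rw [he, Pi.div_apply, Pi.div_apply]
      by_cases k' : C.t q ∈ Ico (a + 1) (a + 1 + N)
      · exact (LM_in h k' hq.1 hq.2).symm
      · rw [LM_out k', LM_out k', div_one]
        rw [mem_Ico, not_and_or, not_le, not_lt] at k'
        rcases k' with k' | k'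
        · exact h1 i j q hq kq.1 (by linarith)
        · exact h2 i j q hq (by linarith) kq.2
    · have k1 : C.t p ∈ (Icc (a + 1) (a + 1 + N))ᶜ := fun k1 =>
        k ⟨by linarith [k1.1], by linarith [k1.2]⟩
      refine smAt_one.congr ?_
      filter_upwards [ct.eventually (isClosed_Icc.isOpen_compl.mem_nhds k1)] with q kq
      have k' : C.t q ∉ Ico (a + 1) (a + 1 + N) := fun k' => kq (Ico_subset_Icc_self k')
      rw [he, Pi.div_apply, LM_out k', LM_out k', div_one, Pi.one_apply]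
  have one : ∀ i p, C.t p ∉ Icc (a + 2) (a + N) → e i p = 1 := fun i p k => by
    rw [he, LM_e]
    split_ifs with k'
    · rw [mem_Icc, not_and_or, not_le, not_le] at k
      rcases k with k | k
      · exact h1 _ _ p ⟨k'.2, LM_idx C p⟩ (by linarith [k'.1.1]) k
      · exact h2 _ _ p ⟨k'.2, LM_idx C p⟩ k (by linarith [k'.1.2])
    · rfl
  have l0 : ∀ x, (LM_lam C e x : ℂ) ≠ 0 := fun x => Complex.ofReal_ne_zero.2 (LM_pos C ne x).ne'
  have cs : C.CS 1 (fun i x => e i x / (LM_lam C e x : ℂ)) (a + 2) (a + N) := fun i p k => by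
    simp only [LM_lam, one _ p k, norm_one, mul_one, LM_sum, Complex.ofReal_one, div_one]
  refine ⟨fun i x => e i x / (LM_lam C e x : ℂ), ⟨fun i p _ => div_ne_zero (ne i p) (l0 p),
    fun i j p hp => (sm i j p hp).congr (.of_forall fun q => ?_)⟩, fun i p hp => LM_met C ne sm hp,
    cs, fun i j p hp => ?_⟩
  · exact (div_div_div_cancel_right₀ (l0 q) _ _).symm
  · have N0 : (0 : ℝ) < N := by linarith
    obtain ⟨l, hl⟩ : ∃ l : ℤ, l = ⌈(a + 1 - C.t p) / N⌉ := ⟨_, rfl⟩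
    have b1 : a + 1 - C.t p ≤ l * N := (div_le_iff₀ N0).1 (hl ▸ Int.le_ceil _)
    have b2 : (l - 1) * N < a + 1 - C.t p :=
      (lt_div_iff₀ N0).1 (sub_lt_iff_lt_add.2 (hl ▸ Int.ceil_lt_add_one _))
    have key : ∀ i : C.I, C.perF N (fun i x => e i x / (LM_lam C e x : ℂ)) i p =
        e (i.1, i.2 - l * N) ((C.g ^ (l * N)) p) / (LM_lam C e ((C.g ^ (l * N)) p) : ℂ) :=
      fun i => finprod_eq_single _ l fun m hm => cs _ _ fun k => by
        rw [C.t_gz] at k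
        push_cast at k
        rcases hm.lt_or_gt with k' | k'
        · have k2 : (m : ℝ) ≤ l - 1 := by exact_mod_cast Int.le_sub_one_of_lt k'
          nlinarith [k.1, mul_le_mul_of_nonneg_right k2 N0.le]
        · have k2 : (l : ℝ) + 1 ≤ m := by exact_mod_cast Int.add_one_le_of_lt k'
          nlinarith [k.2, mul_le_mul_of_nonneg_right k2 N0.le]
    rw [key, key, div_div_div_cancel_right₀ (l0 _), he, LM_in h ?_ ((C.U_shift i _ _ p).2 hp.1)
      ((C.U_shift j _ _ p).2 hp.2), per, per]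
    rw [C.t_gz]
    push_cast
    exact ⟨by linarith, by linarith⟩

end Vale.Agent.P267
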