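import Vale.Agent.P267L.LC

/-! P267, lifting part: periodisation. -/

open scoped Manifold ContDiff Topology ENNReal
open Filter Metric Set MeasureTheory

noncomputable section

namespace Vale.Agent.P267

set_option linter.unusedSectionVars false

variable {M : Type} [TopologicalSpace M] [ChartedSpace C2 M] [T2Space M]

namespace Cov
variable {C : Cov M} {θ : C.I → M → C2 →L[ℝ] ℂ} {E : C.I → M → ℂ} {N : ℕ} {a b : ℝ}

theorem LN_unif (hN : 0 < N) (a b B : ℝ) : ∃ W : Finset ℤ, ∀ s : ℝ, |s| ≤ B →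
    ∀ l ∉ W, s + ((l * N : ℤ) : ℝ) ∉ Icc a b := by
  obtain ⟨K, hK⟩ := exists_nat_gt (B + |a| + |b|)
  refine ⟨Finset.Icc (-(K : ℤ)) K, fun s hs l hl hm => hl ?_⟩
  have h1 : |((l * N : ℤ) : ℝ)| ≤ K := by
    rw [abs_le] at hs ⊢
    have := neg_abs_le a
    have := le_abs_self b
    have := abs_nonneg a
    have := abs_nonneg b
    constructor <;> linarith [hm.1, hm.2, hs.1, hs.2]
  have h2 : |l * N| ≤ (K : ℤ) := by exact_mod_cast h1
  have h3 : |l| ≤ |l * N| := by
    rw [abs_mul]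
    have : (1 : ℤ) ≤ |(N : ℤ)| := by
      rw [abs_of_nonneg (Int.natCast_nonneg N)]
      exact_mod_cast hN
    nlinarith [abs_nonneg l]
  exact Finset.mem_Icc.2 (abs_le.1 (h3.trans h2))

theorem LN_sfr (h : C.SFr E) (W : Finset ℤ) : C.SFr (∏ l ∈ W, C.shf (l * N) E) := by
  classical
  induction W using Finset.induction_on with
  | empty => simpa using sFr_one
  | insert x W hx ih =>
    rw [Finset.prod_insert hx]
    exact (h.shf _).mul ih

theorem LN_con (h : C.SFr E) (hθ : C.Con E θ) (W : Finset ℤ) :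
    C.Con (∏ l ∈ W, C.shf (l * N) E) (∑ l ∈ W, C.shf (l * N) θ) := by
  classical
  induction W using Finset.induction_on with
  | empty => simpa using con_one
  | insert x W hx ih =>
    rw [Finset.prod_insert hx, Finset.sum_insert hx]
    exact Con.mul (h.shf _) (LN_sfr h W) (hθ.shf _) ih

theorem LN_cn0 : C.Cn 0 := fun _ _ _ => smO_zero

theorem LN_cv0 : C.cv 0 = 0 := by
  have := (LN_cn0 (C := C)).cv_add LN_cn0
  rw [add_zero] at this
  exact left_eq_add.1 this

theorem LN_cv (hθ : C.Cn θ) (W : Finset ℤ) : C.Cn (∑ l ∈ W, C.shf (l * N) θ) ∧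
    C.cv (∑ l ∈ W, C.shf (l * N) θ) = ∑ l ∈ W, C.cv (C.shf (l * N) θ) := by
  classical
  induction W using Finset.induction_on with
  | empty => simpa using ⟨LN_cn0, LN_cv0⟩
  | insert x W hx ih =>
    rw [Finset.sum_insert hx, Finset.sum_insert hx]
    exact ⟨(hθ.shf _).add ih.1, by rw [(hθ.shf _).cv_add ih.1, ih.2]⟩

/-- Near a point only finitely many translates are not trivial. -/
theorem fin_tr (C : Cov M) (hN : 0 < N) (a b : ℝ) (p : M) : ∃ W : Finset ℤ, ∀ᶠ q in 𝓝 p,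
    ∀ l ∉ W, C.t ((C.g ^ (l * N : ℤ)) q) ∉ Icc a b := by
  obtain ⟨W, hW⟩ := LN_unif hN a b (|C.t p| + 1)
  refine ⟨W, ?_⟩
  have hc : ContinuousAt C.t p := by
    have := Complex.continuous_re.continuousAt.comp (C.t_sm p).continuousAt
    simpa [Function.comp_def] using this
  have := hc.abs.eventually (gt_mem_nhds (lt_add_one |C.t p|))
  filter_upwards [this] with q hq l hl
  rw [C.t_gz]
  exact hW _ hq.le l hl

theorem CS.perF_eq (h : C.CS 1 E a b) {q : M} {W : Finset ℤ}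
    (hW : ∀ l ∉ W, C.t ((C.g ^ (l * N : ℤ)) q) ∉ Icc a b) (i : C.I) :
    C.perF N E i q = ∏ l ∈ W, C.shf (l * N) E i q := by
  refine finprod_eq_prod_of_mulSupport_subset _ fun l hl => ?_
  by_contra hn
  exact hl (h _ _ (hW l hn))

theorem CS.perO_eq (h : C.CS 0 θ a b) {q : M} {W : Finset ℤ}
    (hW : ∀ l ∉ W, C.t ((C.g ^ (l * N : ℤ)) q) ∉ Icc a b) (i : C.I) :
    C.perO N θ i q = ∑ l ∈ W, C.shf (l * N) θ i q := by
  refine finsum_eq_sum_of_support_subset _ fun l hl => ?_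
  by_contra hn
  exact hl (h _ _ (hW l hn))

theorem pd_perF (N : ℕ) (E : C.I → M → ℂ) : C.Pd N (C.perF N E) := by
  funext i p
  have e : ∀ l : ℤ, C.shf (l * N) E (i.1, i.2 - N) ((C.g ^ (N : ℤ)) p) =
      C.shf ((l + 1) * N) E i p := fun l => by
    have := congrFun (congrFun (shf_add (C := C) N (l * N) E) i) p
    rw [show (l + 1) * N = N + l * N by ring]
    exact this
  change ∏ᶠ l : ℤ, C.shf (l * N) E (i.1, i.2 - N) ((C.g ^ (N : ℤ)) p) =
    ∏ᶠ l : ℤ, C.shf (l * N) E i p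
  simp only [e]
  exact finprod_comp_equiv (f := fun l : ℤ => C.shf (l * N) E i p) (Equiv.addRight 1)

theorem pd_perO (N : ℕ) (θ : C.I → M → C2 →L[ℝ] ℂ) : C.Pd N (C.perO N θ) := by
  funext i p
  have e : ∀ l : ℤ, C.shf (l * N) θ (i.1, i.2 - N) ((C.g ^ (N : ℤ)) p) =
      C.shf ((l + 1) * N) θ i p := fun l => by
    have := congrFun (congrFun (shf_add (C := C) N (l * N) θ) i) p
    rw [show (l + 1) * N = N + l * N by ring]
    exact this
  change ∑ᶠ l : ℤ, C.shf (l * N) θ (i.1, i.2 - N) ((C.g ^ (N : ℤ)) p) =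
    ∑ᶠ l : ℤ, C.shf (l * N) θ i p
  simp only [e]
  exact finsum_comp_equiv (f := fun l : ℤ => C.shf (l * N) θ i p) (Equiv.addRight 1)

theorem SFr.perF (hN : 0 < N) (h : C.SFr E) (hc : C.CS 1 E a b) : C.SFr (C.perF N E) := by
  constructor
  · intro i p hp
    obtain ⟨W, hW⟩ := C.fin_tr hN a b p
    rw [hc.perF_eq hW.self_of_nhds]
    simpa [Finset.prod_apply] using (LN_sfr (N := N) h W).ne i p hp
  · intro i j p hp
    obtain ⟨W, hW⟩ := C.fin_tr hN a b p
    refine ((LN_sfr (N := N) h W).sm i j p hp).congr ?_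
    filter_upwards [hW] with q hq
    simp only [Pi.div_apply, Finset.prod_apply, hc.perF_eq hq]

theorem Con.per (hN : 0 < N) (h : C.SFr E) (hc : C.CS 1 E a b) (hθ : C.Con E θ)
    (hs : C.CS 0 θ a b) : C.Con (C.perF N E) (C.perO N θ) := by
  constructor
  · intro i p hp
    obtain ⟨W, hW⟩ := C.fin_tr hN a b p
    refine ((LN_con (N := N) h hθ W).sm i p hp).congr ?_
    filter_upwards [hW] with q hq
    simp only [Finset.sum_apply, hs.perO_eq hq]
  · intro i j p hp
    obtain ⟨W, hW⟩ := C.fin_tr hN a b p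
    have := (LN_con (N := N) h hθ W).tr i j p hp
    rw [hs.perO_eq hW.self_of_nhds, hs.perO_eq hW.self_of_nhds]
    simp only [Finset.sum_apply] at this
    rw [this]
    refine C.dl_congr ?_
    filter_upwards [hW] with q hq
    simp only [Pi.div_apply, Finset.prod_apply, hc.perF_eq hq]

theorem cv_perO (hN : 0 < N) (hθ : C.Cn θ) (hs : C.CS 0 θ a b) :
    C.cv (C.perO N θ) = perS N (C.cv θ) := by
  funext k
  obtain ⟨W, hW⟩ := LN_unif hN a b (C.R + |(k : ℝ)|)
  have hp : ∀ c, ∀ p ∈ C.U (c, k) (3 / 2), ∀ l ∉ W,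
      C.t ((C.g ^ (l * N : ℤ)) p) ∉ Icc a b := fun c p hp l hl => by
    rw [C.t_gz]
    refine hW _ ?_ l hl
    have h1 : |C.t p + k| ≤ C.R := C.t_ch (i := (c, k)) hp.1
    have h2 := abs_sub (C.t p + k) k
    rw [add_sub_cancel_right] at h2
    linarith
  have e1 : C.cv (C.perO N θ) k = C.cv (∑ l ∈ W, C.shf (l * N) θ) k :=
    cv_congr fun c p h => by simp only [Finset.sum_apply, hs.perO_eq (hp c p h)]
  rw [e1, (LN_cv hθ W).2, Finset.sum_apply, perS,
    finsum_eq_sum_of_support_subset (s := W) _ fun l hl => ?_]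
  · exact Finset.sum_congr rfl fun l _ => by rw [cv_shf]; rfl
  · by_contra hn
    refine hl ?_
    have e2 : C.cv (C.shf (l * N) θ) k = C.cv 0 k :=
      cv_congr fun c p h => hs _ _ (hp c p h l hn)
    rw [cv_shf, LN_cv0] at e2
    exact e2

theorem perF_zpow (hN : 0 < N) (hc : C.CS 1 E a b) (m : ℤ) :
    C.perF N (E ^ m) = C.perF N E ^ m := by
  funext i p
  obtain ⟨W, hW⟩ := C.fin_tr hN a b p
  have hc' : C.CS 1 (E ^ m) a b := fun i p h => by
    simp only [Pi.pow_apply, hc i p h, one_zpow]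
  simp only [Pi.pow_apply]
  rw [hc'.perF_eq hW.self_of_nhds, hc.perF_eq hW.self_of_nhds, ← Finset.prod_zpow]
  rfl

end Cov

end Vale.Agent.P267
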