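import Vale.Agent.P267L.LO1

/-! P267, lifting part: choosing orthonormal orbits. -/

open scoped Manifold ContDiff Topology ENNReal
open Filter Metric Set MeasureTheory

noncomputable section

namespace Vale.Agent.P267

set_option linter.unusedSectionVars false

variable {M : Type} [TopologicalSpace M] [ChartedSpace C2 M] [T2Space M]

variable {V : Type} [AddCommGroup V] {B : V →+ V →+ ℂ} {x y : ℤ → V} {N : ℕ}

/-- The coordinates of the periodised translates in a lattice. -/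
def Coo (B : V →+ V →+ ℂ) (κ : V) {m : ℕ} (X : Fin m → ℤ → V) (N : ℕ) {m' : ℕ}
    (γ : Fin m × ℤ → Fin m' → ℤ) : Prop :=
  (∀ w w', pp B N (perS N (shS w.2 (X w.1))) (perS N (shS w'.2 (X w'.1))) =
    -((∑ j, γ w j * γ w' j : ℤ) : ℂ)) ∧
  ∀ w, pp B N (perS N (shS w.2 (X w.1))) (fun _ => κ) = -((∑ j, γ w j : ℤ) : ℂ)

variable {κ : V} {m : ℕ} {X : Fin m → ℤ → V}

theorem LO2_zero (x : ℤ → V) : shS 0 x = x := by
  funext l
  simp [shS]

theorem LO2_red (k k' : ℤ) (x y : ℤ → V) :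
    jp B (shS k x) (shS k' y) = jp B x (shS (k' - k) y) := by
  rw [← jp_shS k x, shS_shS, add_sub_cancel]

theorem LO2_const (k : ℤ) (x : ℤ → V) :
    jp B (shS k x) (fun _ => κ) = jp B x (fun _ => κ) := jp_shS k x (fun _ => κ)

theorem LO2_int {a : ℤ} (h : (-1 : ℂ) = -((a : ℤ) : ℂ)) : a = 1 := by
  have := neg_injective h
  exact_mod_cast this.symm

theorem LO2_dot {m' : ℕ} (a b : Fin m') :
    ∑ j, (Pi.single a 1 : Fin m' → ℤ) j * (Pi.single b 1 : Fin m' → ℤ) j =
      if a = b then 1 else 0 := by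
  simp [Pi.single_apply, eq_comm]

theorem LO2_fin (hX : ∀ j, (Function.support (X j)).Finite)
    (h : ∀ N, 0 < N → ∃ (m' : ℕ) (γ : Fin m × ℤ → Fin m' → ℤ), Coo B κ X N γ)
    (h1 : ∀ j, jp B (X j) (X j) = -1) (h2 : ∀ j, jp B (X j) (fun _ => κ) = -1)
    (S : Finset (Fin m × ℤ)) : ∃ (m' : ℕ) (γ : Fin m × ℤ → Fin m' → ℤ), ∀ w ∈ S, ∀ w' ∈ S,
      jp B (shS w.2 (X w.1)) (shS w'.2 (X w'.1)) = if γ w = γ w' then -1 else 0 := by
  have e : ∀ᶠ N : ℕ in atTop, ∀ w ∈ S, ∀ w' ∈ S,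
      pp B N (perS N (shS w.2 (X w.1))) (perS N (shS w'.2 (X w'.1))) =
        jp B (shS w.2 (X w.1)) (shS w'.2 (X w'.1)) :=
    (eventually_all_finset S).2 fun w _ => (eventually_all_finset S).2 fun w' _ =>
      pp_large (shS_fin (hX _) _) (shS_fin (hX _) _)
  obtain ⟨N, hN, hN0⟩ := (e.and (eventually_gt_atTop 0)).exists
  obtain ⟨m', γ, c1, c2⟩ := h N hN0
  have u : ∀ w ∈ S, ∃ j, γ w = Pi.single j 1 := by
    intro w hw
    refine unit_vec (LO2_int ?_) (LO2_int ?_)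
    · rw [← c1, hN w hw w hw, jp_shS, h1]
    · rw [← c2, pp_fold hN0 (shS_fin (hX _) _) (fun _ => rfl), LO2_const, h2]
  refine ⟨m', γ, fun w hw w' hw' => ?_⟩
  obtain ⟨a, ha⟩ := u w hw
  obtain ⟨b, hb⟩ := u w' hw'
  rw [← hN w hw w' hw', c1, ha, hb, LO2_dot]
  by_cases e : a = b
  · simp [e]
  · have : (Pi.single a 1 : Fin m' → ℤ) ≠ Pi.single b 1 := fun e' => by
      simpa [e] using congrFun e' a
    simp [e, this]

/-- The pairings take the values `0` and `-1`, and the value `-1` is a transitive relation. -/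
theorem jp_val (hX : ∀ j, (Function.support (X j)).Finite)
    (h : ∀ N, 0 < N → ∃ (m' : ℕ) (γ : Fin m × ℤ → Fin m' → ℤ), Coo B κ X N γ)
    (h1 : ∀ j, jp B (X j) (X j) = -1) (h2 : ∀ j, jp B (X j) (fun _ => κ) = -1) :
    (∀ w w' : Fin m × ℤ, jp B (shS w.2 (X w.1)) (shS w'.2 (X w'.1)) = 0 ∨
      jp B (shS w.2 (X w.1)) (shS w'.2 (X w'.1)) = -1) ∧
    (∀ w w' w'' : Fin m × ℤ, jp B (shS w.2 (X w.1)) (shS w'.2 (X w'.1)) = -1 →
      jp B (shS w'.2 (X w'.1)) (shS w''.2 (X w''.1)) = -1 →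
      jp B (shS w.2 (X w.1)) (shS w''.2 (X w''.1)) = -1) ∧
    ∀ j (k : ℤ), k ≠ 0 → jp B (X j) (shS k (X j)) = 0 := by
  have t1 : ∀ w w' : Fin m × ℤ, jp B (shS w.2 (X w.1)) (shS w'.2 (X w'.1)) = 0 ∨
      jp B (shS w.2 (X w.1)) (shS w'.2 (X w'.1)) = -1 := by
    intro w w'
    obtain ⟨m', γ, e⟩ := LO2_fin hX h h1 h2 {w, w'}
    rw [e w (by simp) w' (by simp)]
    split_ifs <;> simp
  have t2 : ∀ w w' w'' : Fin m × ℤ, jp B (shS w.2 (X w.1)) (shS w'.2 (X w'.1)) = -1 →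
      jp B (shS w'.2 (X w'.1)) (shS w''.2 (X w''.1)) = -1 →
      jp B (shS w.2 (X w.1)) (shS w''.2 (X w''.1)) = -1 := by
    intro w w' w'' a b
    obtain ⟨m', γ, e⟩ := LO2_fin hX h h1 h2 {w, w', w''}
    rw [e w (by simp) w' (by simp)] at a
    rw [e w' (by simp) w'' (by simp)] at b
    have a' : γ w = γ w' := by
      by_contra c
      simp [c] at a
    have b' : γ w' = γ w'' := by
      by_contra c
      simp [c] at b
    rw [e w (by simp) w'' (by simp), if_pos (a'.trans b')]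
  refine ⟨t1, t2, fun j k hk => ?_⟩
  have t3 := t1 (j, 0) (j, k)
  rw [LO2_red, sub_zero] at t3
  refine t3.resolve_right fun c => ?_
  have t4 : ∀ n : ℕ, jp B (shS 0 (X j)) (shS (n * k) (X j)) = -1 := by
    intro n
    induction n with
    | zero => rw [Nat.cast_zero, zero_mul, jp_shS, h1]
    | succ n ih =>
      refine t2 (j, 0) (j, n * k) (j, (n + 1 : ℕ) * k) ih ?_
      rw [LO2_red, ← c]
      congr 2
      push_cast
      ring
  obtain ⟨T, hT⟩ := jp_far (B := B) (hX j) (hX j)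
  have t5 := t4 T.natAbs
  rw [LO2_zero, hT] at t5
  · simp at t5
  · have b1 : 1 ≤ |k| := Int.one_le_abs hk
    have b2 : T ≤ |T| := le_abs_self T
    rw [abs_mul, Int.natCast_natAbs, abs_abs]
    nlinarith [abs_nonneg T]

theorem greedy {n : ℕ} {r : Fin m → Fin m → Prop} (hs : ∀ a b, r a b → r b a) (hN : 0 < N)
    (hm : m = n * N) (hr : ∀ a, ∃ W : Finset (Fin m), W.card ≤ N ∧ a ∈ W ∧ ∀ b, r a b → b ∈ W) :
    ∃ σ : Fin n → Fin m, ∀ a b, a ≠ b → ¬ r (σ a) (σ b) := by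
  classical
  choose W w1 _ w3 using hr
  have key : ∀ k ≤ n, ∃ σ : Fin k → Fin m, ∀ a b, a ≠ b → ¬ r (σ a) (σ b) := by
    intro k
    induction k with
    | zero => exact fun _ => ⟨Fin.elim0, fun a => a.elim0⟩
    | succ k ih =>
      intro hk
      obtain ⟨σ, hσ⟩ := ih (Nat.le_of_succ_le hk)
      have c : (Finset.univ.biUnion fun a => W (σ a)).card <
          (Finset.univ : Finset (Fin m)).card := by
        have := Finset.card_biUnion_le_card_mul Finset.univ (fun a => W (σ a)) N fun a _ => w1 _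
        simp only [Finset.card_univ, Fintype.card_fin] at this ⊢
        have : k * N < n * N := Nat.mul_lt_mul_of_pos_right hk hN
        omega
      obtain ⟨c, -, hc⟩ := Finset.exists_mem_notMem_of_card_lt_card c
      have hc' : ∀ a, ¬ r (σ a) c := fun a e =>
        hc (Finset.mem_biUnion.2 ⟨a, Finset.mem_univ _, w3 _ _ e⟩)
      refine ⟨Fin.cons c σ, fun a b hab => ?_⟩
      induction a using Fin.cases with
      | zero =>
        induction b using Fin.cases with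
        | zero => exact absurd rfl hab
        | succ b => exact fun e => hc' b (hs _ _ e)
      | succ a =>
        induction b using Fin.cases with
        | zero => exact hc' a
        | succ b => exact hσ a b fun e => hab (congrArg _ e)
  exact key n le_rfl

theorem LO2_ne {f : ℤ → ℂ} (hf : (Function.support f).Finite) (h : ∀ l, f l = 0 ∨ f l = -1)
    (h0 : f 0 = -1) : ∑ᶠ l, f l ≠ 0 := by
  rw [finsum_eq_sum f hf, Finset.sum_congr rfl (g := fun _ => (-1 : ℂ))
    fun l hl => (h l).resolve_left (by simpa using hl)]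
  have : hf.toFinset.card ≠ 0 := Finset.card_ne_zero.2 ⟨0, by simp [h0]⟩
  simpa using this

theorem select (hB : ∀ u v, B u v = B v u) (hX : ∀ j, (Function.support (X j)).Finite)
    (h : ∀ N, 0 < N → ∃ (m' : ℕ) (γ : Fin m × ℤ → Fin m' → ℤ), Coo B κ X N γ)
    (h1 : ∀ j, jp B (X j) (X j) = -1) {n : ℕ} (hN : 0 < N) (hm : m = n * N)
    {γ : Fin m × ℤ → Fin m → ℤ} (hγ : Coo B κ X N γ) (hb : ∀ j, γ (j, 0) = Pi.single j 1) :
    (∀ j, jp B (X j) (fun _ => κ) = -1) ∧ ∃ σ : Fin n → Fin m, ∀ w w' : Fin n × ℤ,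
      jp B (shS w.2 (X (σ w.1))) (shS w'.2 (X (σ w'.1))) = if w = w' then -1 else 0 := by
  classical
  have h2 : ∀ j, jp B (X j) (fun _ => κ) = -1 := by
    intro j
    have := hγ.2 (j, 0)
    rw [pp_fold hN (shS_fin (hX _) _) (fun _ => rfl), LO2_const, hb] at this
    simpa using this
  obtain ⟨t1, -, t3⟩ := jp_val hX h h1 h2
  have u : ∀ w : Fin m × ℤ, ∃ j, γ w = Pi.single j 1 := by
    intro w
    refine unit_vec (LO2_int ?_) (LO2_int ?_)
    · have := hγ.1 (w.1, 0) (w.1, 0)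
      rw [pp_shS hN (hX _) (hX _), hb, LO2_dot] at this
      rw [← hγ.1, pp_shS hN (hX _) (hX _), this]
      simp
    · rw [← hγ.2, pp_fold hN (shS_fin (hX _) _) (fun _ => rfl), LO2_const, h2]
  choose u hu using u
  have e1 : ∀ a k b, pp B N (perS N (shS k (X a))) (perS N (shS 0 (X b))) =
      if u (a, k) = b then -1 else 0 := by
    intro a k b
    rw [hγ.1 (a, k) (b, 0), hu, hb, LO2_dot]
    split_ifs <;> simp
  have e2 : ∀ a k b, pp B N (perS N (shS k (X a))) (perS N (shS 0 (X b))) ≠ 0 → u (a, k) = b := by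
    intro a k b c
    by_contra c'
    exact c (by rw [e1, if_neg c'])
  obtain ⟨σ, hσ⟩ := greedy (n := n) (r := fun a b => ∃ k, jp B (shS k (X a)) (X b) = -1)
    (fun a b ⟨k, hk⟩ => ⟨-k, by
      rw [jp_comm hB, ← hk, ← zero_sub, ← LO2_red, LO2_zero]⟩) hN hm fun a => by
    refine ⟨(Finset.range N).image fun k : ℕ => u (a, k),
      Finset.card_image_le.trans (Finset.card_range N).le, Finset.mem_image.2
        ⟨0, Finset.mem_range.2 hN, e2 a 0 a ?_⟩, fun b ⟨k, hk⟩ => ?_⟩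
    · rw [hγ.1 (a, 0) (a, 0), hb, LO2_dot]
      simp
    · have hN' : (0 : ℤ) < N := by exact_mod_cast hN
      have n0 : 0 ≤ k % N := Int.emod_nonneg _ hN'.ne'
      have n1 : k % N < N := Int.emod_lt_of_pos _ hN'
      refine Finset.mem_image.2 ⟨(k % N).toNat, Finset.mem_range.2 (by omega), e2 _ _ _ ?_⟩
      rw [Int.toNat_of_nonneg n0, ← perS_shS (X a) (k % N) (k / N), Int.emod_add_ediv_mul,
        pp_per hN (shS_fin (hX _) _) (shS_fin (hX _) _)]
      refine LO2_ne ?_ (fun l => ?_) (by rw [zero_mul, LO2_zero, LO2_zero, hk])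
      · obtain ⟨T, hT⟩ := jp_far (B := B) (shS_fin (hX a) k) (shS_fin (hX b) 0)
        refine (finite_Ioo (-T) T).subset fun l hl => ?_
        have c : |l * N| < T := lt_of_not_ge fun c => hl (hT _ c)
        rw [abs_mul, abs_of_pos hN'] at c
        rw [mem_Ioo, ← abs_lt]
        nlinarith [abs_nonneg l]
      · rw [LO2_zero]
        exact t1 (a, k) (b, l * N)
  refine ⟨h2, σ, fun ⟨a, k⟩ ⟨b, k'⟩ => ?_⟩
  by_cases hab : a = b
  · subst hab
    by_cases hk : k = k'
    · subst hk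
      rw [if_pos rfl, jp_shS, h1]
    · rw [if_neg (by simpa using hk), LO2_red]
      exact t3 _ _ (sub_ne_zero.2 (Ne.symm hk))
  · rw [if_neg (by simp [hab])]
    refine (t1 (σ a, k) (σ b, k')).resolve_right fun c => hσ a b hab ⟨k - k', ?_⟩
    rw [← c, jp_comm hB, jp_comm hB (shS k _), LO2_red]

end Vale.Agent.P267
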