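import Vale.Agent.P267L.LQ1

/-! P267, lifting part: the bundles on the cover and their Euler characteristics. -/

open scoped Manifold ContDiff Topology ENNReal
open Filter Metric Set MeasureTheory

noncomputable section

namespace Vale.Agent.P267

set_option linter.unusedSectionVars false

variable {M : Type} [TopologicalSpace M] [ChartedSpace C2 M] [T2Space M]

namespace Cov
variable {C : Cov M} {k : M → M → ℂ} {n : ℕ} {E : Fin n → C.I → M → ℂ} {a b : ℝ}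

open Classical in
/-- The bundle given by compactly supported frames. -/
def cb (C : Cov M) (E : C.I → M → ℂ) (a b : ℝ) : M → M → ℂ :=
  fun p => if C.t p ∈ Icc a b then E (C.idx p) else 1

theorem cb_germ {E : C.I → M → ℂ} (hc : C.CS 1 E a b) (p : M) :
    C.cb E a b p =ᶠ[𝓝 p] E (C.idx p) := by
  by_cases h : C.t p ∈ Icc a b
  · rw [cb, if_pos h]
  · rw [cb, if_neg h]
    filter_upwards [(isClosed_Icc.preimage C.continuous_t).isOpen_compl.mem_nhds h] with q hq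
    exact (hc _ q hq).symm

theorem LQ2_mem (C : Cov M) (p : M) : p ∈ C.U (C.idx p) (3 / 2) :=
  C.U_mono _ (by norm_num) (C.mem_U_idx p)

theorem cb_bundle {E : C.I → M → ℂ} (hE : C.SFr E) (hc : C.CS 1 E a b) :
    IsBundle SmAt (C.cb E a b) := by
  intro p
  filter_upwards [(cb_germ hc p).eventually_nhds, (C.isOpen_U _ _).mem_nhds (C.LQ2_mem p)]
    with q h1 h2
  have h3 : C.cb E a b p =ᶠ[𝓝 q] E (C.idx p) := h1
  refine ⟨h3.self_of_nhds.trans_ne (hE.ne _ q h2), ?_⟩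
  exact (hE.sm _ _ q ⟨h2, C.LQ2_mem q⟩).congr (h3.div (cb_germ hc q)).symm

theorem cb_metric {E : C.I → M → ℂ} (hc : C.CS 1 E a b)
    (hm : ∀ i, ∀ p ∈ C.U i (3 / 2), SmAt (fun q => (‖E i q‖ : ℂ)) p) (p : M) :
    SmAt (fun q => (‖C.cb E a b p q‖ : ℂ)) p := by
  refine (hm _ p (C.LQ2_mem p)).congr ?_
  filter_upwards [cb_germ hc p] with q hq
  rw [hq]

theorem cb_triv (E : C.I → M → ℂ) {p : M} (hp : p ∉ C.t ⁻¹' Icc a b) : C.cb E a b p = 1 :=
  if_neg hp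

theorem LQ2_germ {E : C.I → M → ℂ} (hc : C.CS 1 E a b) {N : ℕ} (hN : 0 < N) (m : ℤ) (p : M) :
    (∏ᶠ l : ℤ, pull (C.g ^ (l * N) : M ≃ₜ M) (C.cb E a b) p ^ m) =ᶠ[𝓝 p]
      (C.perF N E ^ m) (C.idx p) := by
  obtain ⟨W, hW⟩ := C.fin_tr hN a b p
  have e : (∏ᶠ l : ℤ, pull (C.g ^ (l * N) : M ≃ₜ M) (C.cb E a b) p ^ m) =
      ∏ l ∈ W, pull (C.g ^ (l * N) : M ≃ₜ M) (C.cb E a b) p ^ m := by
    refine finprod_eq_prod_of_mulSupport_subset _ fun l hl => ?_
    by_contra h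
    refine hl (funext fun q => ?_)
    have h1 := cb_triv (C := C) E (hW.self_of_nhds l h)
    simp only [pull, h1, Pi.pow_apply, Pi.one_apply, one_zpow]
  have h2 : ∀ᶠ q in 𝓝 p, ∀ l ∈ W, pull (C.g ^ (l * N) : M ≃ₜ M) (C.cb E a b) p q =
      C.shf (l * N) E (C.idx p) q := by
    refine (eventually_all_finset W).2 fun l _ => ?_
    have h3 := cb_germ hc ((C.g ^ (l * N : ℤ)) p)
    rw [C.idx_gz] at h3
    exact ((C.g ^ (l * N : ℤ)).continuous.tendsto p).eventually h3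
  filter_upwards [hW, h2] with q g1 g2
  rw [e, Finset.prod_apply, Pi.pow_apply, Pi.pow_apply, hc.perF_eq g1, ← Finset.prod_zpow]
  exact Finset.prod_congr rfl fun l hl => by rw [Pi.pow_apply, g2 l hl]

theorem cb_euler (h : C.AllLat k n) {E : C.I → M → ℂ} (hE : C.SFr E) (hc : C.CS 1 E a b)
    (h1 : jp C.bH (C.cv (C.can E)) (C.cv (C.can E)) = -1)
    (h2 : jp C.bH (C.cv (C.can E)) (fun _ => C.cv (C.can C.kf) 0) = -1) (m : ℤ) :
    ∀ᶠ N : ℕ in atTop, ∀ u : M → M → ℂ, IsBundle HolAt u →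
      pull (C.g ^ N : M ≃ₜ M) u = u →
      (∀ p, SmAt (u p / ∏ᶠ l : ℤ, pull (C.g ^ (l * N) : M ≃ₜ M) (C.cb E a b) p ^ m) p) →
      Euler (C.g ^ N : M ≃ₜ M) u k ((m - m ^ 2) / 2) := by
  filter_upwards [unit_cs (k := k) hE hc h1 h2, eventually_gt_atTop 0] with N hU hN u hu hp hs
  obtain ⟨Φ, c, hL⟩ := h N hN
  obtain ⟨j, hj⟩ := hU _ Φ c hL
  have hF := hE.perF hN hc
  have hP : C.Pd N (C.perF N E ^ m) := congrArg (· ^ m) (pd_perF N E)
  have key := hL.rr u (C.perF N E ^ m) hu hp (hF.zpow m) hP fun p =>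
    (hs p).congr ((EventuallyEq.refl _ (u p)).div (LQ2_germ hc hN m p))
  rw [hL.zpow hF (pd_perF N E), hj] at key
  have e1 : ∑ i, (m • Pi.single j 1 : Fin (n * N) → ℤ) i = m := by
    simp [Pi.single_apply]
  have e2 : ∑ i, (m • Pi.single j 1 : Fin (n * N) → ℤ) i *
      (m • Pi.single j 1 : Fin (n * N) → ℤ) i = m ^ 2 := by
    simp [Pi.single_apply, sq]
  rwa [e1, e2, neg_add_eq_sub] at key

end Cov

end Vale.Agent.P267
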