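import Vale.Agent.P267L.LQ2

/-! P267, lifting part: independence of the translates. -/

open scoped Manifold ContDiff Topology ENNReal
open Filter Metric Set MeasureTheory

noncomputable section

namespace Vale.Agent.P267

set_option linter.unusedSectionVars false

variable {M : Type} [TopologicalSpace M] [ChartedSpace C2 M] [T2Space M]

namespace Cov
variable {C : Cov M} {k : M → M → ℂ} {n : ℕ} {E : Fin n → C.I → M → ℂ} {a b : ℝ}


theorem LQ3_prod {ι : Type} {F : ι → C.I → M → ℂ} {θ : ι → C.I → M → C2 →L[ℝ] ℂ}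
    (hF : ∀ w, C.SFr (F w)) (hθ : ∀ w, C.Con (F w) (θ w))
    (hc : ∀ w, ∃ a b, C.CS 1 (F w) a b ∧ C.CS 0 (θ w) a b) (e : ι → ℤ) (W : Finset ι) :
    ∃ a b, C.SFr (∏ w ∈ W, F w ^ e w) ∧ C.Con (∏ w ∈ W, F w ^ e w) (∑ w ∈ W, (e w : ℂ) • θ w) ∧
      C.CS 1 (∏ w ∈ W, F w ^ e w) a b ∧ C.CS 0 (∑ w ∈ W, (e w : ℂ) • θ w) a b ∧
      C.cv (∑ w ∈ W, (e w : ℂ) • θ w) = ∑ w ∈ W, e w • C.cv (θ w) := by
  classical
  induction W using Finset.induction_on with
  | empty =>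
    simp only [Finset.prod_empty, Finset.sum_empty]
    refine ⟨0, 0, sFr_one, con_one, fun _ _ _ => rfl, fun _ _ _ => rfl, ?_⟩
    have h := (con_one (C := C)).sm.cv_add (con_one (C := C)).sm
    rw [add_zero] at h
    exact left_eq_add.1 h
  | insert w W hw ih =>
    obtain ⟨a, b, h1, h2, h3, h4, h5⟩ := ih
    obtain ⟨a', b', h6, h7⟩ := hc w
    have k1 := (hθ w).zpow (hF w) (e w)
    simp only [Finset.prod_insert hw, Finset.sum_insert hw]
    refine ⟨min a a', max b b', ((hF w).zpow _).mul h1, Con.mul ((hF w).zpow _) h1 k1 h2,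
      fun i p hp => ?_, fun i p hp => ?_, ?_⟩
    · rw [Pi.mul_apply, Pi.mul_apply, h3.mono (min_le_left _ _) (le_max_left _ _) i p hp,
        Pi.pow_apply, Pi.pow_apply, h6.mono (min_le_right _ _) (le_max_right _ _) i p hp,
        one_zpow, mul_one]
    · rw [Pi.add_apply, Pi.add_apply, h4.mono (min_le_left _ _) (le_max_left _ _) i p hp,
        Pi.smul_apply, Pi.smul_apply, h7.mono (min_le_right _ _) (le_max_right _ _) i p hp]
      ext v
      simp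
    · rw [k1.sm.cv_add h2.sm, (hθ w).sm.cv_smul, h5]

theorem LQ3_loc {θ θ' : C.I → M → C2 →L[ℝ] ℂ} (h : C.Cn θ) (h' : C.Cn θ') (hs : C.CS 0 θ' a b)
    (h0 : ∀ (i : C.I) (z : K1), (C.ch i).symm z ∈ C.t ⁻¹' Icc a b → C.Om θ i z = 0) :
    jp C.bH (C.cv θ) (C.cv θ') = 0 := by
  refine finsum_eq_zero_of_forall_eq_zero fun l => C.bb_loc fun x z => ?_
  by_cases hz : (C.ch (x, l)).symm z ∈ C.t ⁻¹' Icc a b
  · exact Or.inl ((h.cv_apply l x z).trans (funext₂ fun u v => congrFun₂ (h0 _ z hz) u v))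
  · refine Or.inr ((h'.cv_apply l x z).trans (Om_zero ?_ ?_))
    · exact (mem_closedBall_zero_iff.1 z.2).trans_lt (by norm_num)
    · filter_upwards [(isClosed_Icc.preimage C.continuous_t).isOpen_compl.mem_nhds hz] with q hq
      exact hs _ q hq

theorem cb_indep {n' : ℕ} (h : C.AllLat k n') (hE : ∀ i, C.SFr (E i))
    (hc : ∀ i, C.CS 1 (E i) a b)
    (ho : ∀ w w' : Fin n × ℤ, jp C.bH (shS w.2 (C.cv (C.can (E w.1))))
      (shS w'.2 (C.cv (C.can (E w'.1)))) = if w = w' then -1 else 0)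
    (W : Finset (Fin n × ℤ)) (e : Fin n × ℤ → ℤ) (U : Set M) (hU : IsOpen U)
    (hS : ∀ w ∈ W, (C.g ^ w.2 : M ≃ₜ M) ⁻¹' (C.t ⁻¹' Icc a b) ⊆ U)
    (hT : TrivialOn (∏ w ∈ W, pull (C.g ^ w.2 : M ≃ₜ M) (C.cb (E w.1) a b) ^ e w) U) :
    ∀ w ∈ W, e w = 0 := by

  classical
  intro w₀ hw₀
  have hF := fun w : Fin n × ℤ => (hE w.1).shf w.2
  have hθ := fun w : Fin n × ℤ => (hE w.1).can.shf w.2
  have c1 := fun w : Fin n × ℤ => (hc w.1).shf w.2
  have c2 := fun w : Fin n × ℤ => (hc w.1).can.shf w.2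
  obtain ⟨a', b', h1, h2, h3, h4, h5⟩ := LQ3_prod hF hθ (fun w => ⟨_, _, c1 w, c2 w⟩) e W
  obtain ⟨σ, hσ⟩ := hT
  obtain ⟨θ', a'', b'', k1, k2, k3, k4, k5⟩ := flat h1 h2 h4
    (C.isCompact_t (a - w₀.2) (b - w₀.2)) hU (σ := σ) (fun p hp => hS w₀ hw₀ (by
      simp only [mem_preimage, C.t_gz, mem_Icc] at hp ⊢
      constructor <;> linarith [hp.1, hp.2])) fun p hp => by
    refine ⟨(hσ p hp).1, (hσ p hp).2.congr ?_⟩
    have e1 : ∀ᶠ q in 𝓝 p, ∀ w ∈ W, C.cb (E w.1) a b ((C.g ^ w.2) p) ((C.g ^ w.2) q) =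
        C.shf w.2 (E w.1) (C.idx p) q := (eventually_all_finset W).2 fun w _ => by
      filter_upwards [(C.g ^ w.2).continuous.continuousAt.eventually
        (cb_germ (hc w.1) ((C.g ^ w.2) p))] with q hq
      rw [hq, C.idx_gz]
      rfl
    filter_upwards [e1] with q hq
    simp only [Pi.mul_apply, Finset.prod_apply, Pi.pow_apply, pull]
    rw [Finset.prod_congr rfl fun w hw => by rw [hq w hw]]
  have e2 := h.jp_eq h1 (h3.mono k1 k2) h2 (h4.mono k1 k2) k3 k4 (hF w₀) (c1 w₀) (hθ w₀) (c2 w₀)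
  rw [LQ3_loc k3.sm (hθ w₀).sm (c2 w₀) k5, h5, jp_sum W e fun w _ => (c2 w).cv] at e2
  simp only [cv_shf, ho] at e2
  simpa [hw₀] using e2

end Cov

end Vale.Agent.P267
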