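import Vale.Agent.P267L.LQ1
import Vale.Agent.P267L.LH
import Vale.Agent.P267L.LI
import Vale.Agent.P267L.LK3
import Vale.Agent.P267L.LM

/-! P267, lifting part: localising the classes. -/

open scoped Manifold ContDiff Topology ENNReal
open Filter Metric Set MeasureTheory

noncomputable section

namespace Vale.Agent.P267

set_option linter.unusedSectionVars false

variable {M : Type} [TopologicalSpace M] [ChartedSpace C2 M] [T2Space M]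

theorem Cov.LR_mono {C : Cov M} {F : C.I → M → ℂ} {r r' : ℝ} {a b a' b' : ℤ} {ε ε' : ℝ}
    (h : C.Uni F r a b ε) (hr : r' ≤ r) (ha : a ≤ a') (hb : b' ≤ b) (he : ε ≤ ε') :
    C.Uni F r' a' b' ε' := by
  intro i j hi hj p hp
  obtain ⟨h1, h2, h3⟩ := h i j ⟨ha.trans hi.1, hi.2.trans hb⟩ ⟨ha.trans hj.1, hj.2.trans hb⟩ p
    ⟨⟨hp.1.1, hp.1.2.trans_le hr⟩, ⟨hp.2.1, hp.2.2.trans_le hr⟩⟩
  exact ⟨h1, h2, h3.trans he⟩

theorem LR_single {m : ℕ} (j : Fin m) :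
    (∑ l, (Pi.single j 1 : Fin m → ℤ) l * (Pi.single j 1 : Fin m → ℤ) l) = 1 := by
  rw [Finset.sum_eq_single j]
  · simp
  · intro l _ hl
    simp [hl]
  · simp

theorem Cov.LR_div {C : Cov M} {F G : C.I → M → ℂ} {N : ℕ} (h : C.Pd N F) (h' : C.Pd N G) :
    C.Pd N (F / G) := by
  have e : C.shf N (F / G) = C.shf N F / C.shf N G := rfl
  unfold Cov.Pd at *
  rw [e, h, h']

theorem Cov.localise {C : Cov M} {k : M → M → ℂ} {n : ℕ} (h : C.AllLat k n) (hE : C.Erg) :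
    ∃ (N : ℕ) (Φ : Fin (n * N) → C.I → M → ℂ) (c : (C.I → M → ℂ) → Fin (n * N) → ℤ),
      0 < N ∧ C.Lat k N Φ c ∧ ∀ j, ∃ (E : C.I → M → ℂ) (a b : ℝ), C.Cut N c j E a b := by
  obtain ⟨c0, N0, hc0, hE⟩ := hE
  obtain ⟨η, hη, hη8, hT⟩ := C.glu_sq
  obtain ⟨w, hw, hw3⟩ : ∃ w : ℕ, 2 * C.R + 2 ≤ w ∧ 3 ≤ w := by
    refine ⟨⌈2 * C.R + 2⌉₊ + 3, ?_, by omega⟩
    have := Nat.le_ceil (2 * C.R + 2)
    push_cast
    linarith
  obtain ⟨T, hnet⟩ := C.net hη w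
  obtain ⟨ε₀, hε₀, hε₀2, hsq⟩ := hT T
  obtain ⟨K, D, hK, hnorm⟩ := C.normalL
  obtain ⟨C₀, hC₀, hen⟩ := C.energy hc0
  obtain ⟨A, hA, hKA⟩ : ∃ A : ℝ, 0 < A ∧ K * A ≤ ε₀ := by
    refine ⟨ε₀ / (K + 1), by positivity, ?_⟩
    rw [← mul_div_assoc, div_le_iff₀ (by positivity)]
    nlinarith
  obtain ⟨W, hW⟩ : ∃ W : ℕ, W = T + 2 * w + 2 * D + 1 := ⟨_, rfl⟩
  obtain ⟨N, hN0, hN2, hNW, hNd⟩ : ∃ N : ℕ, N0 ≤ N ∧ 2 < N ∧ (C₀ / A ^ 2 + 1) * W ≤ N ∧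
      ∀ P, 0 < P → P ≤ T → P ∣ N := by
    have h1 : N0 + ⌈(C₀ / A ^ 2 + 1) * W⌉₊ + 3 ≤
        T.factorial * (N0 + ⌈(C₀ / A ^ 2 + 1) * W⌉₊ + 3) :=
      Nat.le_mul_of_pos_left _ (Nat.factorial_pos T)
    refine ⟨T.factorial * (N0 + ⌈(C₀ / A ^ 2 + 1) * W⌉₊ + 3), by omega, by omega, ?_, ?_⟩
    · refine (Nat.le_ceil _).trans ?_
      exact_mod_cast (by omega)
    · intro P h1 h2
      exact (Nat.dvd_factorial h1 h2).mul_right _
  have hN : 0 < N := by omega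
  obtain ⟨Φ, c, hL⟩ := h N hN
  refine ⟨N, Φ, c, hN, hL, fun j => ?_⟩
  obtain ⟨F1, h1, h1p, h1s, h1b⟩ := hE N hN0 hN (Φ j) (hL.hol j) (hL.per j)
  have s0 : C.SFr (Φ j) := (hL.hol j).sFr (by norm_num)
  have s1 : C.SFr F1 := h1.sFr (by norm_num)
  have c1 : c F1 = Pi.single j 1 := by
    rw [← hL.basis j]
    exact hL.equiv s0 (hL.per j) s1 h1p fun i p hp => h1s i p ⟨hp.1, hp.2.trans (by norm_num)⟩
  have hch := h1.chern (by norm_num)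
  have e1 : C.pr N (C.cv (C.chern F1)) (C.cv (C.chern F1)) = -1 := by
    rw [hL.pair F1 F1 _ _ s1 h1p s1 h1p hch h1p.chern hch h1p.chern, c1, LR_single]
    simp
  obtain ⟨k1, hk1⟩ := stretch (e := C.en F1) (W := W) (Cov.en_nonneg F1) (hen N hN F1 h1 h1b e1)
    (by positivity : 0 < A ^ 2) (by omega) hNW
  obtain ⟨F2, h2, h2p, h2s, h2u⟩ := hnorm N hN F1 h1 h1p
  have hu : C.Uni F2 (9 / 4) (k1 + D + w - w) (k1 + D + w + T + w) (K * A) := by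
    refine h2u _ _ A hA.le ?_
    have : Finset.Icc (k1 + D + w - w - D) (k1 + D + w + T + w + D) = Finset.Ico k1 (k1 + W) := by
      ext l
      simp only [Finset.mem_Icc, Finset.mem_Ico, hW]
      push_cast
      omega
    rw [this]
    exact hk1
  obtain ⟨k', P, hP1, hP2, hP3, hcl⟩ := hnet F2 (k1 + D + w)
    (Cov.LR_mono hu le_rfl le_rfl le_rfl (hKA.trans hε₀2))
  have hPT : P ≤ T := by omega
  have hP0 : 0 < P := by omega
  have hu2 : C.Uni F2 2 (k' - P - w) (k' + w) ε₀ :=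
    Cov.LR_mono hu (by norm_num) (by omega) (by omega) hKA
  have s2 : C.SFr F2 := h2.sFr (by norm_num)
  have c2 : c F2 = Pi.single j 1 := by
    rw [← c1]
    exact hL.equiv s1 h1p s2 h2p fun i p hp =>
      (h2s i p ⟨hp.1, hp.2.trans (by norm_num)⟩).smAt
  have sG : C.SFr (C.glu F2 k' P) := Cov.sFr_glu hw hP1 hu2 hε₀2 hcl hη8
  have pG : C.Pd P (C.glu F2 k' P) := Cov.pd_glu F2 k' hP0
  obtain ⟨Φ', c', hL'⟩ := h P hP0
  have cG : c (C.glu F2 k' P) = 0 :=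
    hL.small hL' (hNd P hP0 hPT) sG pG (hsq F2 k' P w hw hP1 hPT hu2 hcl)
  have pG' : C.Pd N (C.glu F2 k' P) := pG.dvd (hNd P hP0 hPT)
  have sQ : C.SFr (F2 / C.glu F2 k' P) := s2.div sG
  have pQ : C.Pd N (F2 / C.glu F2 k' P) := Cov.LR_div h2p pG'
  have cQ : c (F2 / C.glu F2 k' P) = Pi.single j 1 := by
    rw [hL.div s2 h2p sG pG', c2, cG, sub_zero]
  obtain ⟨E, hE1, hE2, hE3, hE4⟩ := Cov.cut_open (a := -(k' : ℝ) + 1) hN2 sQ pQ (by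
    intro i l x hx hx1 hx2
    have hP' : (3 : ℝ) ≤ P := by exact_mod_cast (hw3.trans hP1)
    have e := Cov.glu_mid hw hP1 hu2 hε₀2 hcl hη8 hx hx1 (by linarith)
    have n1 := s2.ne i x hx.1
    have n2 := s2.ne l x hx.2
    have n3 := sG.ne i x hx.1
    have n4 := sG.ne l x hx.2
    rw [div_eq_div_iff n4 n2] at e
    simp only [Pi.div_apply]
    field_simp
    linear_combination -e)
  refine ⟨E, _, _, hE1, hE2, hE3, ?_, by linarith⟩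
  rw [← cQ]
  refine hL.gauge sQ pQ (hE1.perF hN hE3) (Cov.pd_perF N E) (s := 1) (fun i p _ => ?_) rfl ?_
  · exact ⟨smAt_const 1, one_ne_zero⟩
  · intro i l p hp
    rw [hE4 i l p hp]
    simp

end Vale.Agent.P267
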