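import Vale.Agent.P267L.LR
import Vale.Agent.P267L.LQ3
import Vale.Agent.P267L.LO2

/-! P267, lifting part: the basis on the cover. -/

open scoped Manifold ContDiff Topology ENNReal
open Filter Metric Set MeasureTheory

noncomputable section

namespace Vale.Agent.P267

set_option linter.unusedSectionVars false

variable {M : Type} [TopologicalSpace M] [ChartedSpace C2 M] [T2Space M]

theorem LS_coo {C : Cov M} {k : M → M → ℂ} {m m' N : ℕ} {E : Fin m → C.I → M → ℂ}
    {a b : Fin m → ℝ} {Φ : Fin m' → C.I → M → ℂ} {c : (C.I → M → ℂ) → Fin m' → ℤ}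
    (h : C.Lat k N Φ c) (hN : 0 < N) (hE : ∀ j, C.SFr (E j)) (hc : ∀ j, C.CS 1 (E j) (a j) (b j)) :
    Coo C.bH (C.cv (C.can C.kf) 0) (fun j => C.cv (C.can (E j))) N
      fun w => c (C.perF N (C.shf w.2 (E w.1))) := by
  have e : ∀ w : Fin m × ℤ, shS w.2 (C.cv (C.can (E w.1))) = C.cv (C.can (C.shf w.2 (E w.1))) :=
    fun w => by rw [Cov.can_shf, Cov.cv_shf]
  refine ⟨fun w w' => ?_, fun w => ?_⟩
  · simp only [e]
    exact h.pair_cs hN ((hE _).shf _) ((hc _).shf _) ((hE _).shf _).can ((hc _).shf _).can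
      ((hE _).shf _) ((hc _).shf _) ((hE _).shf _).can ((hc _).shf _).can
  · simp only [e]
    exact h.deg_cs hN ((hE _).shf _) ((hc _).shf _) ((hE _).shf _).can ((hc _).shf _).can

theorem Cov.basis {X : Type} [TopologicalSpace X] [ChartedSpace C2 X] {π : M → X} {C : Cov M}
    {n : ℕ} (h : C.AllLat (pull π (canon X)) n) (hE : C.Erg) :
    ∃ (S : Set M) (E : Fin n → M → M → ℂ), IsBasis π C.g S E := by
  obtain ⟨N, Φ, c, hN, hL, hj⟩ := Cov.localise h hE
  choose E a b hc using hj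
  obtain ⟨h1, σ, h2⟩ := select (B := C.bH) (κ := C.cv (C.can C.kf) 0)
    (X := fun j => C.cv (C.can (E j))) (fun u v => C.bb_comm u v) (fun j => (hc j).cs.can.cv)
    (fun N' hN' => by
      obtain ⟨Φ', c', hL'⟩ := h N' hN'
      exact ⟨_, _, LS_coo hL' hN' (fun j => (hc j).fr) fun j => (hc j).cs⟩)
    (fun j => (hc j).sq hL hN) hN rfl (LS_coo hL hN (fun j => (hc j).fr) fun j => (hc j).cs)
    fun j => by rw [Cov.shf_zero]; exact (hc j).cls
  obtain ⟨a₀, ha⟩ := (Set.finite_range a).bddBelow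
  obtain ⟨b₀, hb⟩ := (Set.finite_range b).bddAbove
  have hs : ∀ j, C.CS 1 (E j) a₀ b₀ := fun j =>
    (hc j).cs.mono (ha (mem_range_self j)) (hb (mem_range_self j))
  refine ⟨C.t ⁻¹' Icc a₀ b₀, fun i => C.cb (E (σ i)) a₀ b₀, C.isCompact_t _ _,
    fun i => Cov.cb_bundle (hc _).fr (hs _), fun i p => Cov.cb_metric (hs _) (hc _).met p,
    fun i p hp => Cov.cb_triv _ hp, fun i m => ?_, fun W e U hU hS hT =>
      Cov.cb_indep (E := fun i => E (σ i)) h (fun i => (hc _).fr) (fun i => hs _) h2 W e U hU hS hT⟩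
  exact Cov.cb_euler h (hc (σ i)).fr (hs _) ((hc _).sq hL hN) (h1 _) m

end Vale.Agent.P267
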