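import Vale.Agent.P267L.LC
import Vale.Agent.P267.AH

/-! P267, lifting part: from the working model to the statement: connections. -/

open scoped Manifold ContDiff Topology ENNReal
open Filter Metric Set MeasureTheory

noncomputable section

namespace Vale.Agent.P267

set_option linter.unusedSectionVars false

variable {M : Type} [TopologicalSpace M] [ChartedSpace C2 M] [T2Space M]

theorem LT1_dif {P Q : OpenPartialHomeomorph M C2} (hP : IsCh P) (hQ : IsCh Q) {x : M}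
    (hp : x ∈ P.source) (hq : x ∈ Q.source) : DifferentiableAt ℝ (Q ∘ P.symm) (P x) :=
  (hP.tr hQ hp hq).differentiableAt.restrictScalars ℝ

theorem LT1_chain {E : Type} [NormedAddCommGroup E] [NormedSpace ℝ E] {f : M → E}
    {P Q : OpenPartialHomeomorph M C2} (hP : IsCh P) (hQ : IsCh Q) {x : M} (hp : x ∈ P.source)
    (hq : x ∈ Q.source) (hf : DifferentiableAt ℝ (f ∘ Q.symm) (Q x)) :
    fderiv ℝ (f ∘ P.symm) (P x) =
      (fderiv ℝ (f ∘ Q.symm) (Q x)).comp (fderiv ℝ (Q ∘ P.symm) (P x)) := by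
  have e : f ∘ P.symm =ᶠ[𝓝 (P x)] (f ∘ Q.symm) ∘ (Q ∘ P.symm) := by
    filter_upwards [(P.tendsto_symm hp).eventually (Q.open_source.mem_nhds hq)] with z hz
    simp only [Function.comp_apply, Q.left_inv hz]
  have e' : (Q ∘ P.symm) (P x) = Q x := congrArg Q (P.left_inv hp)
  rw [e.fderiv_eq, fderiv_comp _ (e' ▸ hf) (LT1_dif hP hQ hp hq), e']

theorem LT1_shift (C : Cov M) {P : OpenPartialHomeomorph M C2} (hP : IsCh P) (k : ℤ) :
    IsCh (shiftCh C.g P k) := by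
  have e : ∀ f : M → ℂ, (f ∘ (C.g ^ k : M ≃ₜ M).symm) ∘ (C.g ^ k : M ≃ₜ M) = f := fun f =>
    funext fun y => congrArg f ((C.g ^ k : M ≃ₜ M).symm_apply_apply y)
  refine ⟨fun p hp f => ?_, fun p hp f => ?_⟩
  · rw [← e f, C.hol_gz, e f]
    exact hP.hol _ hp.2 _
  · rw [← e f, C.sm_gz, e f]
    exact hP.sm _ hp.2 _

variable [IsManifold 𝓘(ℂ, C2) ω M]

namespace Cov
variable {C : Cov M} {θ θ' : C.I → M → C2 →L[ℝ] ℂ} {F : C.I → M → ℂ} {N : ℕ}

/-- A form in the coordinates of the preferred charts. -/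
def toS (C : Cov M) (α : M → C2 →L[ℝ] ℂ) (x : M) : C2 →L[ℝ] ℂ :=
  (α x).comp (fderiv ℝ (C.ch (C.idx x) ∘ (chartAt C2 x).symm) (chartAt C2 x x))

theorem inChart_toS {P : OpenPartialHomeomorph M C2} (hP : IsCh P) (α : M → C2 →L[ℝ] ℂ) {z : C2}
    (hz : z ∈ P.target) : inChart P (C.toS α) z = C.cmp P α z := by
  obtain ⟨x, hx, rfl⟩ : ∃ x ∈ P.source, P x = z := ⟨_, P.map_target hz, P.right_inv hz⟩
  rw [C.ac_cmp hx, inChart, P.left_inv hx, toS, ContinuousLinearMap.comp_assoc,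
    ← LT1_chain hP (isCh_chartAt x) hx (mem_chart_source _ x)
      (LT1_dif (isCh_chartAt x) (C.isCh _) (mem_chart_source _ x) (C.ac_src x)),
    (hP.tr (C.isCh _) hx (C.ac_src x)).differentiableAt.fderiv_restrictScalars ℝ]

theorem toS_d {f : M → ℂ} {x : M} (hf : SmAt f x) : C.toS (C.d f) x = dAt f x :=
  (LT1_chain (isCh_chartAt x) (C.isCh _) (mem_chart_source _ x) (C.ac_src x) (C.ac_d hf)).symm

theorem LT1_mem (C : Cov M) (p : M) : p ∈ C.U (C.idx p) (3 / 2) :=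
  C.U_mono _ (by norm_num) (C.mem_U_idx p)

theorem SFr.bundle (h : C.SFr F) : IsBundle SmAt (C.bun F) := fun p => by
  filter_upwards [(C.isOpen_U _ _).mem_nhds (C.LT1_mem p)] with q hq
  exact ⟨h.ne _ q hq, h.sm _ _ q ⟨hq, C.LT1_mem q⟩⟩

theorem LT1_pd {V : Type} {F : C.I → M → V} (h : C.Pd N F) (p x : M) :
    F (C.idx ((C.g ^ (N : ℤ)) p)) ((C.g ^ (N : ℤ)) x) = F (C.idx p) x := by
  rw [C.idx_gz]
  exact congrFun (congrFun h (C.idx p)) x

theorem Pd.bundle (h : C.Pd N F) : pull (C.g ^ N : M ≃ₜ M) (C.bun F) = C.bun F := by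
  rw [← zpow_natCast]
  exact funext fun p => funext fun x => LT1_pd h p x

theorem Con.toS (hF : C.SFr F) (h : C.Con F θ) (hP : C.Pd N θ) :
    IsConnection (C.g ^ N : M ≃ₜ M) (C.bun F) fun p => C.toS (θ (C.idx p)) := by
  refine ⟨fun p v => ?_, fun p => ?_, fun p => Eventually.of_forall fun x => ?_⟩
  · filter_upwards [(h.sm _ p (C.LT1_mem p)).cmp_sm (isCh_chartAt p) (mem_chart_source _ p) v,
      (chartAt C2 p).open_target.mem_nhds (mem_chart_target _ p)] with z h1 h2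
    refine h1.congr_of_eventuallyEq ?_
    filter_upwards [(chartAt C2 p).open_target.mem_nhds h2] with y hy
    rw [inChart_toS (isCh_chartAt p) _ hy]
  · filter_upwards [(C.isOpen_U _ _).mem_nhds (C.LT1_mem p)] with q hq
    filter_upwards [(C.isOpen_U _ _).mem_nhds hq, (C.isOpen_U _ _).mem_nhds (C.LT1_mem q)]
      with x h1 h2
    rw [bun, bun, ← toS_d (C := C) (hF.sm _ _ x ⟨h1, h2⟩), Cov.toS, Cov.toS, Cov.toS,
      ← ContinuousLinearMap.sub_comp, h.tr _ _ x ⟨h1, h2⟩]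
    rfl
  · rw [← zpow_natCast]
    have hq : x ∈ (shiftCh C.g (chartAt C2 ((C.g ^ (N : ℤ)) x)) N).source :=
      ⟨trivial, mem_chart_source _ _⟩
    have hQ := LT1_shift C (isCh_chartAt ((C.g ^ (N : ℤ)) x)) N
    have e : C.ch (C.idx x) ∘ (shiftCh C.g (chartAt C2 ((C.g ^ (N : ℤ)) x)) N).symm =
        C.ch (C.idx ((C.g ^ (N : ℤ)) x)) ∘ (chartAt C2 ((C.g ^ (N : ℤ)) x)).symm := by
      funext z
      rw [C.idx_gz, Function.comp_apply, ← C.ch_shift _ N]
      exact congrArg _ ((C.g ^ (N : ℤ) : M ≃ₜ M).apply_symm_apply _)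
    simp only [Cov.toS]
    rw [LT1_pd hP, LT1_chain (isCh_chartAt x) hQ (mem_chart_source _ x) hq
      (LT1_dif hQ (C.isCh _) hq (C.ac_src x)), e]
    rfl

theorem Con.curv (hF : C.SFr F) (h : C.Con F θ) (i : C.I) {z : C2} (hz : ‖z‖ < 3 / 2) :
    curv (C.ch i) (fun p => C.toS (θ (C.idx p))) z = C.Om θ i z := by
  obtain ⟨x, hx, rfl⟩ : ∃ x ∈ C.U i (3 / 2), C.ch i x = z :=
    ⟨_, (C.symm_mem_U i (by norm_num) hz).1, (C.symm_mem_U i (by norm_num) hz).2⟩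
  funext a b
  have h1 := C.LT1_mem x
  have h2 := hF.sm _ _ x ⟨hx, h1⟩
  have h3 : (F i / F (C.idx x)) x ≠ 0 := div_ne_zero (hF.ne _ x hx) (hF.ne _ x h1)
  have e1 : inChart (C.ch i) (C.toS (θ (C.idx x))) =ᶠ[𝓝 (C.ch i x)]
      C.cmp (C.ch i) (θ (C.idx x)) := by
    filter_upwards [(C.ch i).open_target.mem_nhds ((C.ch i).map_source hx.1)] with y hy
    exact inChart_toS (C.isCh i) _ hy
  have e2 : θ i =ᶠ[𝓝 x] θ (C.idx x) + C.dl (F i / F (C.idx x)) := by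
    filter_upwards [(C.isOpen_U _ _).mem_nhds hx, (C.isOpen_U _ _).mem_nhds h1] with y y1 y2
    rw [Pi.add_apply, ← h.tr _ _ y ⟨y1, y2⟩, add_sub_cancel]
  have d : ∀ {α : M → C2 →L[ℝ] ℂ}, C.SmO α x → ∀ v,
      DifferentiableAt ℝ (fun y => C.cmp (C.ch i) α y v) (C.ch i x) := fun hα v =>
    (hα.cmp_sm (C.isCh i) hx.1 v).self_of_nhds.differentiableAt (by simp)
  rw [P267.curv, Om, (C.ch i).left_inv hx.1, extD_congr e1, extD_congr (AD_cmp hx.1 e2),
    show C.cmp (C.ch i) (θ (C.idx x) + C.dl (F i / F (C.idx x))) =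
      C.cmp (C.ch i) (θ (C.idx x)) + C.cmp (C.ch i) (C.dl (F i / F (C.idx x))) from
        funext fun y => C.cmp_add _ y,
    extD_add (d (h.sm _ x h1)) (d (smO_dl h2 h3)), extD_dl h2 h3 (C.isCh i) hx.1, add_zero]

end Cov

end Vale.Agent.P267
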