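import Vale.Agent.P267L.LT1

/-! P267, lifting part: from the working model to the statement: the pairing. -/

open scoped Manifold ContDiff Topology ENNReal
open Filter Metric Set MeasureTheory

noncomputable section

namespace Vale.Agent.P267

set_option linter.unusedSectionVars false

variable {M : Type} [TopologicalSpace M] [ChartedSpace C2 M] [T2Space M]

variable [IsManifold 𝓘(ℂ, C2) ω M]

theorem LT2_fold {f : ℤ → ℝ} (hf : (Function.support f).Finite) {N : ℕ} [NeZero N] :
    ∑ᶠ k : ℤ, ∑ j : Fin N, f ((j : ℕ) + N * k) = ∑ᶠ m, f m := by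
  rw [← finsum_comp_equiv (f := f) (Int.divModEquiv N).symm, finsum_curry]
  · refine finsum_congr fun k => ?_
    rw [finsum_eq_sum_of_fintype]
    refine Finset.sum_congr rfl fun j _ => congrArg f ?_
    simp only [Int.divModEquiv_symm_apply]
    ring
  · exact (hf.preimage (Int.divModEquiv N).symm.injective.injOn).subset fun _ h => h

theorem LT2_int (C : Cov M) {F F' : C.I → M → ℂ} {θ θ' : C.I → M → C2 →L[ℝ] ℂ} (hF : C.SFr F)
    (hF' : C.SFr F') (h : C.Con F θ) (h' : C.Con F' θ') (a : C.ι) (k : ℤ) :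
    ∫ z in (C.ch (a, k)).target, (C.rho (a, k) ((C.ch (a, k)).symm z) : ℂ) *
      wedge (curv (C.ch (a, k)) (fun p => C.toS (θ (C.idx p))) z)
        (curv (C.ch (a, k)) (fun p => C.toS (θ' (C.idx p))) z) =
    ∫ z : K1, (C.ρ a ((C.e a).symm z) : ℂ) * wedge (C.cv θ k a z) (C.cv θ' k a z)
      ∂(volume.comap Subtype.val) := by
  rw [C.ch_target, setIntegral_eq_of_subset_of_forall_sdiff_eq_zero (s := closedBall 0 1)
    measurableSet_ball (closedBall_subset_ball (by norm_num)),
    ← integral_subtype_comap measurableSet_closedBall]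
  · refine integral_congr_ae (Eventually.of_forall fun z => ?_)
    have hz : ‖(z : C2)‖ < 3 / 2 := (mem_closedBall_zero_iff.1 z.2).trans_lt (by norm_num)
    simp only [h.curv hF _ hz, h'.curv hF' _ hz, h.sm.cv_apply, h'.sm.cv_apply, Cov.rho,
      C.ch_symm, ← C.gz_add, add_neg_cancel, zpow_zero, Homeomorph.one_apply]
  · intro z hz
    have h1 := C.symm_mem_U (a, k) le_rfl (mem_ball_zero_iff.1 hz.1)
    have h2 : C.rho (a, k) ((C.ch (a, k)).symm z) = 0 := by_contra fun h0 =>
      hz.2 (mem_closedBall_zero_iff.2 (h1.2 ▸ (C.rho_supp h0).2))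
    rw [h2, Complex.ofReal_zero, zero_mul]

theorem Cov.partition (C : Cov M) {N : ℕ} (hN : 0 < N) :
    ∃ (l : ℕ) (P : Fin l → OpenPartialHomeomorph M C2) (ψ : Fin l → M → ℝ),
      IsPartition (C.g ^ N) P ψ ∧ (∀ a, IsCh (P a)) ∧
      ∀ (F F' : C.I → M → ℂ) (θ θ' : C.I → M → C2 →L[ℝ] ℂ), C.SFr F → C.SFr F' → C.Con F θ →
        C.Con F' θ' → pairing P ψ (fun p => C.toS (θ (C.idx p))) (fun p => C.toS (θ' (C.idx p))) =
          C.pr N (C.cv θ) (C.cv θ') := by
  have : NeZero N := ⟨hN.ne'⟩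
  let e := (Fintype.equivFin (C.ι × Fin N)).symm
  let J : C.ι × Fin N → C.I := fun x => (x.1, (x.2 : ℕ))
  have hs : ∀ i : C.I, tsupport (C.rho i) ⊆ {p | p ∈ (C.ch i).source ∧ ‖C.ch i p‖ ≤ 1} :=
    fun i => closure_minimal (fun _ hp => C.rho_supp hp)
      (C.isCompact_cl i (by norm_num)).isClosed
  refine ⟨_, fun a => C.ch (J (e a)), fun a => C.rho (J (e a)), ⟨fun a => (C.isCh _).hol,
    fun a => continuous_iff_continuousAt.2 fun p =>
      Complex.continuous_re.continuousAt.comp (C.rho_sm _ p).continuousAt,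
    fun a => (C.isCompact_cl _ (by norm_num)).of_isClosed_subset (isClosed_tsupport _) (hs _),
    fun a p hp => (hs _ hp).1, fun x => ?_⟩, fun a => C.isCh _, fun F F' θ θ' hF hF' h h' => ?_⟩
  · rw [← C.ρ_sum x, ← LT2_fold (N := N) (f := fun k => ∑ a, C.ρ a ((C.g ^ k) x))]
    · refine finsum_congr fun k => ?_
      rw [e.sum_comp fun y => C.rho (J y) (((C.g ^ N) ^ k) x), Fintype.sum_prod_type_right]
      simp only [Cov.rho, J, C.gz_add, zpow_mul, zpow_natCast]
    · obtain ⟨W, hW⟩ := C.fin_slab (C.t x) (C.t x)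
      refine ((W.finite_toSet).image Prod.snd).subset fun k hk => ?_
      obtain ⟨a, -, ha⟩ := Finset.exists_ne_zero_of_sum_ne_zero hk
      exact mem_image_of_mem Prod.snd
        (hW (a, k) x (C.rho_supp (i := (a, k)) ha).1 ⟨le_rfl, le_rfl⟩)
  · rw [pairing, e.sum_comp fun y => ∫ z in (C.ch (J y)).target,
      (C.rho (J y) ((C.ch (J y)).symm z) : ℂ) *
        wedge (curv (C.ch (J y)) (fun p => C.toS (θ (C.idx p))) z)
          (curv (C.ch (J y)) (fun p => C.toS (θ' (C.idx p))) z), Fintype.sum_prod_type_right,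
      Cov.pr, Finset.sum_range, Finset.mul_sum]
    refine Finset.sum_congr rfl fun j _ => ?_
    simp only [J, LT2_int C hF hF' h h', Cov.bb]

end Vale.Agent.P267
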