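import Vale.Agent.P267L.LS
import Vale.Agent.P267L.LT5
import Vale.Agent.P267S.Main
import Vale.Agent.P267M.Model
import Vale.Agent.P267.BM
import Vale.Agent.P267C.Glue

/-! P267: the assembly. -/

open scoped Manifold ContDiff Topology ENNReal
open Filter Metric Set MeasureTheory

noncomputable section

namespace Vale.Agent.P267

variable {X M : Type} [TopologicalSpace X] [ChartedSpace C2 X] [IsManifold 𝓘(ℂ, C2) ω X]
  [TopologicalSpace M] [ChartedSpace C2 M] [IsManifold 𝓘(ℂ, C2) ω M]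
  [CompactSpace X] [T2Space X] [T2Space M] [ConnectedSpace M]
  {π : M → X} {g : M ≃ₜ M} {t : M → ℝ}

omit [T2Space X] in
theorem curves1 (h : IsCover π g t) (hK : NoTwistedCanonical π g) {n : ℕ} {S : Set M}
    {E : Fin n → M → M → ℂ} (hB : IsBasis π g S E) :
    ∃ C : Fin n → Set X, Function.Injective C ∧ ∀ i, IsRationalCurve (C i) := by
  rcases Nat.eq_zero_or_pos n with rfl | hn
  · exact ⟨Fin.elim0, fun i => i.elim0, fun i => i.elim0⟩
  obtain ⟨C, rfl, rfl, -, H, hF⟩ := P267M.model h hK hB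
  obtain ⟨u, s, O⟩ := C.solver H hF hn
  have := P267M.sec_count h
  exact P267C.curves_down h (O.cv H fun k p => P267M.g_hol h k p)

omit [T2Space X] [ConnectedSpace M] in
theorem exists_cov (h : IsCover π g t) (hK : NoTwistedCanonical π g) :
    ∃ C : Cov M, C.g = g ∧ C.t = t := by
  have hB : IsBasis π g (∅ : Set M) (Fin.elim0 : Fin 0 → M → M → ℂ) :=
    ⟨isCompact_empty, fun i => i.elim0, fun i => i.elim0, fun i => i.elim0, fun i => i.elim0,
      fun W a U _ _ _ w _ => w.1.elim0⟩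
  obtain ⟨C, h1, h2, -⟩ := P267M.model h hK hB
  exact ⟨C, h1, h2⟩

theorem curves2_of (herg : ∀ C : Cov M, C.Erg) (h : IsCover π g t) (hK : NoTwistedCanonical π g)
    {n : ℕ} (hL : ∀ N : ℕ, 0 < N → ∃ (L : Fin (n * N) → M → M → ℂ)
      (c : (M → M → ℂ) → Fin (n * N) → ℤ), IsLattice (g ^ N) (pull π (canon X)) L c) :
    ∃ C : Fin n → Set X, Function.Injective C ∧ ∀ i, IsRationalCurve (C i) := by
  obtain ⟨C, rfl, rfl⟩ := exists_cov h hK
  have hA : C.AllLat (pull π (canon X)) n := fun N hN => by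
    obtain ⟨L, c, hl⟩ := hL N hN
    obtain ⟨Φ, hΦ⟩ := Cov.lat_of h hN hl
    exact ⟨Φ, _, hΦ⟩
  obtain ⟨S, E, hB⟩ := Cov.basis hA (herg C)
  exact curves1 h hK hB

end Vale.Agent.P267
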